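import Mathlib

/-!
The gap constant in the equality case of the three-dimensional volume product inequality.
-/

namespace Vale.Agent.Lib.P248

/-- The lower bound in the equality induction. -/
noncomputable def gapConst (e : ℝ) : ENNReal := ENNReal.ofReal (64 / 9 * (1 + e / 1280))

end Vale.Agent.Lib.P248
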