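import Vale.Agent.Lib.P248.Eq.Claim
import Vale.Agent.Lib.P248.Eq.Gap
import Vale.Agent.Lib.P248.Body

/-!
Module E9: the equality case for bodies.  From polytopes to convex bodies, bodies which are not
tetrahedra are `Far`, the exact value at the centroid of a tetrahedron, and the transfer to
Euclidean three-space.
-/

open MeasureTheory Set Filter Topology
open scoped Pointwise

namespace Vale.Agent.Lib.P248

/-! ### A small cross-polytope inside a convex set with the axis points -/

lemma axis_coord {ρ : ℝ} (hρ : 0 < ρ) (t : ℝ) :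
    ∃ s : ℝ, (s = ρ ∨ s = -ρ) ∧ |t| / ρ * s = t := by
  rcases le_total 0 t with h | h
  · refine ⟨ρ, Or.inl rfl, ?_⟩
    rw [abs_of_nonneg h]
    field_simp
  · refine ⟨-ρ, Or.inr rfl, ?_⟩
    rw [abs_of_nonpos h]
    field_simp

/-- A convex set with the axis points contains the cross-polytope. -/
lemma mem_of_l1 {ρ : ℝ} (hρ : 0 < ρ) {C : Set F} (hC : Convex ℝ C)
    (hax : ((axisPts ρ : Finset F) : Set F) ⊆ C) {w : F}
    (hw : |w.1.1| + |w.1.2| + |w.2| ≤ ρ) : w ∈ C := by
  obtain ⟨h1, h2, h3, h4, h5, h6⟩ := mem_axisPts ρ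
  have m1 : ((ρ, 0), 0) ∈ C := hax h1
  have m2 : ((-ρ, 0), 0) ∈ C := hax h2
  have m3 : ((0, ρ), 0) ∈ C := hax h3
  have m4 : ((0, -ρ), 0) ∈ C := hax h4
  have m5 : ((0, 0), ρ) ∈ C := hax h5
  have m6 : ((0, 0), -ρ) ∈ C := hax h6
  have m0 : (0 : F) ∈ C := by
    have := hC m1 m2 (a := 1 / 2) (b := 1 / 2) (by norm_num) (by norm_num) (by norm_num)
    convert this using 1
    ext <;> simp
  obtain ⟨s1, hs1, es1⟩ := axis_coord hρ w.1.1
  obtain ⟨s2, hs2, es2⟩ := axis_coord hρ w.1.2
  obtain ⟨s3, hs3, es3⟩ := axis_coord hρ w.2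
  have p1 : ((s1, 0), 0) ∈ C := by
    rcases hs1 with rfl | rfl
    · exact m1
    · exact m2
  have p2 : ((0, s2), 0) ∈ C := by
    rcases hs2 with rfl | rfl
    · exact m3
    · exact m4
  have p3 : ((0, 0), s3) ∈ C := by
    rcases hs3 with rfl | rfl
    · exact m5
    · exact m6
  have hne : ρ ≠ 0 := hρ.ne'
  have hs : |w.1.1| / ρ + |w.1.2| / ρ + |w.2| / ρ + (1 - |w.1.1| / ρ - |w.1.2| / ρ - |w.2| / ρ) = 1 := by
    ring
  have hd : 0 ≤ 1 - |w.1.1| / ρ - |w.1.2| / ρ - |w.2| / ρ := by
    have : |w.1.1| / ρ + |w.1.2| / ρ + |w.2| / ρ ≤ 1 := by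
      rw [← add_div, ← add_div, div_le_one hρ]
      exact hw
    linarith
  have := convex_four hC p1 p2 p3 m0 (by positivity) (by positivity) (by positivity) hd hs
  convert this using 1
  ext
  · simp [es1]
  · simp [es2]
  · simp [es3]

/-! ### Bodies from polytopes -/

/-- Bodies from polytopes, as in `body_of_finite`; here `(1 + δ)⁻¹ • A ⊆ convexHull S` gives
`Far (convexHull S) (e / 2)` for small `δ`. -/
theorem body_eq (hpair : ∀ e : ℝ, 0 < e → e ≤ 1 / 10000000 →
      ∀ X N : Finset F, Pair X N →
      (Far (convexHull ℝ (X : Set F)) e ∨ Far (convexHull ℝ (N : Set F)) e) →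
      gapConst e ≤ volume (convexHull ℝ (X : Set F)) * volume (convexHull ℝ (N : Set F)))
    (A : Set F) (hc : IsCompact A) (hconv : Convex ℝ A) (h0 : (0 : F) ∈ interior A)
    {e : ℝ} (he : 0 < e) (he1 : e ≤ 1 / 10000000) (hfar : Far A e) :
    gapConst (e / 2) ≤ volume A * volume (polarSet A) := by
  classical
  obtain ⟨r, hr, hball⟩ := Metric.isOpen_iff.1 isOpen_interior 0 h0
  set ρ : ℝ := r / 2 with hρdef
  have hρ : 0 < ρ := by positivity
  have hρr : ρ < r := by rw [hρdef]; linarith
  have haxis : ((axisPts ρ : Finset F) : Set F) ⊆ A := by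
    intro u hu
    exact interior_subset (hball (axisPts_subset_ball hρ.le hρr u hu))
  have hAfin : volume A ≠ ⊤ := hc.measure_lt_top.ne
  -- the key inequality for each small ε
  have key : ∀ ε : ℝ, 0 < ε → ε ≤ e / 14 → gapConst (e / 2) ≤
      ENNReal.ofReal ((1 + ε) ^ 3) * (volume A * volume (polarSet A)) := by
    intro ε hε hεe
    have hδ : 0 < ε * ρ / 3 := by positivity
    obtain ⟨t, htA, htf, hcov⟩ := hc.finite_cover_balls hδ
    set S : Finset F := htf.toFinset ∪ axisPts ρ with hSdef
    have hSA : (S : Set F) ⊆ A := by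
      intro u hu
      rw [Finset.mem_coe, hSdef, Finset.mem_union] at hu
      rcases hu with hu | hu
      · exact htA (htf.mem_toFinset.1 hu)
      · exact haxis hu
    have haxS : ((axisPts ρ : Finset F) : Set F) ⊆ (S : Set F) := by
      intro u hu
      rw [Finset.mem_coe] at hu ⊢
      exact Finset.mem_union_right _ hu
    have hspan : ∀ y : F, y ≠ 0 → ∃ u ∈ S, 0 < dot y u := by
      intro y hy
      obtain ⟨u, hu, hu'⟩ := axis_span hρ y hy
      exact ⟨u, Finset.mem_union_right _ hu, hu'⟩
    obtain ⟨X, N, hP, hX, hN⟩ := exists_pair S hspan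
    set K : Set F := convexHull ℝ (S : Set F) with hK
    have hKA : K ⊆ A := convexHull_min hSA hconv
    have hKconv : Convex ℝ K := convex_convexHull ℝ _
    have hSK : (S : Set F) ⊆ K := subset_convexHull ℝ _
    have hne : (1 + ε) ≠ 0 := by positivity
    have hconvS : volume K ≤ volume A := measure_mono hKA
    -- `A` inside a dilate of the hull
    have hAK : A ⊆ (1 + ε) • K := by
      intro x hx
      rw [mem_smul_set_iff_inv_smul_mem₀ hne]
      obtain ⟨u, hu, hxu⟩ : ∃ u ∈ t, x ∈ Metric.ball u (ε * ρ / 3) := by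
        simpa using hcov hx
      have huS : u ∈ K := by
        apply hSK
        rw [Finset.mem_coe]
        exact Finset.mem_union_left _ (htf.mem_toFinset.2 hu)
      have hn : ‖x - u‖ < ε * ρ / 3 := by
        have := Metric.mem_ball.1 hxu
        rwa [dist_eq_norm] at this
      have hw : ε⁻¹ • (x - u) ∈ K := by
        apply mem_of_l1 hρ hKconv (haxS.trans hSK)
        have c1 : |(x - u).1.1| ≤ ‖x - u‖ := by
          calc |(x - u).1.1| = ‖(x - u).1.1‖ := (Real.norm_eq_abs _).symm
            _ ≤ ‖(x - u).1‖ := norm_fst_le _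
            _ ≤ ‖x - u‖ := norm_fst_le _
        have c2 : |(x - u).1.2| ≤ ‖x - u‖ := by
          calc |(x - u).1.2| = ‖(x - u).1.2‖ := (Real.norm_eq_abs _).symm
            _ ≤ ‖(x - u).1‖ := norm_snd_le _
            _ ≤ ‖x - u‖ := norm_fst_le _
        have c3 : |(x - u).2| ≤ ‖x - u‖ := by
          calc |(x - u).2| = ‖(x - u).2‖ := (Real.norm_eq_abs _).symm
            _ ≤ ‖x - u‖ := norm_snd_le _
        simp only [Prod.smul_fst, Prod.smul_snd, smul_eq_mul, abs_mul, abs_inv, abs_of_pos hε]
        have : ε⁻¹ * |(x - u).1.1| + ε⁻¹ * |(x - u).1.2| + ε⁻¹ * |(x - u).2| =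
            ε⁻¹ * (|(x - u).1.1| + |(x - u).1.2| + |(x - u).2|) := by ring
        rw [this, inv_mul_le_iff₀ hε]
        nlinarith
      have hcomb := hKconv huS hw (a := (1 + ε)⁻¹) (b := ε * (1 + ε)⁻¹)
        (by positivity) (by positivity) (by field_simp)
      convert hcomb using 1
      have hcoef : ε * (1 + ε)⁻¹ * ε⁻¹ = (1 + ε)⁻¹ := by
        field_simp
      rw [smul_smul, hcoef, smul_sub]
      abel
    have hvolAK : volume A ≤ ENNReal.ofReal ((1 + ε) ^ 3) * volume K := by
      calc volume A ≤ volume ((1 + ε) • K) := measure_mono hAK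
        _ = ENNReal.ofReal ((1 + ε) ^ 3) * volume K := by
          have := haarF
          rw [Measure.addHaar_smul, finrank_F_body, abs_of_pos (by positivity)]
    have hKfin : volume K ≠ ⊤ := ne_top_of_le_ne_top hAfin hconvS
    have hreal : (volume A).toReal ≤ (1 + ε) ^ 3 * (volume K).toReal := by
      have h1 := ENNReal.toReal_mono (ENNReal.mul_ne_top ENNReal.ofReal_ne_top hKfin) hvolAK
      rwa [ENNReal.toReal_mul, ENNReal.toReal_ofReal (by positivity)] at h1
    -- `Far` for the hull
    have hfarK : Far K (e / 2) := by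
      intro a ha b hb c hc' d hd
      have h1 := hfar a (hKA ha) b (hKA hb) c (hKA hc') d (hKA hd)
      have hε1 : ε ≤ 1 := by
        have : e / 14 ≤ 1 := by linarith
        linarith
      have h2 : (1 + ε) ^ 3 ≤ 1 + 7 * ε := by
        have h3 : ε ^ 2 ≤ ε := by nlinarith
        have h4 : ε ^ 3 ≤ ε := by nlinarith
        nlinarith
      have h5 : (1 - e) * (1 + ε) ^ 3 ≤ 1 - e / 2 := by
        have h6 : (0 : ℝ) ≤ 1 - e := by linarith
        have h7 : (1 - e) * (1 + ε) ^ 3 ≤ (1 - e) * (1 + 7 * ε) :=
          mul_le_mul_of_nonneg_left h2 h6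
        nlinarith
      have h8 : (0 : ℝ) ≤ (volume K).toReal := ENNReal.toReal_nonneg
      have h9 : (0 : ℝ) ≤ 1 - e := by linarith
      calc tv a b c d ≤ (1 - e) * (volume A).toReal := h1
        _ ≤ (1 - e) * ((1 + ε) ^ 3 * (volume K).toReal) := mul_le_mul_of_nonneg_left hreal h9
        _ = ((1 - e) * (1 + ε) ^ 3) * (volume K).toReal := by ring
        _ ≤ (1 - e / 2) * (volume K).toReal := mul_le_mul_of_nonneg_right h5 h8
    have h1 := hpair (e / 2) (by positivity) (by linarith) X N hP
      (Or.inl (by rw [hX]; exact hfarK))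
    rw [hX, hN] at h1
    -- the polar
    have hpol : polarSet (S : Set F) ⊆ (1 + ε) • polarSet A := by
      intro y hy
      rw [mem_smul_set_iff_inv_smul_mem₀ hne]
      intro x hx
      rw [dot_smul_left']
      have hcb := coord_bound hρ haxS hy
      obtain ⟨u, hu, hxu⟩ : ∃ u ∈ t, x ∈ Metric.ball u (ε * ρ / 3) := by
        simpa using hcov hx
      have huS : u ∈ (S : Set F) := by
        rw [Finset.mem_coe]
        exact Finset.mem_union_left _ (htf.mem_toFinset.2 hu)
      have h2 : dot y u ≤ 1 := hy u huS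
      have h3 : dot y (x - u) ≤ ε := by
        have h4 := dot_le_of_norm y (x - u)
        have h5 : ‖x - u‖ ≤ ε * ρ / 3 := by
          have := Metric.mem_ball.1 hxu
          rw [dist_eq_norm] at this
          exact this.le
        have h6 : 0 ≤ ‖x - u‖ := norm_nonneg _
        calc dot y (x - u) ≤ (|y.1.1| + |y.1.2| + |y.2|) * ‖x - u‖ := h4
          _ ≤ (3 / ρ) * (ε * ρ / 3) := by gcongr
          _ = ε := by field_simp
      rw [dot_split y x u]
      rw [inv_mul_le_iff₀ (by positivity)]
      linarith
    have hvol : volume (polarSet (S : Set F)) ≤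
        ENNReal.ofReal ((1 + ε) ^ 3) * volume (polarSet A) := by
      calc volume (polarSet (S : Set F)) ≤ volume ((1 + ε) • polarSet A) := measure_mono hpol
        _ = ENNReal.ofReal ((1 + ε) ^ 3) * volume (polarSet A) := by
          have := haarF
          rw [Measure.addHaar_smul, finrank_F_body, abs_of_pos (by positivity)]
    calc gapConst (e / 2) ≤ volume K * volume (polarSet (S : Set F)) := h1
      _ ≤ volume A * (ENNReal.ofReal ((1 + ε) ^ 3) * volume (polarSet A)) := by gcongr
      _ = ENNReal.ofReal ((1 + ε) ^ 3) * (volume A * volume (polarSet A)) := by ring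
  -- the limit
  set P : ENNReal := volume A * volume (polarSet A) with hP
  by_cases hPtop : P = ⊤
  · rw [hPtop]; exact le_top
  have hlim : Tendsto (fun ε : ℝ => ENNReal.ofReal ((1 + ε) ^ 3) * P) (𝓝[>] 0)
      (𝓝 (ENNReal.ofReal ((1 + 0) ^ 3) * P)) := by
    apply ENNReal.Tendsto.mul_const _ (Or.inr hPtop)
    apply ENNReal.tendsto_ofReal
    have : Continuous fun ε : ℝ => (1 + ε) ^ 3 := by fun_prop
    exact (this.tendsto 0).mono_left nhdsWithin_le_nhds
  have hfinal : gapConst (e / 2) ≤ ENNReal.ofReal ((1 + 0) ^ 3) * P := by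
    apply ge_of_tendsto hlim
    have hpos : (0 : ℝ) < e / 14 := by positivity
    filter_upwards [Ioc_mem_nhdsGT hpos] with ε hε
    exact key ε hε.1 hε.2
  simpa using hfinal

/-! ### Bodies which are not tetrahedra -/

lemma tv_continuous : Continuous fun p : F × F × F × F => tv p.1 p.2.1 p.2.2.1 p.2.2.2 := by
  unfold tv det3
  simp only [Prod.fst_sub, Prod.snd_sub]
  fun_prop

/-- A tetrahedron of largest volume in a compact set. -/
lemma exists_max_tv {A : Set F} (hc : IsCompact A) (hne : A.Nonempty) :
    ∃ a ∈ A, ∃ b ∈ A, ∃ c ∈ A, ∃ d ∈ A, ∀ a' ∈ A, ∀ b' ∈ A, ∀ c' ∈ A, ∀ d' ∈ A,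
      tv a' b' c' d' ≤ tv a b c d := by
  have hK : IsCompact (A ×ˢ (A ×ˢ (A ×ˢ A))) := hc.prod (hc.prod (hc.prod hc))
  obtain ⟨x, hx⟩ := hne
  obtain ⟨p, hp, hmax⟩ := hK.exists_isMaxOn ⟨(x, x, x, x), by simp [hx]⟩
    tv_continuous.continuousOn
  simp only [mem_prod] at hp
  refine ⟨p.1, hp.1, p.2.1, hp.2.1, p.2.2.1, hp.2.2.1, p.2.2.2, hp.2.2.2, ?_⟩
  intro a' ha' b' hb' c' hc' d' hd'
  exact hmax (a := (a', b', c', d')) (by simp [ha', hb', hc', hd'])

/-- A convex body that is not a tetrahedron is `Far` for some positive `e`. -/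
theorem exists_far_of_not_simplex (A : Set F) (hc : IsCompact A) (hconv : Convex ℝ A)
    (hint : (interior A).Nonempty)
    (hns : ¬ ∃ a b c d : F, A = convexHull ℝ ({a, b, c, d} : Set F)) :
    ∃ e : ℝ, 0 < e ∧ e ≤ 1 / 10000000 ∧ Far A e := by
  have hne : A.Nonempty := hint.mono interior_subset
  obtain ⟨a, ha, b, hb, c, hc', d, hd, hmax⟩ := exists_max_tv hc hne
  set T : Set F := convexHull ℝ ({a, b, c, d} : Set F) with hT
  have hTA : T ⊆ A := by
    apply convexHull_min _ hconv
    intro x hx
    simp only [mem_insert_iff, mem_singleton_iff] at hx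
    rcases hx with rfl | rfl | rfl | rfl <;> assumption
  have hTvol : volume T = ENNReal.ofReal (tv a b c d) := volume_hull_four a b c d
  have hAfin : volume A ≠ ⊤ := hc.measure_lt_top.ne
  have hAneT : ¬ A ⊆ T := by
    intro hsub
    exact hns ⟨a, b, c, d, Subset.antisymm hsub hTA⟩
  obtain ⟨x, hxA, hxT⟩ := not_subset.1 hAneT
  -- `T` is closed
  have hTclosed : IsClosed T := by
    have : ({a, b, c, d} : Set F).Finite := by simp
    exact (this.isCompact_convexHull ℝ).isClosed
  -- the interior of `A` meets the complement of `T`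
  have hcl : x ∈ closure (interior A) := by
    rw [hconv.closure_interior_eq_closure_of_nonempty_interior hint]
    exact subset_closure hxA
  obtain ⟨w, hwT, hwI⟩ := mem_closure_iff.1 hcl Tᶜ hTclosed.isOpen_compl hxT
  set U : Set F := Tᶜ ∩ interior A with hU
  have hUopen : IsOpen U := hTclosed.isOpen_compl.inter isOpen_interior
  have hUpos : 0 < volume U := hUopen.measure_pos volume ⟨w, hwT, hwI⟩
  have hTU : Disjoint T U := by
    rw [Set.disjoint_left]
    intro y hy hy'
    exact hy'.1 hy
  have hUA : U ⊆ A := fun y hy => interior_subset hy.2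
  have hadd : volume T + volume U ≤ volume A := by
    rw [← measure_union hTU hUopen.measurableSet]
    exact measure_mono (union_subset hTA hUA)
  have hTfin : volume T ≠ ⊤ := ne_top_of_le_ne_top hAfin (measure_mono hTA)
  have hUfin : volume U ≠ ⊤ := ne_top_of_le_ne_top hAfin (measure_mono hUA)
  have hVpos : 0 < (volume A).toReal :=
    ENNReal.toReal_pos (ne_of_gt (hUpos.trans_le (measure_mono hUA))) hAfin
  have hlt : tv a b c d < (volume A).toReal := by
    have h1 : (volume T + volume U).toReal ≤ (volume A).toReal := ENNReal.toReal_mono hAfin hadd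
    rw [ENNReal.toReal_add hTfin hUfin, hTvol, ENNReal.toReal_ofReal (tv_nonneg a b c d)] at h1
    have h2 : 0 < (volume U).toReal := ENNReal.toReal_pos hUpos.ne' hUfin
    linarith
  set V : ℝ := (volume A).toReal with hV
  refine ⟨min ((V - tv a b c d) / V) (1 / 10000000), ?_, min_le_right _ _, ?_⟩
  · apply lt_min
    · apply div_pos (by linarith) hVpos
    · norm_num
  · intro a' ha' b' hb' c'' hc'' d' hd'
    have h1 := hmax a' ha' b' hb' c'' hc'' d' hd'
    have h2 : min ((V - tv a b c d) / V) (1 / 10000000) ≤ (V - tv a b c d) / V := min_le_left _ _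
    have h3 : (V - tv a b c d) / V * V = V - tv a b c d := by field_simp
    have h4 : min ((V - tv a b c d) / V) (1 / 10000000) * V ≤ (V - tv a b c d) / V * V :=
      mul_le_mul_of_nonneg_right h2 hVpos.le
    nlinarith

/-! ### The exact value for a tetrahedron with centroid at the origin -/

lemma det3_centroid (a b c : F) :
    det3 (b - a) (c - a) (-a - b - c - a) = -4 * det3 a b c ∨
      det3 (b - a) (c - a) (-a - b - c - a) = 4 * det3 a b c := by
  left
  simp only [det3, Prod.fst_sub, Prod.snd_sub, Prod.fst_neg, Prod.snd_neg]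
  ring

lemma cont_dot_arg (n : F) : Continuous fun p : F => dot n p := by
  unfold dot dot2
  fun_prop

/-- The volume product of a tetrahedron with centroid at the origin is `64 / 9`. -/
theorem simplex_exact {a b c d : F} (hsum : a + b + c + d = 0)
    (hint : (interior (convexHull ℝ ({a, b, c, d} : Set F))).Nonempty) :
    (0 : F) ∈ interior (convexHull ℝ ({a, b, c, d} : Set F)) ∧
      volume (convexHull ℝ ({a, b, c, d} : Set F)) *
        volume (polarSet (convexHull ℝ ({a, b, c, d} : Set F))) = ENNReal.ofReal (64 / 9) := by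
  have hd : d = -a - b - c := by
    have : d = -(a + b + c) := by
      rw [eq_neg_iff_add_eq_zero, ← hsum]
      abel
    rw [this]
    abel
  set T : Set F := convexHull ℝ ({a, b, c, d} : Set F) with hT
  have hTvol : volume T = ENNReal.ofReal (tv a b c d) := volume_hull_four a b c d
  have hTpos : 0 < volume T := isOpen_interior.measure_pos volume hint |>.trans_le
    (measure_mono interior_subset)
  have htvpos : 0 < tv a b c d := by
    rw [hTvol, ENNReal.ofReal_pos] at hTpos
    exact hTpos
  have hdet : |det3 (b - a) (c - a) (d - a)| = 4 * |det3 a b c| := by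
    subst hd
    rcases det3_centroid a b c with h | h <;> rw [h, abs_mul] <;> norm_num
  have hD : det3 a b c ≠ 0 := by
    intro h0
    unfold tv at htvpos
    rw [hdet, h0] at htvpos
    simp at htvpos
  obtain ⟨n1, n2, n3, ⟨e11, e12, e13⟩, ⟨e21, e22, e23⟩, ⟨e31, e32, e33⟩, hexp, hdual⟩ :=
    dual_exists hD
  have hTconv : Convex ℝ T := convex_convexHull ℝ _
  have ma : a ∈ T := subset_convexHull ℝ _ (by simp)
  have mb : b ∈ T := subset_convexHull ℝ _ (by simp)
  have mc : c ∈ T := subset_convexHull ℝ _ (by simp)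
  have md : d ∈ T := subset_convexHull ℝ _ (by simp)
  constructor
  · -- the origin is interior
    set U : Set F := {p | |dot n1 p| < 1 / 8 ∧ |dot n2 p| < 1 / 8 ∧ |dot n3 p| < 1 / 8} with hU
    have hUopen : IsOpen U := by
      have h1 : IsOpen {p : F | |dot n1 p| < 1 / 8} :=
        isOpen_lt (cont_dot_arg n1).abs continuous_const
      have h2 : IsOpen {p : F | |dot n2 p| < 1 / 8} :=
        isOpen_lt (cont_dot_arg n2).abs continuous_const
      have h3 : IsOpen {p : F | |dot n3 p| < 1 / 8} :=
        isOpen_lt (cont_dot_arg n3).abs continuous_const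
      exact h1.inter (h2.inter h3)
    have hU0 : (0 : F) ∈ U := by
      simp [hU]
    have hUT : U ⊆ T := by
      rintro p ⟨h1, h2, h3⟩
      rw [abs_lt] at h1 h2 h3
      set u1 := dot n1 p with hu1
      set u2 := dot n2 p with hu2
      set u3 := dot n3 p with hu3
      set s := (1 - u1 - u2 - u3) / 4 with hs
      have hps : p = (u1 + s) • a + (u2 + s) • b + (u3 + s) • c + s • d := by
        have h5 := hexp p
        have h6 : s • (a + b + c + d) = 0 := by rw [hsum, smul_zero]
        rw [smul_add, smul_add, smul_add] at h6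
        rw [add_smul, add_smul, add_smul]
        calc p = u1 • a + u2 • b + u3 • c := h5
          _ = u1 • a + u2 • b + u3 • c + (s • a + s • b + s • c + s • d) := by
            rw [h6, add_zero]
          _ = _ := by abel
      rw [hps]
      apply convex_four hTconv ma mb mc md
      · rw [hs]; linarith [h1.1, h1.2, h2.1, h2.2, h3.1, h3.2]
      · rw [hs]; linarith [h1.1, h1.2, h2.1, h2.2, h3.1, h3.2]
      · rw [hs]; linarith [h1.1, h1.2, h2.1, h2.2, h3.1, h3.2]
      · rw [hs]; linarith [h1.1, h1.2, h2.1, h2.2, h3.1, h3.2]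
      · rw [hs]; ring
    exact interior_maximal hUT hUopen hU0
  · -- the polar is a simplex
    have hpolar : polarSet T = simplexSet (n1 + n2 + n3) ((-4 : ℝ) • n1) ((-4 : ℝ) • n2) ((-4 : ℝ) • n3) := by
      rw [hT, polarSet_convexHull]
      ext y
      constructor
      · intro hy
        have y1 : dot y a ≤ 1 := hy a (by simp)
        have y2 : dot y b ≤ 1 := hy b (by simp)
        have y3 : dot y c ≤ 1 := hy c (by simp)
        have y4 : dot y d ≤ 1 := hy d (by simp)
        have y4' : dot y d = - dot y a - dot y b - dot y c := by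
          rw [hd]
          simp only [dot_sub_right, dot_neg_right]
        have hyexp : y = dot y a • n1 + dot y b • n2 + dot y c • n3 := by
          set v : F := y - (dot y a • n1 + dot y b • n2 + dot y c • n3) with hv
          have hall : ∀ p : F, dot v p = 0 := by
            intro p
            have h1 : dot y p = dot n1 p * dot y a + dot n2 p * dot y b + dot n3 p * dot y c := by
              conv_lhs => rw [hexp p]
              simp only [dot_add_right, dot_smul_right]
            rw [hv, dot_sub_left, dot_add_left, dot_add_left, dot_smul_left, dot_smul_left,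
              dot_smul_left, h1]
            ring
          have hvv := hall v
          have hv0 : v = 0 := by
            simp only [dot, dot2] at hvv
            have h1 : v.1.1 = 0 := by nlinarith [sq_nonneg v.1.1, sq_nonneg v.1.2, sq_nonneg v.2]
            have h2 : v.1.2 = 0 := by nlinarith [sq_nonneg v.1.1, sq_nonneg v.1.2, sq_nonneg v.2]
            have h3 : v.2 = 0 := by nlinarith [sq_nonneg v.1.1, sq_nonneg v.1.2, sq_nonneg v.2]
            ext <;> simp [h1, h2, h3]
          rw [hv] at hv0
          exact sub_eq_zero.1 hv0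
        rw [mem_simplexSet]
        refine ⟨(1 - dot y a) / 4, (1 - dot y b) / 4, (1 - dot y c) / 4, by linarith, by linarith,
          by linarith, by linarith, ?_⟩
        conv_lhs => rw [hyexp]
        ext <;> simp <;> ring
      · intro hy
        obtain ⟨α, β, γ, h1, h2, h3, h4, rfl⟩ := mem_simplexSet.1 hy
        have da : dot (n1 + n2 + n3 + α • ((-4 : ℝ) • n1) + β • ((-4 : ℝ) • n2) + γ • ((-4 : ℝ) • n3)) a =
            1 - 4 * α := by
          simp only [dot_add_left, dot_smul_left, e11, e21, e31]
          ring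
        have db : dot (n1 + n2 + n3 + α • ((-4 : ℝ) • n1) + β • ((-4 : ℝ) • n2) + γ • ((-4 : ℝ) • n3)) b =
            1 - 4 * β := by
          simp only [dot_add_left, dot_smul_left, e12, e22, e32]
          ring
        have dc : dot (n1 + n2 + n3 + α • ((-4 : ℝ) • n1) + β • ((-4 : ℝ) • n2) + γ • ((-4 : ℝ) • n3)) c =
            1 - 4 * γ := by
          simp only [dot_add_left, dot_smul_left, e13, e23, e33]
          ring
        intro x hx
        simp only [mem_insert_iff, mem_singleton_iff] at hx
        rcases hx with rfl | rfl | rfl | rfl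
        · rw [da]; linarith
        · rw [db]; linarith
        · rw [dc]; linarith
        · rw [hd, dot_sub_right, dot_sub_right, dot_neg_right, da, db, dc]
          linarith
    rw [hpolar, volume_simplexSet, hTvol, det3_scale, ← ENNReal.ofReal_mul (tv_nonneg a b c d)]
    congr 1
    unfold tv
    rw [hdet, abs_mul, abs_mul, abs_mul]
    have habs : |det3 n1 n2 n3| * |det3 a b c| = 1 := by
      rw [← abs_mul, hdual, abs_one]
    norm_num
    nlinarith

end Vale.Agent.Lib.P248
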