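import Vale.Agent.Lib.P248.Eq.Caps

/-!
Summation of the caps, and the bound for the height of points over a facet.
-/

open MeasureTheory Set

namespace Vale.Agent.Lib.P248

variable {v0 v1 v2 v3 c0 c1 c2 c3 : F} {b0 b1 b2 b3 : ℝ}

/-- The coordinates are nonnegative on the tetrahedron. -/
theorem Frame4.mf_nonneg_of_mem (fr : Frame4 v0 v1 v2 v3 c0 c1 c2 c3 b0 b1 b2 b3) {y : F}
    (hy : y ∈ simplexSet v0 (v1 - v0) (v2 - v0) (v3 - v0)) :
    0 ≤ mf c0 b0 y ∧ 0 ≤ mf c1 b1 y ∧ 0 ≤ mf c2 b2 y ∧ 0 ≤ mf c3 b3 y := by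
  obtain ⟨α, β, γ, g1, g2, g3, g4, rfl⟩ := mem_simplexSet.1 hy
  have dotR : ∀ c b (Pm : F), dot c (Pm - v0) = mf c b Pm - mf c b v0 := by
    intro c b Pm
    simp only [mf, dot_sub_right]
    ring
  have d00 : mf c0 b0 v0 = 1 := fr.d00
  have d01 : mf c1 b1 v0 = 0 := fr.d01
  have d02 : mf c2 b2 v0 = 0 := fr.d02
  have d03 : mf c3 b3 v0 = 0 := fr.d03
  have d10 : mf c0 b0 v1 = 0 := fr.d10
  have d11 : mf c1 b1 v1 = 1 := fr.d11
  have d12 : mf c2 b2 v1 = 0 := fr.d12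
  have d13 : mf c3 b3 v1 = 0 := fr.d13
  have d20 : mf c0 b0 v2 = 0 := fr.d20
  have d21 : mf c1 b1 v2 = 0 := fr.d21
  have d22 : mf c2 b2 v2 = 1 := fr.d22
  have d23 : mf c3 b3 v2 = 0 := fr.d23
  have d30 : mf c0 b0 v3 = 0 := fr.d30
  have d31 : mf c1 b1 v3 = 0 := fr.d31
  have d32 : mf c2 b2 v3 = 0 := fr.d32
  have d33 : mf c3 b3 v3 = 1 := fr.d33
  refine ⟨?_, ?_, ?_, ?_⟩
  · rw [mf_combo3, dotR c0 b0 v1, dotR c0 b0 v2, dotR c0 b0 v3, d00, d10, d20, d30]
    linarith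
  · rw [mf_combo3, dotR c1 b1 v1, dotR c1 b1 v2, dotR c1 b1 v3, d01, d11, d21, d31]
    linarith
  · rw [mf_combo3, dotR c2 b2 v1, dotR c2 b2 v2, dotR c2 b2 v3, d02, d12, d22, d32]
    linarith
  · rw [mf_combo3, dotR c3 b3 v1, dotR c3 b3 v2, dotR c3 b3 v3, d03, d13, d23, d33]
    linarith

/-- The tetrahedron and the four caps are disjoint subsets of `L`. -/
theorem Frame4.volume_caps (fr : Frame4 v0 v1 v2 v3 c0 c1 c2 c3 b0 b1 b2 b3) {L : Set F}
    (hL : Convex ℝ L) (hLm : MeasurableSet L) (h0 : v0 ∈ L) (h1 : v1 ∈ L) (h2 : v2 ∈ L) (h3 : v3 ∈ L) :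
    ENNReal.ofReal (tv v0 v1 v2 v3) + volume (capSet L c0 c1 c2 c3 b0 b1 b2 b3) +
        volume (capSet L c1 c2 c3 c0 b1 b2 b3 b0) + volume (capSet L c2 c3 c0 c1 b2 b3 b0 b1) +
        volume (capSet L c3 c0 c1 c2 b3 b0 b1 b2) ≤ volume L := by
  set T := simplexSet v0 (v1 - v0) (v2 - v0) (v3 - v0) with hT
  set C0 := capSet L c0 c1 c2 c3 b0 b1 b2 b3 with hC0
  set C1 := capSet L c1 c2 c3 c0 b1 b2 b3 b0 with hC1
  set C2 := capSet L c2 c3 c0 c1 b2 b3 b0 b1 with hC2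
  set C3 := capSet L c3 c0 c1 c2 b3 b0 b1 b2 with hC3
  have mC0 : MeasurableSet C0 := measurableSet_capSet hLm _ _ _ _ _ _ _ _
  have mC1 : MeasurableSet C1 := measurableSet_capSet hLm _ _ _ _ _ _ _ _
  have mC2 : MeasurableSet C2 := measurableSet_capSet hLm _ _ _ _ _ _ _ _
  have mC3 : MeasurableSet C3 := measurableSet_capSet hLm _ _ _ _ _ _ _ _
  have hTv : volume T = ENNReal.ofReal (tv v0 v1 v2 v3) := by
    rw [hT, volume_simplexSet]
    rfl
  have hTL : T ⊆ L := simplexSet_subset hL h0 h1 h2 h3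
  have d1 : Disjoint T C0 := by
    rw [Set.disjoint_left]
    intro y hy hc
    have := (fr.mf_nonneg_of_mem hy).1
    have h5 := hc.2.1
    linarith
  have d2 : Disjoint (T ∪ C0) C1 := by
    rw [Set.disjoint_left]
    rintro y (hy | hy) hc
    · have := (fr.mf_nonneg_of_mem hy).2.1
      have h5 := hc.2.1
      linarith
    · have h4 := hy.2.2.1
      have h5 := hc.2.1
      linarith
  have d3 : Disjoint (T ∪ C0 ∪ C1) C2 := by
    rw [Set.disjoint_left]
    rintro y ((hy | hy) | hy) hc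
    · have := (fr.mf_nonneg_of_mem hy).2.2.1
      have h5 := hc.2.1
      linarith
    · have h4 := hy.2.2.2.1
      have h5 := hc.2.1
      linarith
    · have h4 := hy.2.2.1
      have h5 := hc.2.1
      linarith
  have d4 : Disjoint (T ∪ C0 ∪ C1 ∪ C2) C3 := by
    rw [Set.disjoint_left]
    rintro y (((hy | hy) | hy) | hy) hc
    · have := (fr.mf_nonneg_of_mem hy).2.2.2
      have h5 := hc.2.1
      linarith
    · have h4 := hy.2.2.2.2
      have h5 := hc.2.1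
      linarith
    · have h4 := hy.2.2.2.1
      have h5 := hc.2.1
      linarith
    · have h4 := hy.2.2.1
      have h5 := hc.2.1
      linarith
  have hsub : T ∪ C0 ∪ C1 ∪ C2 ∪ C3 ⊆ L := by
    rintro y ((((hy | hy) | hy) | hy) | hy)
    · exact hTL hy
    · exact hy.1
    · exact hy.1
    · exact hy.1
    · exact hy.1
  have := measure_mono (μ := volume) hsub
  rw [measure_union d4 mC3, measure_union d3 mC2, measure_union d2 mC1, measure_union d1 mC0,
    hTv] at this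
  exact this

/-- A point of `L` beyond the facet `0` gives a lower bound for the volume of `L`. -/
theorem Frame4.height_le (fr : Frame4 v0 v1 v2 v3 c0 c1 c2 c3 b0 b1 b2 b3) {L : Set F}
    (hL : Convex ℝ L) (hLm : MeasurableSet L) (h0 : v0 ∈ L) (h1 : v1 ∈ L) (h2 : v2 ∈ L)
    (h3 : v3 ∈ L) {x : F} (hx : x ∈ L) {g : ℝ} (hg : 0 < g) (hgx : mf c0 b0 x = -g) :
    ENNReal.ofReal (tv v0 v1 v2 v3) + ENNReal.ofReal (97 / 100 * g * tv v0 v1 v2 v3) ≤ volume L := by
  set τ : ℝ := 99 / 100 with hτ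
  have hτ0 : 0 ≤ τ := by rw [hτ]; norm_num
  have hτ1 : τ ≤ 1 := by rw [hτ]; norm_num
  set T := simplexSet v0 (v1 - v0) (v2 - v0) (v3 - v0) with hT
  set Y := simplexSet x (τ • (v1 - x)) (τ • (v2 - x)) (τ • (v3 - x)) with hY
  have mY : MeasurableSet Y := measurableSet_simplexSet _ _ _ _
  have hTv : volume T = ENNReal.ofReal (tv v0 v1 v2 v3) := by
    rw [hT, volume_simplexSet]
    rfl
  have hTL : T ⊆ L := simplexSet_subset hL h0 h1 h2 h3
  have hQ : ∀ {z : F}, z ∈ L → x + τ • (z - x) ∈ L := by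
    intro z hz
    have := hL hx hz (by linarith : 0 ≤ 1 - τ) hτ0 (by ring)
    convert this using 1
    ext <;> simp <;> ring
  have hYL : Y ⊆ L := by
    have := simplexSet_subset hL hx (hQ h1) (hQ h2) (hQ h3)
    simpa [add_sub_cancel_left] using this
  have hneg : ∀ y ∈ Y, mf c0 b0 y < 0 := by
    intro y hy
    obtain ⟨α, β, γ, g1, g2, g3, g4, rfl⟩ := mem_simplexSet.1 hy
    rw [mf_combo3, hgx]
    have dotR : ∀ (Pm : F), dot c0 (τ • (Pm - x)) = τ * (mf c0 b0 Pm + g) := by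
      intro Pm
      rw [dot_smul_right, dot_sub_right]
      have : dot c0 x = mf c0 b0 x - b0 := by simp only [mf]; ring
      rw [this, hgx]
      simp only [mf]
      ring
    rw [dotR, dotR, dotR]
    have d10 : mf c0 b0 v1 = 0 := fr.d10
    have d20 : mf c0 b0 v2 = 0 := fr.d20
    have d30 : mf c0 b0 v3 = 0 := fr.d30
    rw [d10, d20, d30]
    have : (α + β + γ) * (τ * g) ≤ 1 * (τ * g) :=
      mul_le_mul_of_nonneg_right g4 (by positivity)
    have hτg : τ * g < g := by rw [hτ]; linarith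
    nlinarith
  have d1 : Disjoint T Y := by
    rw [Set.disjoint_left]
    intro y hy hc
    have := (fr.mf_nonneg_of_mem hy).1
    have h5 := hneg y hc
    linarith
  have hsub : T ∪ Y ⊆ L := by
    rintro y (hy | hy)
    · exact hTL hy
    · exact hYL hy
  have := measure_mono (μ := volume) hsub
  rw [measure_union d1 mY, hTv] at this
  refine le_trans ?_ this
  gcongr
  rw [hY, volume_simplexSet]
  apply ENNReal.ofReal_le_ofReal
  have e : det3 (τ • (v1 - x)) (τ • (v2 - x)) (τ • (v3 - x)) = τ * τ * τ * det3 (v1 - x) (v2 - x) (v3 - x) :=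
    det3_scale _ _ _ _ _ _
  rw [e, abs_mul, abs_of_nonneg (by positivity)]
  have h5 := fr.tv_repl0 x
  rw [hgx, abs_neg, abs_of_pos hg] at h5
  unfold tv at h5
  have h6 : |det3 (v1 - x) (v2 - x) (v3 - x)| / 6 = g * tv v0 v1 v2 v3 := by
    unfold tv
    exact h5
  have hT0 := tv_nonneg v0 v1 v2 v3
  have h7 : τ * τ * τ * |det3 (v1 - x) (v2 - x) (v3 - x)| / 6 =
      τ * τ * τ * (g * tv v0 v1 v2 v3) := by
    rw [← h6]
    ring
  rw [h7]
  have h8 : (97 : ℝ) / 100 ≤ τ * τ * τ := by rw [hτ]; norm_num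
  have h9 : 0 ≤ g * tv v0 v1 v2 v3 := by positivity
  nlinarith

end Vale.Agent.Lib.P248
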