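import Vale.Agent.Lib.P248.Eq.Frame

/-!
Volume lost by a convex set containing the origin inside a fan of simplices.
-/

open MeasureTheory Set

namespace Vale.Agent.Lib.P248

/-- The simplex with vertices `0, A, B, C`. -/
def cone3 (A B C : F) : Set F := simplexSet 0 A B C

lemma mem_cone3 {A B C y : F} :
    y ∈ cone3 A B C ↔ ∃ α β γ : ℝ, 0 ≤ α ∧ 0 ≤ β ∧ 0 ≤ γ ∧ α + β + γ ≤ 1 ∧
      y = α • A + β • B + γ • C := by
  unfold cone3
  rw [mem_simplexSet]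
  simp only [zero_add]

lemma volume_cone3 (A B C : F) : volume (cone3 A B C) = ENNReal.ofReal (|det3 A B C| / 6) :=
  volume_simplexSet 0 A B C

/-- Relative volume lost by shrinking the three rays. -/
noncomputable def fl (x y z : ℝ) : ℝ := 1 - (1 + x)⁻¹ * (1 + y)⁻¹ * (1 + z)⁻¹

lemma fl_le_sum {x y z : ℝ} (hx : 0 ≤ x) (hy : 0 ≤ y) (hz : 0 ≤ z) : fl x y z ≤ x + y + z := by
  unfold fl
  have key : ∀ {u : ℝ}, 0 ≤ u → 0 ≤ (1 + u)⁻¹ ∧ (1 + u)⁻¹ ≤ 1 ∧ 1 - u ≤ (1 + u)⁻¹ := by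
    intro u hu
    refine ⟨by positivity, inv_le_one_of_one_le₀ (by linarith), ?_⟩
    rw [inv_eq_one_div, le_div_iff₀ (by linarith)]
    nlinarith [sq_nonneg u]
  obtain ⟨p0, p1, p2⟩ := key hx
  obtain ⟨q0, q1, q2⟩ := key hy
  obtain ⟨r0, r1, r2⟩ := key hz
  set p := (1 + x)⁻¹
  set q := (1 + y)⁻¹
  set r := (1 + z)⁻¹
  have e : 1 - p * q * r = (1 - p) + p * (1 - q) + p * q * (1 - r) := by ring
  have h1 : p * (1 - q) ≤ 1 - q := by nlinarith
  have h2 : p * q ≤ 1 := mul_le_one₀ p1 q0 q1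
  have h3 : p * q * (1 - r) ≤ 1 - r := by nlinarith
  rw [e]
  linarith

lemma fl_nonneg {x y z : ℝ} (hx : 0 ≤ x) (hy : 0 ≤ y) (hz : 0 ≤ z) : 0 ≤ fl x y z := by
  unfold fl
  have h1 : (1 + x)⁻¹ ≤ 1 := inv_le_one_of_one_le₀ (by linarith)
  have h2 : (1 + y)⁻¹ ≤ 1 := inv_le_one_of_one_le₀ (by linarith)
  have h3 : (1 + z)⁻¹ ≤ 1 := inv_le_one_of_one_le₀ (by linarith)
  have p2 : 0 ≤ (1 + y)⁻¹ := by positivity
  have p3 : 0 ≤ (1 + z)⁻¹ := by positivity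
  have h4 : (1 + x)⁻¹ * (1 + y)⁻¹ ≤ 1 := mul_le_one₀ h1 p2 h2
  have h5 : (1 + x)⁻¹ * (1 + y)⁻¹ * (1 + z)⁻¹ ≤ 1 := mul_le_one₀ h4 p3 h3
  linarith

/-- Loss in one simplex of the fan. -/
theorem cell_loss {P : Set F} (hP : Convex ℝ P) (h0 : (0 : F) ∈ P) (A B C : F) {x y z : ℝ}
    (hx : 0 ≤ x) (hy : 0 ≤ y) (hz : 0 ≤ z)
    (hA : (1 + x)⁻¹ • A ∈ P) (hB : (1 + y)⁻¹ • B ∈ P) (hC : (1 + z)⁻¹ • C ∈ P) :
    volume (cone3 A B C \ P) ≤ ENNReal.ofReal (|det3 A B C| / 6 * fl x y z) := by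
  set p := (1 + x)⁻¹ with hp
  set q := (1 + y)⁻¹ with hq
  set r := (1 + z)⁻¹ with hr
  have p0 : 0 ≤ p := by positivity
  have q0 : 0 ≤ q := by positivity
  have r0 : 0 ≤ r := by positivity
  have p1 : p ≤ 1 := inv_le_one_of_one_le₀ (by linarith)
  have q1 : q ≤ 1 := inv_le_one_of_one_le₀ (by linarith)
  have r1 : r ≤ 1 := inv_le_one_of_one_le₀ (by linarith)
  have hsub : cone3 (p • A) (q • B) (r • C) ⊆ cone3 A B C := by
    intro y hy
    obtain ⟨α, β, γ, h1, h2, h3, h4, rfl⟩ := mem_cone3.1 hy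
    rw [mem_cone3]
    refine ⟨α * p, β * q, γ * r, by positivity, by positivity, by positivity, ?_, ?_⟩
    · nlinarith [mul_le_of_le_one_right h1 p1, mul_le_of_le_one_right h2 q1,
        mul_le_of_le_one_right h3 r1]
    · simp only [smul_smul]
  have hsubP : cone3 (p • A) (q • B) (r • C) ⊆ P := by
    intro y hy
    obtain ⟨α, β, γ, h1, h2, h3, h4, rfl⟩ := mem_cone3.1 hy
    have := convex_four hP h0 hA hB hC (a := 1 - α - β - γ) (b := α) (c := β) (d := γ)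
      (by linarith) h1 h2 h3 (by ring)
    simpa using this
  have hdet : det3 (p • A) (q • B) (r • C) = p * q * r * det3 A B C := det3_scale A B C p q r
  have habs : |det3 (p • A) (q • B) (r • C)| = p * q * r * |det3 A B C| := by
    rw [hdet, abs_mul, abs_of_nonneg (by positivity : 0 ≤ p * q * r)]
  calc volume (cone3 A B C \ P)
      ≤ volume (cone3 A B C \ cone3 (p • A) (q • B) (r • C)) :=
        measure_mono (sdiff_subset_sdiff_right hsubP)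
    _ = volume (cone3 A B C) - volume (cone3 (p • A) (q • B) (r • C)) := by
        apply measure_sdiff hsub (measurableSet_simplexSet _ _ _ _).nullMeasurableSet
        rw [volume_cone3]
        exact ENNReal.ofReal_ne_top
    _ = ENNReal.ofReal (|det3 A B C| / 6 * fl x y z) := by
        rw [volume_cone3, volume_cone3, habs, ← ENNReal.ofReal_sub _ (by positivity)]
        congr 1
        unfold fl
        ring

/-- The total loss in a sector with inset rays. -/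
noncomputable def Lf (w G1 G2 E1 E2 : ℝ) : ℝ :=
  w * fl G1 G2 E1 + w * (1 - w) * fl G2 E1 E2 + (1 - w) ^ 2 * fl E1 E2 0

lemma Lf_nonneg {w G1 G2 E1 E2 : ℝ} (h0 : 0 ≤ w) (h1 : w ≤ 1) (hG1 : 0 ≤ G1) (hG2 : 0 ≤ G2)
    (hE1 : 0 ≤ E1) (hE2 : 0 ≤ E2) : 0 ≤ Lf w G1 G2 E1 E2 := by
  unfold Lf
  have a1 := fl_nonneg hG1 hG2 hE1
  have a2 := fl_nonneg hG2 hE1 hE2
  have a3 := fl_nonneg hE1 hE2 (le_refl (0 : ℝ))
  have : 0 ≤ 1 - w := by linarith
  positivity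

lemma Lf_le {w G1 G2 E1 E2 : ℝ} (h0 : 0 ≤ w) (h1 : w ≤ 1) (hG1 : 0 ≤ G1) (hG2 : 0 ≤ G2)
    (hE1 : 0 ≤ E1) (hE2 : 0 ≤ E2) (hE1G : E1 ≤ G1) (hE2G : E2 ≤ G2) :
    Lf w G1 G2 E1 E2 ≤ 3 * w * (G1 + G2) + (1 - w) ^ 2 * (E1 + E2) := by
  unfold Lf
  have a1 := fl_le_sum hG1 hG2 hE1
  have a2 := fl_le_sum hG2 hE1 hE2
  have a3 := fl_le_sum hE1 hE2 (le_refl (0 : ℝ))
  have w1 : 0 ≤ 1 - w := by linarith
  have b1 : w * fl G1 G2 E1 ≤ w * (G1 + G2 + E1) := mul_le_mul_of_nonneg_left a1 h0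
  have b2 : w * (1 - w) * fl G2 E1 E2 ≤ w * (1 - w) * (G2 + E1 + E2) :=
    mul_le_mul_of_nonneg_left a2 (mul_nonneg h0 w1)
  have b3 : (1 - w) ^ 2 * fl E1 E2 0 ≤ (1 - w) ^ 2 * (E1 + E2 + 0) :=
    mul_le_mul_of_nonneg_left a3 (by positivity)
  have b4 : w * (1 - w) * (G2 + E1 + E2) ≤ w * (G2 + E1 + E2) := by
    have : 0 ≤ G2 + E1 + E2 := by positivity
    have h3 : (1 - w) * (G2 + E1 + E2) ≤ 1 * (G2 + E1 + E2) :=
      mul_le_mul_of_nonneg_right (by linarith) this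
    nlinarith [mul_le_mul_of_nonneg_left h3 h0]
  have b5 : w * (G1 + G2 + E1) ≤ w * (2 * G1 + G2) :=
    mul_le_mul_of_nonneg_left (by linarith) h0
  have b6 : w * (G2 + E1 + E2) ≤ w * (G1 + 2 * G2) :=
    mul_le_mul_of_nonneg_left (by linarith) h0
  nlinarith

/-- Loss in a sector `0, A, B, M`. -/
theorem sector_loss {P : Set F} (hP : Convex ℝ P) (h0 : (0 : F) ∈ P) (A B M : F) {w G1 G2 E1 E2 : ℝ}
    (hw0 : 0 < w) (hw1 : w < 1) (hG1 : 0 ≤ G1) (hG2 : 0 ≤ G2) (hE1 : 0 ≤ E1) (hE2 : 0 ≤ E2)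
    (hA : (1 + G1)⁻¹ • A ∈ P) (hB : (1 + G2)⁻¹ • B ∈ P)
    (hI1 : (1 + E1)⁻¹ • ((1 - w) • A + w • M) ∈ P)
    (hI2 : (1 + E2)⁻¹ • ((1 - w) • B + w • M) ∈ P) (hM : M ∈ P) :
    volume (cone3 A B M \ P) ≤ ENNReal.ofReal (|det3 A B M| / 6 * Lf w G1 G2 E1 E2) := by
  set I1 := (1 - w) • A + w • M with hI1d
  set I2 := (1 - w) • B + w • M with hI2d
  have w1 : 0 < 1 - w := by linarith
  have hcover : cone3 A B M ⊆ cone3 A B I1 ∪ cone3 B I1 I2 ∪ cone3 I1 I2 M := by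
    intro y hy
    obtain ⟨α, β, γ, h1, h2, h3, h4, rfl⟩ := mem_cone3.1 hy
    by_cases hc : w / (1 - w) * (α + β) ≤ γ
    · -- inner cell
      right
      rw [mem_cone3]
      refine ⟨α / (1 - w), β / (1 - w), γ - w / (1 - w) * (α + β), by positivity, by positivity,
        by linarith, ?_, ?_⟩
      · have : α / (1 - w) + β / (1 - w) + (γ - w / (1 - w) * (α + β)) = α + β + γ := by
          field_simp
          ring
        linarith
      · rw [hI1d, hI2d]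
        ext <;> simp <;> field_simp <;> ring
    · push Not at hc
      left
      by_cases hd : γ * (1 - w) / w ≤ α
      · left
        rw [mem_cone3]
        refine ⟨α - γ * (1 - w) / w, β, γ / w, by linarith, h2, by positivity, ?_, ?_⟩
        · have : α - γ * (1 - w) / w + β + γ / w = α + β + γ := by
            field_simp
            ring
          linarith
        · rw [hI1d]
          ext <;> simp <;> field_simp <;> ring
      · push Not at hd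
        right
        have h5 : γ * (1 - w) / w < α + β := by
          have : γ * (1 - w) < w * (α + β) := by
            rw [div_mul_eq_mul_div, lt_div_iff₀ w1] at hc
            linarith
          rw [div_lt_iff₀ hw0]
          linarith
        have h6 : 0 ≤ γ / w - α / (1 - w) := by
          have : α / (1 - w) ≤ γ / w := by
            rw [div_le_div_iff₀ w1 hw0]
            rw [lt_div_iff₀ hw0] at hd
            linarith
          linarith
        rw [mem_cone3]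
        refine ⟨α + β - γ * (1 - w) / w, α / (1 - w), γ / w - α / (1 - w), by linarith,
          by positivity, h6, ?_, ?_⟩
        · have : α + β - γ * (1 - w) / w + α / (1 - w) + (γ / w - α / (1 - w)) = α + β + γ := by
            field_simp
            ring
          linarith
        · rw [hI1d, hI2d]
          ext <;> simp <;> field_simp <;> ring
  have c1 := cell_loss hP h0 A B I1 hG1 hG2 hE1 hA hB hI1
  have c2 := cell_loss hP h0 B I1 I2 hG2 hE1 hE2 hB hI1 hI2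
  have c3 := cell_loss hP h0 I1 I2 M hE1 hE2 (le_refl (0 : ℝ)) hI1 hI2 (by simpa using hM)
  have d1 : det3 A B I1 = w * det3 A B M := by
    simp only [hI1d, det3, Prod.fst_add, Prod.snd_add, Prod.smul_fst, Prod.smul_snd, smul_eq_mul]
    ring
  have d2 : det3 B I1 I2 = -(w * (1 - w)) * det3 A B M := by
    simp only [hI1d, hI2d, det3, Prod.fst_add, Prod.snd_add, Prod.smul_fst, Prod.smul_snd,
      smul_eq_mul]
    ring
  have d3 : det3 I1 I2 M = (1 - w) ^ 2 * det3 A B M := by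
    simp only [hI1d, hI2d, det3, Prod.fst_add, Prod.snd_add, Prod.smul_fst, Prod.smul_snd,
      smul_eq_mul]
    ring
  have a1 := fl_nonneg hG1 hG2 hE1
  have a2 := fl_nonneg hG2 hE1 hE2
  have a3 := fl_nonneg hE1 hE2 (le_refl (0 : ℝ))
  have e1 : |det3 A B I1| = w * |det3 A B M| := by
    rw [d1, abs_mul, abs_of_pos hw0]
  have e2 : |det3 B I1 I2| = w * (1 - w) * |det3 A B M| := by
    rw [d2, abs_mul, abs_neg, abs_of_pos (mul_pos hw0 w1)]
  have e3 : |det3 I1 I2 M| = (1 - w) ^ 2 * |det3 A B M| := by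
    rw [d3, abs_mul, abs_of_pos (by positivity)]
  have hsub : cone3 A B M \ P ⊆ (cone3 A B I1 \ P) ∪ (cone3 B I1 I2 \ P) ∪ (cone3 I1 I2 M \ P) := by
    rintro y ⟨hy, hyP⟩
    rcases hcover hy with (h | h) | h
    · exact Or.inl (Or.inl ⟨h, hyP⟩)
    · exact Or.inl (Or.inr ⟨h, hyP⟩)
    · exact Or.inr ⟨h, hyP⟩
  have hle : volume (cone3 A B M \ P) ≤ volume (cone3 A B I1 \ P) + volume (cone3 B I1 I2 \ P)
      + volume (cone3 I1 I2 M \ P) :=
    (measure_mono hsub).trans ((measure_union_le _ _).trans (by gcongr; exact measure_union_le _ _))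
  refine hle.trans ((add_le_add (add_le_add c1 c2) c3).trans ?_)
  rw [← ENNReal.ofReal_add (by positivity) (by positivity),
    ← ENNReal.ofReal_add (by positivity) (by positivity)]
  apply ENNReal.ofReal_le_ofReal
  rw [e1, e2, e3]
  unfold Lf
  apply le_of_eq
  ring

lemma min3 (a b c : ℝ) : (a ≤ b ∧ a ≤ c) ∨ (b ≤ a ∧ b ≤ c) ∨ (c ≤ a ∧ c ≤ b) := by
  rcases le_total a b with h1 | h1 <;> rcases le_total a c with h2 | h2 <;>
    rcases le_total b c with h3 | h3 <;>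
    first
    | exact Or.inl ⟨by linarith, by linarith⟩
    | exact Or.inr (Or.inl ⟨by linarith, by linarith⟩)
    | exact Or.inr (Or.inr ⟨by linarith, by linarith⟩)

lemma min4 (a b c d : ℝ) : (a ≤ b ∧ a ≤ c ∧ a ≤ d) ∨ (b ≤ a ∧ b ≤ c ∧ b ≤ d) ∨
    (c ≤ a ∧ c ≤ b ∧ c ≤ d) ∨ (d ≤ a ∧ d ≤ b ∧ d ≤ c) := by
  rcases min3 a b c with h | h | h
  · rcases le_total a d with h1 | h1
    · exact Or.inl ⟨h.1, h.2, h1⟩
    · exact Or.inr (Or.inr (Or.inr ⟨h1, by linarith, by linarith⟩))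
  · rcases le_total b d with h1 | h1
    · exact Or.inr (Or.inl ⟨h.1, h.2, h1⟩)
    · exact Or.inr (Or.inr (Or.inr ⟨by linarith, h1, by linarith⟩))
  · rcases le_total c d with h1 | h1
    · exact Or.inr (Or.inr (Or.inl ⟨h.1, h.2, h1⟩))
    · exact Or.inr (Or.inr (Or.inr ⟨by linarith, by linarith, h1⟩))

/-- Core of the sector cover. -/
lemma sector_core {n1 n2 n3 : F} {b1 b2 b3 a1 a2 a3 : ℝ} (p1 : 0 < b1) (p2 : 0 < b2) (p3 : 0 < b3)
    (h1 : 0 ≤ a1) (h2 : 0 ≤ a2) (h3 : 0 ≤ a3) (hs : a1 + a2 + a3 ≤ 1)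
    (m1 : a3 / b3 ≤ a1 / b1) (m2 : a3 / b3 ≤ a2 / b2) :
    a1 • n1 + a2 • n2 + a3 • n3 ∈
      cone3 n1 n2 ((b1 + b2 + b3)⁻¹ • (b1 • n1 + b2 • n2 + b3 • n3)) := by
  have hs0 : 0 < b1 + b2 + b3 := by positivity
  rw [mem_cone3]
  have e1 : 0 ≤ a1 - a3 / b3 * b1 := by
    rw [le_div_iff₀ p1] at m1
    linarith
  have e2 : 0 ≤ a2 - a3 / b3 * b2 := by
    rw [le_div_iff₀ p2] at m2
    linarith
  refine ⟨a1 - a3 / b3 * b1, a2 - a3 / b3 * b2, a3 / b3 * (b1 + b2 + b3), e1, e2, by positivity, ?_, ?_⟩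
  · have : a1 - a3 / b3 * b1 + (a2 - a3 / b3 * b2) + a3 / b3 * (b1 + b2 + b3) = a1 + a2 + a3 := by
      field_simp
      ring
    linarith
  · ext <;> simp <;> field_simp <;> ring

/-- Loss in a simplex `0, n1, n2, n3` with three sectors. -/
theorem cone_loss {P : Set F} (hP : Convex ℝ P) (h0 : (0 : F) ∈ P) {n1 n2 n3 M : F}
    {b1 b2 b3 w G1 G2 G3 E1 E2 E3 : ℝ}
    (p1 : 0 < b1) (p2 : 0 < b2) (p3 : 0 < b3)
    (hM : M = (b1 + b2 + b3)⁻¹ • (b1 • n1 + b2 • n2 + b3 • n3))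
    (hw0 : 0 < w) (hw1 : w < 1) (hG1 : 0 ≤ G1) (hG2 : 0 ≤ G2) (hG3 : 0 ≤ G3)
    (hE1 : 0 ≤ E1) (hE2 : 0 ≤ E2) (hE3 : 0 ≤ E3)
    (mG1 : (1 + G1)⁻¹ • n1 ∈ P) (mG2 : (1 + G2)⁻¹ • n2 ∈ P) (mG3 : (1 + G3)⁻¹ • n3 ∈ P)
    (mE1 : (1 + E1)⁻¹ • ((1 - w) • n1 + w • M) ∈ P)
    (mE2 : (1 + E2)⁻¹ • ((1 - w) • n2 + w • M) ∈ P)
    (mE3 : (1 + E3)⁻¹ • ((1 - w) • n3 + w • M) ∈ P) (mM : M ∈ P) :
    volume (cone3 n1 n2 n3 \ P) ≤ ENNReal.ofReal (|det3 n1 n2 n3| / 6 / (b1 + b2 + b3) *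
      (b3 * Lf w G1 G2 E1 E2 + b1 * Lf w G2 G3 E2 E3 + b2 * Lf w G3 G1 E3 E1)) := by
  have hs0 : 0 < b1 + b2 + b3 := by positivity
  have M2 : M = (b2 + b3 + b1)⁻¹ • (b2 • n2 + b3 • n3 + b1 • n1) := by
    rw [hM, show b2 + b3 + b1 = b1 + b2 + b3 by ring, show b2 • n2 + b3 • n3 + b1 • n1 =
      b1 • n1 + b2 • n2 + b3 • n3 by abel]
  have M3 : M = (b3 + b1 + b2)⁻¹ • (b3 • n3 + b1 • n1 + b2 • n2) := by
    rw [hM, show b3 + b1 + b2 = b1 + b2 + b3 by ring, show b3 • n3 + b1 • n1 + b2 • n2 =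
      b1 • n1 + b2 • n2 + b3 • n3 by abel]
  have hcover : cone3 n1 n2 n3 ⊆ cone3 n1 n2 M ∪ cone3 n2 n3 M ∪ cone3 n3 n1 M := by
    intro y hy
    obtain ⟨a1, a2, a3, h1, h2, h3, h4, rfl⟩ := mem_cone3.1 hy
    rcases min3 (a1 / b1) (a2 / b2) (a3 / b3) with ⟨m1, m2⟩ | ⟨m1, m2⟩ | ⟨m1, m2⟩
    · left; right
      have := sector_core (n1 := n2) (n2 := n3) (n3 := n1) p2 p3 p1 h2 h3 h1 (by linarith) m1 m2
      rw [← M2] at this
      convert this using 1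
      abel
    · right
      have := sector_core (n1 := n3) (n2 := n1) (n3 := n2) p3 p1 p2 h3 h1 h2 (by linarith) m2 m1
      rw [← M3] at this
      convert this using 1
      abel
    · left; left
      have := sector_core (n1 := n1) (n2 := n2) (n3 := n3) p1 p2 p3 h1 h2 h3 h4 m1 m2
      rw [← hM] at this
      exact this
  have c1 := sector_loss hP h0 n1 n2 M hw0 hw1 hG1 hG2 hE1 hE2 mG1 mG2 mE1 mE2 mM
  have c2 := sector_loss hP h0 n2 n3 M hw0 hw1 hG2 hG3 hE2 hE3 mG2 mG3 mE2 mE3 mM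
  have c3 := sector_loss hP h0 n3 n1 M hw0 hw1 hG3 hG1 hE3 hE1 mG3 mG1 mE3 mE1 mM
  set D := det3 n1 n2 n3 with hD
  set s := b1 + b2 + b3 with hs
  have d1 : det3 n1 n2 M = s⁻¹ * b3 * D := by
    rw [hM, hD]
    simp only [det3, Prod.fst_add, Prod.snd_add, Prod.smul_fst, Prod.smul_snd, smul_eq_mul]
    ring
  have d2 : det3 n2 n3 M = s⁻¹ * b1 * D := by
    rw [hM, hD]
    simp only [det3, Prod.fst_add, Prod.snd_add, Prod.smul_fst, Prod.smul_snd, smul_eq_mul]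
    ring
  have d3 : det3 n3 n1 M = s⁻¹ * b2 * D := by
    rw [hM, hD]
    simp only [det3, Prod.fst_add, Prod.snd_add, Prod.smul_fst, Prod.smul_snd, smul_eq_mul]
    ring
  have e1 : |det3 n1 n2 M| = s⁻¹ * b3 * |D| := by
    rw [d1, abs_mul, abs_of_pos (by positivity)]
  have e2 : |det3 n2 n3 M| = s⁻¹ * b1 * |D| := by
    rw [d2, abs_mul, abs_of_pos (by positivity)]
  have e3 : |det3 n3 n1 M| = s⁻¹ * b2 * |D| := by
    rw [d3, abs_mul, abs_of_pos (by positivity)]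
  have l1 := Lf_nonneg hw0.le hw1.le hG1 hG2 hE1 hE2
  have l2 := Lf_nonneg hw0.le hw1.le hG2 hG3 hE2 hE3
  have l3 := Lf_nonneg hw0.le hw1.le hG3 hG1 hE3 hE1
  have hsub : cone3 n1 n2 n3 \ P ⊆ (cone3 n1 n2 M \ P) ∪ (cone3 n2 n3 M \ P) ∪ (cone3 n3 n1 M \ P) := by
    rintro y ⟨hy, hyP⟩
    rcases hcover hy with (h | h) | h
    · exact Or.inl (Or.inl ⟨h, hyP⟩)
    · exact Or.inl (Or.inr ⟨h, hyP⟩)
    · exact Or.inr ⟨h, hyP⟩
  have hle : volume (cone3 n1 n2 n3 \ P) ≤ volume (cone3 n1 n2 M \ P) + volume (cone3 n2 n3 M \ P)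
      + volume (cone3 n3 n1 M \ P) :=
    (measure_mono hsub).trans ((measure_union_le _ _).trans (by gcongr; exact measure_union_le _ _))
  refine hle.trans ((add_le_add (add_le_add c1 c2) c3).trans ?_)
  rw [← ENNReal.ofReal_add (by positivity) (by positivity),
    ← ENNReal.ofReal_add (by positivity) (by positivity)]
  apply ENNReal.ofReal_le_ofReal
  rw [e1, e2, e3]
  apply le_of_eq
  field_simp

/-- Core of the cover of a simplex containing the origin by four cones. -/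
lemma top_core {n0 n1 n2 n3 : F} {b0 b1 b2 b3 a0 a1 a2 a3 : ℝ} (p0 : 0 < b0) (p1 : 0 < b1)
    (p2 : 0 < b2) (p3 : 0 < b3) (hb : b0 + b1 + b2 + b3 = 1)
    (hn : b0 • n0 + b1 • n1 + b2 • n2 + b3 • n3 = 0)
    (h0 : 0 ≤ a0) (ha : a0 + a1 + a2 + a3 = 1)
    (m1 : a0 / b0 ≤ a1 / b1) (m2 : a0 / b0 ≤ a2 / b2) (m3 : a0 / b0 ≤ a3 / b3) :
    a0 • n0 + a1 • n1 + a2 • n2 + a3 • n3 ∈ cone3 n1 n2 n3 := by
  rw [mem_cone3]
  have e1 : 0 ≤ a1 - a0 / b0 * b1 := by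
    rw [le_div_iff₀ p1] at m1
    linarith
  have e2 : 0 ≤ a2 - a0 / b0 * b2 := by
    rw [le_div_iff₀ p2] at m2
    linarith
  have e3 : 0 ≤ a3 - a0 / b0 * b3 := by
    rw [le_div_iff₀ p3] at m3
    linarith
  refine ⟨a1 - a0 / b0 * b1, a2 - a0 / b0 * b2, a3 - a0 / b0 * b3, e1, e2, e3, ?_, ?_⟩
  · have h5 : a1 - a0 / b0 * b1 + (a2 - a0 / b0 * b2) + (a3 - a0 / b0 * b3) = 1 - a0 / b0 := by
      have hb1 : b1 + b2 + b3 = 1 - b0 := by linarith
      have ha1 : a1 + a2 + a3 = 1 - a0 := by linarith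
      have : a1 - a0 / b0 * b1 + (a2 - a0 / b0 * b2) + (a3 - a0 / b0 * b3) =
          (a1 + a2 + a3) - a0 / b0 * (b1 + b2 + b3) := by ring
      rw [this, hb1, ha1]
      field_simp
      ring
    rw [h5]
    have : 0 ≤ a0 / b0 := by positivity
    linarith
  · have hn' : n0 = -(b0⁻¹ • (b1 • n1 + b2 • n2 + b3 • n3)) := by
      have h6 : b0 • n0 = -(b1 • n1 + b2 • n2 + b3 • n3) := by
        rw [eq_neg_iff_add_eq_zero, ← hn]
        abel
      calc n0 = b0⁻¹ • (b0 • n0) := by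
            rw [smul_smul, inv_mul_cancel₀ p0.ne', one_smul]
        _ = -(b0⁻¹ • (b1 • n1 + b2 • n2 + b3 • n3)) := by
            rw [h6, smul_neg]
    rw [hn']
    ext <;> simp <;> field_simp <;> ring

/-- A simplex whose vertices positively span is covered by the four cones over its facets. -/
theorem top_cover {n0 n1 n2 n3 : F} {b0 b1 b2 b3 : ℝ} (p0 : 0 < b0) (p1 : 0 < b1)
    (p2 : 0 < b2) (p3 : 0 < b3) (hb : b0 + b1 + b2 + b3 = 1)
    (hn : b0 • n0 + b1 • n1 + b2 • n2 + b3 • n3 = 0) :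
    simplexSet n0 (n1 - n0) (n2 - n0) (n3 - n0) ⊆
      cone3 n1 n2 n3 ∪ cone3 n2 n3 n0 ∪ cone3 n3 n0 n1 ∪ cone3 n0 n1 n2 := by
  intro y hy
  obtain ⟨a1, a2, a3, h1, h2, h3, h4, rfl⟩ := mem_simplexSet.1 hy
  set a0 := 1 - a1 - a2 - a3 with ha0
  have h0 : 0 ≤ a0 := by rw [ha0]; linarith
  have ey : n0 + a1 • (n1 - n0) + a2 • (n2 - n0) + a3 • (n3 - n0) =
      a0 • n0 + a1 • n1 + a2 • n2 + a3 • n3 := by
    rw [ha0]
    ext <;> simp <;> ring
  rw [ey]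
  have hs : a0 + a1 + a2 + a3 = 1 := by rw [ha0]; ring
  rcases min4 (a0 / b0) (a1 / b1) (a2 / b2) (a3 / b3) with ⟨m1, m2, m3⟩ | ⟨m1, m2, m3⟩ |
    ⟨m1, m2, m3⟩ | ⟨m1, m2, m3⟩
  · left; left; left
    exact top_core p0 p1 p2 p3 hb hn h0 hs m1 m2 m3
  · left; left; right
    have := top_core (n0 := n1) (n1 := n2) (n2 := n3) (n3 := n0) p1 p2 p3 p0 (by linarith)
      (by rw [← hn]; abel) h1 (by linarith) m2 m3 m1
    convert this using 1
    abel
  · left; right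
    have := top_core (n0 := n2) (n1 := n3) (n2 := n0) (n3 := n1) p2 p3 p0 p1 (by linarith)
      (by rw [← hn]; abel) h2 (by linarith) m3 m1 m2
    convert this using 1
    abel
  · right
    have := top_core (n0 := n3) (n1 := n0) (n2 := n1) (n3 := n2) p3 p0 p1 p2 (by linarith)
      (by rw [← hn]; abel) h3 (by linarith) m1 m2 m3
    convert this using 1
    abel

end Vale.Agent.Lib.P248
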