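import Vale.Agent.Lib.P248.Eq.Frame
import Vale.Agent.Lib.P248.Eq.Cells

/-!
Lower bounds for the volume of a convex set containing a tetrahedron, from its caps.
-/

open MeasureTheory Set

namespace Vale.Agent.Lib.P248

lemma det3_combo (u1 u2 u3 : F) (x11 x21 x31 x12 x22 x32 x13 x23 x33 : ℝ) :
    det3 (x11 • u1 + x21 • u2 + x31 • u3) (x12 • u1 + x22 • u2 + x32 • u3)
      (x13 • u1 + x23 • u2 + x33 • u3) =
    (x11 * (x22 * x33 - x23 * x32) - x12 * (x21 * x33 - x23 * x31) +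
      x13 * (x21 * x32 - x22 * x31)) * det3 u1 u2 u3 := by
  simp only [det3, Prod.fst_add, Prod.snd_add, Prod.smul_fst, Prod.smul_snd, smul_eq_mul]
  ring

lemma det3_W (A B C : F) (u : ℝ) :
    det3 ((1 - 2 * u) • A + u • B + u • C) (u • A + (1 - 2 * u) • B + u • C)
      (u • A + u • B + (1 - 2 * u) • C) = (1 - 3 * u) ^ 2 * det3 A B C := by
  simp only [det3, Prod.fst_add, Prod.snd_add, Prod.smul_fst, Prod.smul_snd, smul_eq_mul]
  ring

lemma abs_mul3_le {a b c A B C : ℝ} (ha : |a| ≤ A) (hb : |b| ≤ B) (hc : |c| ≤ C) :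
    |a * b * c| ≤ A * B * C := by
  rw [abs_mul, abs_mul]
  have hA : 0 ≤ A := (abs_nonneg a).trans ha
  have hB : 0 ≤ B := (abs_nonneg b).trans hb
  exact mul_le_mul (mul_le_mul ha hb (abs_nonneg b) hA) hc (abs_nonneg c) (mul_nonneg hA hB)

/-- A matrix close to the identity has determinant close to one. -/
lemma det_near {x11 x21 x31 x12 x22 x32 x13 x23 x33 θ : ℝ} (h0 : 0 ≤ θ) (h1 : θ ≤ 1 / 1000)
    (a11 : |x11 - 1| ≤ θ) (a22 : |x22 - 1| ≤ θ) (a33 : |x33 - 1| ≤ θ)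
    (a21 : |x21| ≤ θ) (a31 : |x31| ≤ θ) (a12 : |x12| ≤ θ) (a32 : |x32| ≤ θ)
    (a13 : |x13| ≤ θ) (a23 : |x23| ≤ θ) :
    1 - 4 * θ ≤ x11 * (x22 * x33 - x23 * x32) - x12 * (x21 * x33 - x23 * x31) +
      x13 * (x21 * x32 - x22 * x31) := by
  have up : ∀ {x : ℝ}, |x - 1| ≤ θ → |x| ≤ 1 + θ := by
    intro x hx
    have := abs_le.1 hx
    rw [abs_le]
    constructor <;> linarith
  have t1 := abs_mul3_le (up a11) a23 a32
  have t2 := abs_mul3_le a12 a21 (up a33)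
  have t3 := abs_mul3_le a12 a23 a31
  have t4 := abs_mul3_le a13 a21 a32
  have t5 := abs_mul3_le a13 (up a22) a31
  have s1 := abs_le.1 t1
  have s2 := abs_le.1 t2
  have s3 := abs_le.1 t3
  have s4 := abs_le.1 t4
  have s5 := abs_le.1 t5
  have l1 : 1 - θ ≤ x11 := by linarith [(abs_le.1 a11).1]
  have l2 : 1 - θ ≤ x22 := by linarith [(abs_le.1 a22).1]
  have l3 : 1 - θ ≤ x33 := by linarith [(abs_le.1 a33).1]
  have hpos : 0 ≤ 1 - θ := by linarith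
  have m1 : (1 - θ) * (1 - θ) ≤ x11 * x22 := mul_le_mul l1 l2 hpos (by linarith)
  have m2 : (1 - θ) * (1 - θ) * (1 - θ) ≤ x11 * x22 * x33 :=
    mul_le_mul m1 l3 hpos (by nlinarith)
  have e : x11 * (x22 * x33 - x23 * x32) - x12 * (x21 * x33 - x23 * x31) +
      x13 * (x21 * x32 - x22 * x31) = x11 * x22 * x33 - x11 * x23 * x32 - x12 * x21 * x33 +
      x12 * x23 * x31 + x13 * x21 * x32 - x13 * x22 * x31 := by ring
  rw [e]
  have h2 : θ * θ ≤ θ * (1 / 1000) := mul_le_mul_of_nonneg_left h1 h0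
  have h3 : θ * θ * θ ≤ θ * θ * (1 / 1000) :=
    mul_le_mul_of_nonneg_left h1 (mul_nonneg h0 h0)
  have h4 : 0 ≤ θ * θ := mul_nonneg h0 h0
  have hh : (1 - θ) * (1 - θ) * (1 - θ) - (1 + θ) * θ * θ - θ * θ * (1 + θ) - θ * θ * θ -
      θ * θ * θ - θ * (1 + θ) * θ ≥ 1 - 4 * θ := by
    nlinarith
  linarith [s1.2, s2.2, s3.1, s4.1, s5.2]

lemma mf_mix3 (c : F) (b : ℝ) (x y z : F) {r s t : ℝ} (h : r + s + t = 1) :
    mf c b (r • x + s • y + t • z) = r * mf c b x + s * mf c b y + t * mf c b z := by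
  have hr : r = 1 - s - t := by linarith
  subst hr
  simp only [mf, dot_add_right, dot_smul_right]
  ring

lemma convex_three {C : Set F} (hC : Convex ℝ C) {x y z : F} (hx : x ∈ C) (hy : y ∈ C) (hz : z ∈ C)
    {r s t : ℝ} (hr : 0 ≤ r) (hs : 0 ≤ s) (ht : 0 ≤ t) (h : r + s + t = 1) :
    r • x + s • y + t • z ∈ C := by
  have := convex_four hC hx hy hz hz (a := r) (b := s) (c := t) (d := 0) hr hs ht le_rfl (by linarith)
  simpa using this

/-- The part of `L` beyond the facet `0` of the tetrahedron and inside the other facets. -/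
def capSet (L : Set F) (c0 c1 c2 c3 : F) (b0 b1 b2 b3 : ℝ) : Set F :=
  {x | x ∈ L ∧ mf c0 b0 x < 0 ∧ 0 ≤ mf c1 b1 x ∧ 0 ≤ mf c2 b2 x ∧ 0 ≤ mf c3 b3 x}

lemma measurableSet_capSet {L : Set F} (hL : MeasurableSet L) (c0 c1 c2 c3 : F) (b0 b1 b2 b3 : ℝ) :
    MeasurableSet (capSet L c0 c1 c2 c3 b0 b1 b2 b3) := by
  have h0 : MeasurableSet {x | mf c0 b0 x < 0} :=
    (isOpen_lt (continuous_mf c0 b0) continuous_const).measurableSet
  have h1 : MeasurableSet {x | 0 ≤ mf c1 b1 x} :=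
    (isClosed_le continuous_const (continuous_mf c1 b1)).measurableSet
  have h2 : MeasurableSet {x | 0 ≤ mf c2 b2 x} :=
    (isClosed_le continuous_const (continuous_mf c2 b2)).measurableSet
  have h3 : MeasurableSet {x | 0 ≤ mf c3 b3 x} :=
    (isClosed_le continuous_const (continuous_mf c3 b3)).measurableSet
  have : capSet L c0 c1 c2 c3 b0 b1 b2 b3 =
      L ∩ ({x | mf c0 b0 x < 0} ∩ ({x | 0 ≤ mf c1 b1 x} ∩ ({x | 0 ≤ mf c2 b2 x} ∩
        {x | 0 ≤ mf c3 b3 x}))) := by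
    ext x
    simp only [capSet, mem_setOf_eq, mem_inter_iff]
  rw [this]
  exact hL.inter (h0.inter (h1.inter (h2.inter h3)))

variable {v0 v1 v2 v3 c0 c1 c2 c3 : F} {b0 b1 b2 b3 : ℝ}

/-- A simplex with apex `v0` and base points beyond the facet `0` gives a lower bound of the cap. -/
theorem Frame4.cap_simplex (fr : Frame4 v0 v1 v2 v3 c0 c1 c2 c3 b0 b1 b2 b3) {L : Set F}
    (hL : Convex ℝ L) (h0 : v0 ∈ L) {P1 P2 P3 : F} (mP1 : P1 ∈ L) (mP2 : P2 ∈ L) (mP3 : P3 ∈ L)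
    {k1 k2 k3 : ℝ} (q1 : 0 ≤ k1) (q2 : 0 ≤ k2) (q3 : 0 ≤ k3)
    (v1' : mf c0 b0 P1 = -k1) (v2' : mf c0 b0 P2 = -k2) (v3' : mf c0 b0 P3 = -k3)
    (n11 : 0 ≤ mf c1 b1 P1) (n12 : 0 ≤ mf c1 b1 P2) (n13 : 0 ≤ mf c1 b1 P3)
    (n21 : 0 ≤ mf c2 b2 P1) (n22 : 0 ≤ mf c2 b2 P2) (n23 : 0 ≤ mf c2 b2 P3)
    (n31 : 0 ≤ mf c3 b3 P1) (n32 : 0 ≤ mf c3 b3 P2) (n33 : 0 ≤ mf c3 b3 P3) :
    ENNReal.ofReal (|det3 (P1 - v0) (P2 - v0) (P3 - v0)| / 6 *
        (1 - (1 + k1)⁻¹ * (1 + k2)⁻¹ * (1 + k3)⁻¹)) ≤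
      volume (capSet L c0 c1 c2 c3 b0 b1 b2 b3) := by
  set R1 := P1 - v0 with hR1
  set R2 := P2 - v0 with hR2
  set R3 := P3 - v0 with hR3
  set p := (1 + k1)⁻¹ with hp
  set q := (1 + k2)⁻¹ with hq
  set r := (1 + k3)⁻¹ with hr
  have hY : simplexSet v0 R1 R2 R3 ⊆ L := simplexSet_subset hL h0 mP1 mP2 mP3
  have hcap : simplexSet v0 R1 R2 R3 \ simplexSet v0 (p • R1) (q • R2) (r • R3) ⊆
      capSet L c0 c1 c2 c3 b0 b1 b2 b3 := by
    rintro y ⟨hy, hyZ⟩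
    have hyL := hY hy
    obtain ⟨α, β, γ, g1, g2, g3, g4, rfl⟩ := mem_simplexSet.1 hy
    have dotR : ∀ c b Pm, dot c (Pm - v0) = mf c b Pm - mf c b v0 := by
      intro c b Pm
      simp only [mf, dot_sub_right]
      ring
    have d0 : mf c0 b0 v0 = 1 := fr.d00
    have d1 : mf c1 b1 v0 = 0 := fr.d01
    have d2 : mf c2 b2 v0 = 0 := fr.d02
    have d3 : mf c3 b3 v0 = 0 := fr.d03
    refine ⟨hyL, ?_, ?_, ?_, ?_⟩
    · -- the height is negative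
      rw [mf_combo3, dotR c0 b0 P1, dotR c0 b0 P2, dotR c0 b0 P3, d0, v1', v2', v3']
      by_contra hcon
      push Not at hcon
      apply hyZ
      rw [mem_simplexSet]
      refine ⟨α * (1 + k1), β * (1 + k2), γ * (1 + k3), by positivity, by positivity, by positivity,
        by nlinarith, ?_⟩
      have ep : α * (1 + k1) * p = α := by
        rw [hp]; field_simp
      have eq' : β * (1 + k2) * q = β := by
        rw [hq]; field_simp
      have er : γ * (1 + k3) * r = γ := by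
        rw [hr]; field_simp
      simp only [smul_smul, ep, eq', er]
    · rw [mf_combo3, dotR c1 b1 P1, dotR c1 b1 P2, dotR c1 b1 P3, d1]
      have := mul_nonneg g1 n11
      have := mul_nonneg g2 n12
      have := mul_nonneg g3 n13
      linarith
    · rw [mf_combo3, dotR c2 b2 P1, dotR c2 b2 P2, dotR c2 b2 P3, d2]
      have := mul_nonneg g1 n21
      have := mul_nonneg g2 n22
      have := mul_nonneg g3 n23
      linarith
    · rw [mf_combo3, dotR c3 b3 P1, dotR c3 b3 P2, dotR c3 b3 P3, d3]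
      have := mul_nonneg g1 n31
      have := mul_nonneg g2 n32
      have := mul_nonneg g3 n33
      linarith
  have hdetZ : det3 (p • R1) (q • R2) (r • R3) = p * q * r * det3 R1 R2 R3 := det3_scale _ _ _ _ _ _
  have hp0 : 0 < p := by rw [hp]; positivity
  have hq0 : 0 < q := by rw [hq]; positivity
  have hr0 : 0 < r := by rw [hr]; positivity
  have hvolZ : |det3 (p • R1) (q • R2) (r • R3)| / 6 = p * q * r * (|det3 R1 R2 R3| / 6) := by
    rw [hdetZ, abs_mul, abs_of_pos (by positivity)]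
    ring
  have hle := measure_mono (μ := volume) hcap
  have hdiff := le_measure_sdiff (μ := volume) (s₁ := simplexSet v0 R1 R2 R3)
    (s₂ := simplexSet v0 (p • R1) (q • R2) (r • R3))
  refine le_trans ?_ (hdiff.trans hle)
  rw [volume_simplexSet, volume_simplexSet, hvolZ, ← ENNReal.ofReal_sub _ (by positivity)]
  apply ENNReal.ofReal_le_ofReal
  apply le_of_eq
  ring

/-- The numerical part of the cap bound. -/
lemma cap_numeric {k1 k2 k3 H d T : ℝ} (q1 : 0 ≤ k1) (q2 : 0 ≤ k2) (q3 : 0 ≤ k3)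
    (hsum : k1 + k2 + k3 = H) (hH : H ≤ 1 / 1000) (hd : 499 / 500 ≤ d) (hT : 0 ≤ T) :
    99 / 100 * T * H ≤ (997 / 1000) ^ 2 * d * T * (1 - (1 + k1)⁻¹ * (1 + k2)⁻¹ * (1 + k3)⁻¹) := by
  set p := (1 + k1)⁻¹ with hp
  set q := (1 + k2)⁻¹ with hq
  set r := (1 + k3)⁻¹ with hr
  have hp0 : 0 < p := by rw [hp]; positivity
  have hq0 : 0 < q := by rw [hq]; positivity
  have hr0 : 0 < r := by rw [hr]; positivity
  have hH0 : 0 ≤ H := by rw [← hsum]; positivity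
  have hprod : 1 + H ≤ (1 + k1) * (1 + k2) * (1 + k3) := by
    have : (1 + k1) * (1 + k2) * (1 + k3) = 1 + (k1 + k2 + k3) + (k1 * k2 + k1 * k3 + k2 * k3) +
      k1 * k2 * k3 := by ring
    rw [this, hsum]
    have := mul_nonneg q1 q2
    have := mul_nonneg q1 q3
    have := mul_nonneg q2 q3
    have := mul_nonneg (mul_nonneg q1 q2) q3
    linarith
  have hpqr : p * q * r * (1 + H) ≤ 1 := by
    have e : p * q * r * ((1 + k1) * (1 + k2) * (1 + k3)) = 1 := by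
      rw [hp, hq, hr]
      field_simp
    calc p * q * r * (1 + H) ≤ p * q * r * ((1 + k1) * (1 + k2) * (1 + k3)) :=
          mul_le_mul_of_nonneg_left hprod (by positivity)
      _ = 1 := e
  have hpq0 : 0 < p * q * r := by positivity
  have h1pqr : H * (999 / 1000) ≤ 1 - p * q * r := by
    have h3 : H ≤ (1 - p * q * r) * (1 + H) := by nlinarith
    have h4 : 0 ≤ 1 - p * q * r := by nlinarith
    nlinarith
  have hfac : 99 / 100 ≤ (997 / 1000) ^ 2 * d * (999 / 1000) := by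
    nlinarith
  have h5 : 0 ≤ ((997 : ℝ) / 1000) ^ 2 * d * T := by
    have : 0 ≤ d := by linarith
    positivity
  calc 99 / 100 * T * H ≤ (((997 : ℝ) / 1000) ^ 2 * d * (999 / 1000)) * T * H := by
        apply mul_le_mul_of_nonneg_right _ hH0
        exact mul_le_mul_of_nonneg_right hfac hT
    _ = (997 / 1000) ^ 2 * d * T * (H * (999 / 1000)) := by ring
    _ ≤ (997 / 1000) ^ 2 * d * T * (1 - p * q * r) := mul_le_mul_of_nonneg_left h1pqr h5

/-- The cap beyond the facet `0` is large when `L` contains points beyond it near all three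
vertices of the facet. -/
theorem Frame4.cap_lower (fr : Frame4 v0 v1 v2 v3 c0 c1 c2 c3 b0 b1 b2 b3) {L : Set F}
    (hL : Convex ℝ L) (h0 : v0 ∈ L) {B1 B2 B3 : F} (hB1 : B1 ∈ L) (hB2 : B2 ∈ L) (hB3 : B3 ∈ L)
    {θ g : ℝ} (hθ0 : 0 ≤ θ) (hθ1 : θ ≤ 1 / 2000) (hg1 : g ≤ 1 / 10000)
    (a11 : |mf c1 b1 B1 - 1| ≤ θ) (a22 : |mf c2 b2 B2 - 1| ≤ θ) (a33 : |mf c3 b3 B3 - 1| ≤ θ)
    (a21 : |mf c2 b2 B1| ≤ θ) (a31 : |mf c3 b3 B1| ≤ θ) (a12 : |mf c1 b1 B2| ≤ θ)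
    (a32 : |mf c3 b3 B2| ≤ θ) (a13 : |mf c1 b1 B3| ≤ θ) (a23 : |mf c2 b2 B3| ≤ θ)
    (l21 : -g ≤ mf c2 b2 B1) (l31 : -g ≤ mf c3 b3 B1) (l12 : -g ≤ mf c1 b1 B2)
    (l32 : -g ≤ mf c3 b3 B2) (l13 : -g ≤ mf c1 b1 B3) (l23 : -g ≤ mf c2 b2 B3)
    {h1 h2 h3 : ℝ} (e1 : mf c0 b0 B1 = -h1) (e2 : mf c0 b0 B2 = -h2) (e3 : mf c0 b0 B3 = -h3)
    (p1 : 0 ≤ h1) (p2 : 0 ≤ h2) (p3 : 0 ≤ h3) (hH : h1 + h2 + h3 ≤ 1 / 1000) :
    ENNReal.ofReal (99 / 100 * tv v0 v1 v2 v3 * (h1 + h2 + h3)) ≤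
      volume (capSet L c0 c1 c2 c3 b0 b1 b2 b3) := by
  have s1 : (998 / 1000 : ℝ) + 1 / 1000 + 1 / 1000 = 1 := by norm_num
  have s2 : (1 / 1000 : ℝ) + 998 / 1000 + 1 / 1000 = 1 := by norm_num
  have s3 : (1 / 1000 : ℝ) + 1 / 1000 + 998 / 1000 = 1 := by norm_num
  set P1 : F := (998 / 1000 : ℝ) • B1 + (1 / 1000 : ℝ) • B2 + (1 / 1000 : ℝ) • B3 with hP1
  set P2 : F := (1 / 1000 : ℝ) • B1 + (998 / 1000 : ℝ) • B2 + (1 / 1000 : ℝ) • B3 with hP2
  set P3 : F := (1 / 1000 : ℝ) • B1 + (1 / 1000 : ℝ) • B2 + (998 / 1000 : ℝ) • B3 with hP3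
  have mP1 : P1 ∈ L := convex_three hL hB1 hB2 hB3 (by norm_num) (by norm_num) (by norm_num) s1
  have mP2 : P2 ∈ L := convex_three hL hB1 hB2 hB3 (by norm_num) (by norm_num) (by norm_num) s2
  have mP3 : P3 ∈ L := convex_three hL hB1 hB2 hB3 (by norm_num) (by norm_num) (by norm_num) s3
  have f1 : ∀ c b, mf c b P1 = 998 / 1000 * mf c b B1 + 1 / 1000 * mf c b B2 + 1 / 1000 * mf c b B3 :=
    fun c b => mf_mix3 c b _ _ _ s1
  have f2 : ∀ c b, mf c b P2 = 1 / 1000 * mf c b B1 + 998 / 1000 * mf c b B2 + 1 / 1000 * mf c b B3 :=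
    fun c b => mf_mix3 c b _ _ _ s2
  have f3 : ∀ c b, mf c b P3 = 1 / 1000 * mf c b B1 + 1 / 1000 * mf c b B2 + 998 / 1000 * mf c b B3 :=
    fun c b => mf_mix3 c b _ _ _ s3
  have l11 : 1 - θ ≤ mf c1 b1 B1 := by linarith [(abs_le.1 a11).1]
  have l22 : 1 - θ ≤ mf c2 b2 B2 := by linarith [(abs_le.1 a22).1]
  have l33 : 1 - θ ≤ mf c3 b3 B3 := by linarith [(abs_le.1 a33).1]
  have key := fr.cap_simplex hL h0 mP1 mP2 mP3 (k1 := 998 / 1000 * h1 + 1 / 1000 * h2 + 1 / 1000 * h3)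
    (k2 := 1 / 1000 * h1 + 998 / 1000 * h2 + 1 / 1000 * h3)
    (k3 := 1 / 1000 * h1 + 1 / 1000 * h2 + 998 / 1000 * h3)
    (by positivity) (by positivity) (by positivity)
    (by rw [f1, e1, e2, e3]; ring) (by rw [f2, e1, e2, e3]; ring) (by rw [f3, e1, e2, e3]; ring)
    (by rw [f1]; linarith) (by rw [f2]; linarith) (by rw [f3]; linarith)
    (by rw [f1]; linarith) (by rw [f2]; linarith) (by rw [f3]; linarith)
    (by rw [f1]; linarith) (by rw [f2]; linarith) (by rw [f3]; linarith)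
  refine le_trans ?_ key
  apply ENNReal.ofReal_le_ofReal
  -- the determinants
  have eR1 : P1 - v0 = ((1 : ℝ) - 2 * (1 / 1000)) • (B1 - v0) + (1 / 1000 : ℝ) • (B2 - v0) +
      (1 / 1000 : ℝ) • (B3 - v0) := by
    rw [hP1]
    ext <;> simp <;> ring
  have eR2 : P2 - v0 = (1 / 1000 : ℝ) • (B1 - v0) + ((1 : ℝ) - 2 * (1 / 1000)) • (B2 - v0) +
      (1 / 1000 : ℝ) • (B3 - v0) := by
    rw [hP2]
    ext <;> simp <;> ring
  have eR3 : P3 - v0 = (1 / 1000 : ℝ) • (B1 - v0) + (1 / 1000 : ℝ) • (B2 - v0) +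
      ((1 : ℝ) - 2 * (1 / 1000)) • (B3 - v0) := by
    rw [hP3]
    ext <;> simp <;> ring
  have hd1 : det3 (P1 - v0) (P2 - v0) (P3 - v0) =
      (997 / 1000) ^ 2 * det3 (B1 - v0) (B2 - v0) (B3 - v0) := by
    rw [eR1, eR2, eR3, det3_W]
    norm_num
  set d := mf c1 b1 B1 * (mf c2 b2 B2 * mf c3 b3 B3 - mf c2 b2 B3 * mf c3 b3 B2)
      - mf c1 b1 B2 * (mf c2 b2 B1 * mf c3 b3 B3 - mf c2 b2 B3 * mf c3 b3 B1)
      + mf c1 b1 B3 * (mf c2 b2 B1 * mf c3 b3 B2 - mf c2 b2 B2 * mf c3 b3 B1) with hd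
  have hd2 : det3 (B1 - v0) (B2 - v0) (B3 - v0) = d * det3 (v1 - v0) (v2 - v0) (v3 - v0) := by
    rw [fr.recon B1, fr.recon B2, fr.recon B3, det3_combo]
  have hdlow : 1 - 4 * θ ≤ d := det_near hθ0 (by linarith) a11 a22 a33 a21 a31 a12 a32 a13 a23
  have hdpos : 0 < d := by linarith
  have hvolY : |det3 (P1 - v0) (P2 - v0) (P3 - v0)| / 6 = (997 / 1000) ^ 2 * d * tv v0 v1 v2 v3 := by
    rw [hd1, hd2]
    unfold tv
    rw [abs_mul, abs_mul, abs_of_pos hdpos, abs_of_pos (by positivity)]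
    ring
  rw [hvolY]
  exact cap_numeric (by positivity) (by positivity) (by positivity) (by ring) hH (by linarith)
    (tv_nonneg _ _ _ _)

end Vale.Agent.Lib.P248
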