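import Vale.Agent.Lib.P248.Eq.Claim
import Vale.Agent.Lib.P248.ChordStep

/-!
The chord at intermediate times: volume is affine along the chord, the midpoint step for the
bound, dyadic iteration, and a time at which the polytope is at a prescribed distance from simplices.
-/

open MeasureTheory Set Filter Topology

namespace Vale.Agent.Lib.P248

/-- Steiner-type formula of volume for a convex combination of the slices. -/
theorem volume_affine_of_slices (S0 S1 S2 : Set F) (D : Set (ℝ × ℝ)) (hD : Convex ℝ D)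
    (c0 : IsCompact S0) (c1 : IsCompact S1) (c2 : IsCompact S2)
    (h0 : ∀ q y, (q, y) ∈ S0 → q ∈ D) (h1 : ∀ q y, (q, y) ∈ S1 → q ∈ D)
    (h2 : ∀ q y, (q, y) ∈ S2 → q ∈ D) {μ ν : ℝ} (hμ : 0 ≤ μ) (hν : 0 ≤ ν)
    (hs : ∀ q ∈ interior D, ∃ b1 t1 b2 t2 : ℝ, b1 ≤ t1 ∧ b2 ≤ t2 ∧
      (∀ y, (q, y) ∈ S1 ↔ b1 ≤ y ∧ y ≤ t1) ∧ (∀ y, (q, y) ∈ S2 ↔ b2 ≤ y ∧ y ≤ t2) ∧
      (∀ y, (q, y) ∈ S0 ↔ μ * b1 + ν * b2 ≤ y ∧ y ≤ μ * t1 + ν * t2)) :
    volume S0 = ENNReal.ofReal μ * volume S1 + ENNReal.ofReal ν * volume S2 := by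
  have m0 : MeasurableSet S0 := c0.measurableSet
  have m1 : MeasurableSet S1 := c1.measurableSet
  have m2 : MeasurableSet S2 := c2.measurableSet
  have hnull : (volume : Measure (ℝ × ℝ)) (frontier D) = 0 := hD.addHaar_frontier _
  have hae : ∀ᵐ q : ℝ × ℝ, volume (Prod.mk q ⁻¹' S0) =
      ENNReal.ofReal μ * volume (Prod.mk q ⁻¹' S1) +
        ENNReal.ofReal ν * volume (Prod.mk q ⁻¹' S2) := by
    have : ∀ᵐ q : ℝ × ℝ, q ∉ frontier D := measure_eq_zero_iff_ae_notMem.1 hnull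
    filter_upwards [this] with q hq
    by_cases hqD : q ∈ D
    · have hqi : q ∈ interior D := by
        by_contra h
        exact hq ⟨subset_closure hqD, h⟩
      obtain ⟨b1, t1, b2, t2, hb1, hb2, e1, e2, e0⟩ := hs q hqi
      have s1 : Prod.mk q ⁻¹' S1 = Icc b1 t1 := by
        ext y
        simpa using e1 y
      have s2 : Prod.mk q ⁻¹' S2 = Icc b2 t2 := by
        ext y
        simpa using e2 y
      have s0 : Prod.mk q ⁻¹' S0 = Icc (μ * b1 + ν * b2) (μ * t1 + ν * t2) := by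
        ext y
        simpa using e0 y
      rw [s1, s2, s0, Real.volume_Icc, Real.volume_Icc, Real.volume_Icc,
        ← ENNReal.ofReal_mul hμ, ← ENNReal.ofReal_mul hν,
        ← ENNReal.ofReal_add (mul_nonneg hμ (by linarith)) (mul_nonneg hν (by linarith))]
      congr 1
      ring
    · have s1 : Prod.mk q ⁻¹' S1 = ∅ := by
        ext y
        simp only [mem_preimage, mem_empty_iff_false, iff_false]
        exact fun h => hqD (h1 q y h)
      have s2 : Prod.mk q ⁻¹' S2 = ∅ := by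
        ext y
        simp only [mem_preimage, mem_empty_iff_false, iff_false]
        exact fun h => hqD (h2 q y h)
      have s0 : Prod.mk q ⁻¹' S0 = ∅ := by
        ext y
        simp only [mem_preimage, mem_empty_iff_false, iff_false]
        exact fun h => hqD (h0 q y h)
      simp [s1, s2, s0]
  rw [Measure.volume_eq_prod, Measure.prod_apply m0, Measure.prod_apply m1, Measure.prod_apply m2,
    ← lintegral_const_mul _ (measurable_measure_prodMk_left m1),
    ← lintegral_const_mul _ (measurable_measure_prodMk_left m2),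
    ← lintegral_add_left ((measurable_measure_prodMk_left m1).const_mul _)]
  exact lintegral_congr_ae hae

theorem top_affine (n l : F) (h2 : n.2 ≠ 0) (t : ℝ) (q : ℝ × ℝ) :
    top n l t q = (1 - t) / 2 * top n l (-1) q + (1 + t) / 2 * top n l 1 q := by
  simp only [top, cst, mv, dot2]
  field_simp
  ring

theorem top_mid (n l : F) (h2 : n.2 ≠ 0) (t₁ t₂ : ℝ) (q : ℝ × ℝ) :
    top n l ((t₁ + t₂) / 2) q = (top n l t₁ q + top n l t₂ q) / 2 := by
  simp only [top, cst, mv, dot2]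
  field_simp
  ring

theorem abs_mid_le {t₁ t₂ : ℝ} (h₁ : |t₁| ≤ 1) (h₂ : |t₂| ≤ 1) : |(t₁ + t₂) / 2| ≤ 1 :=
  abs_le.2 ⟨by linarith [(abs_le.1 h₁).1, (abs_le.1 h₂).1],
    by linarith [(abs_le.1 h₁).2, (abs_le.1 h₂).2]⟩

/-- Volume additivity at arbitrary times of the chord. -/
theorem Chord.volume_mid {X N : Finset F} {α : F → ℝ} {L : F → F} (h : Pair X N)
    (c : Chord X N α L) {t₁ t₂ : ℝ} (h₁ : |t₁| ≤ 1) (h₂ : |t₂| ≤ 1) :
    volume (Kt X α t₁) + volume (Kt X α t₂) = 2 * volume (Kt X α ((t₁ + t₂) / 2)) := by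
  have hm : |(t₁ + t₂) / 2| ≤ 1 := abs_mid_le h₁ h₂
  apply volume_add_of_slices (Kt X α ((t₁ + t₂) / 2)) (Kt X α t₁) (Kt X α t₂) (Dset X)
    (convex_convexHull ℝ _) (Kt_compact X α _) (Kt_compact X α t₁) (Kt_compact X α t₂)
  · intro q y hy
    exact fst_Kt X α _ q y hy
  · intro q y hy
    exact fst_Kt X α _ q y hy
  · intro q y hy
    exact fst_Kt X α _ q y hy
  · intro q hq
    obtain ⟨n, hn, hn2, hc⟩ := cover h 1 one_ne_zero q hq
    obtain ⟨n', hn', hn2', hc'⟩ := cover h (-1) (by norm_num) q hq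
    have hp : 0 < n.2 := by linarith
    have hp' : n'.2 < 0 := by linarith
    refine ⟨top n' (L n') t₁ q, top n (L n) t₁ q, top n' (L n') t₂ q, top n (L n) t₂ q, ?_, ?_,
      c.slice n n' hn hn' hp hp' t₁ h₁ q hc hc', c.slice n n' hn hn' hp hp' t₂ h₂ q hc hc', ?_⟩
    · exact ((c.slice n n' hn hn' hp hp' t₁ h₁ q hc hc' _).1 (c.top_mem n hn hp.ne' t₁ q hc)).1
    · exact ((c.slice n n' hn hn' hp hp' t₂ h₂ q hc hc' _).1 (c.top_mem n hn hp.ne' t₂ q hc)).1
    · intro y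
      rw [c.slice n n' hn hn' hp hp' _ hm q hc hc' y, top_mid n (L n) hp.ne',
        top_mid n' (L n') hp'.ne]

/-- The volume is affine along the chord. -/
theorem Chord.volume_affine {X N : Finset F} {α : F → ℝ} {L : F → F} (h : Pair X N)
    (c : Chord X N α L) {t : ℝ} (ht : |t| ≤ 1) :
    (volume (Kt X α t)).toReal =
      (1 - t) / 2 * (volume (Kt X α (-1))).toReal + (1 + t) / 2 * (volume (Kt X α 1)).toReal := by
  have hm1 : |(-1 : ℝ)| ≤ 1 := by simp
  have hp1 : |(1 : ℝ)| ≤ 1 := by simp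
  have hμ : 0 ≤ (1 - t) / 2 := by linarith [(abs_le.1 ht).2]
  have hν : 0 ≤ (1 + t) / 2 := by linarith [(abs_le.1 ht).1]
  have key : volume (Kt X α t) = ENNReal.ofReal ((1 - t) / 2) * volume (Kt X α (-1)) +
      ENNReal.ofReal ((1 + t) / 2) * volume (Kt X α 1) := by
    apply volume_affine_of_slices (Kt X α t) (Kt X α (-1)) (Kt X α 1) (Dset X)
      (convex_convexHull ℝ _) (Kt_compact X α _) (Kt_compact X α _) (Kt_compact X α _)
      (fun q y hy => fst_Kt X α _ q y hy) (fun q y hy => fst_Kt X α _ q y hy)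
      (fun q y hy => fst_Kt X α _ q y hy) hμ hν
    intro q hq
    obtain ⟨n, hn, hn2, hc⟩ := cover h 1 one_ne_zero q hq
    obtain ⟨n', hn', hn2', hc'⟩ := cover h (-1) (by norm_num) q hq
    have hp : 0 < n.2 := by linarith
    have hp' : n'.2 < 0 := by linarith
    refine ⟨top n' (L n') (-1) q, top n (L n) (-1) q, top n' (L n') 1 q, top n (L n) 1 q, ?_, ?_,
      c.slice n n' hn hn' hp hp' (-1) hm1 q hc hc', c.slice n n' hn hn' hp hp' 1 hp1 q hc hc', ?_⟩
    · exact ((c.slice n n' hn hn' hp hp' (-1) hm1 q hc hc' _).1 (c.top_mem n hn hp.ne' (-1) q hc)).1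
    · exact ((c.slice n n' hn hn' hp hp' 1 hp1 q hc hc' _).1 (c.top_mem n hn hp.ne' 1 q hc)).1
    · intro y
      rw [c.slice n n' hn hn' hp hp' t ht q hc hc' y, top_affine n (L n) hp.ne' t q,
        top_affine n' (L n') hp'.ne t q]
  rw [key, ENNReal.toReal_add (ENNReal.mul_ne_top ENNReal.ofReal_ne_top
      (Kt_compact X α _).measure_lt_top.ne)
      (ENNReal.mul_ne_top ENNReal.ofReal_ne_top (Kt_compact X α _).measure_lt_top.ne),
    ENNReal.toReal_mul, ENNReal.toReal_mul, ENNReal.toReal_ofReal hμ, ENNReal.toReal_ofReal hν]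

theorem Kt_neg_one (X : Finset F) (α : F → ℝ) : Kt X α (-1) = Kt X (fun x => -α x) 1 := by
  unfold Kt
  congr 1
  apply Set.image_congr
  intro x _
  simp [mvd]

/-- Vertical thickness over the origin at arbitrary times. -/
theorem Chord.thick_t {X N : Finset F} {α : F → ℝ} {L : F → F} (h : Pair X N)
    (c : Chord X N α L) {t : ℝ} (ht : |t| ≤ 1) :
    ∃ y δ : ℝ, 0 < δ ∧ (((0, y + δ) : F) ∈ Kt X α t) ∧ (((0, y - δ) : F) ∈ Kt X α t) := by
  have h0 := zero_mem_interior_Dset h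
  obtain ⟨n, hn, hn2, hq⟩ := cover h 1 one_ne_zero 0 h0
  obtain ⟨n', hn', hn2', hq'⟩ := cover h (-1) (by norm_num) 0 h0
  have hp : 0 < n.2 := by linarith
  have hp' : n'.2 < 0 := by linarith
  have gap1 : top n' (L n') 1 0 < top n (L n) 1 0 := by
    obtain ⟨y, δ, hδ, h1, h2⟩ := c.thick h
    have a1 := (c.slice n n' hn hn' hp hp' 1 (by simp) 0 hq hq' (y + δ)).1 h1
    have a2 := (c.slice n n' hn hn' hp hp' 1 (by simp) 0 hq hq' (y - δ)).1 h2
    linarith [a1.2, a2.1]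
  have gapm : top n' (L n') (-1) 0 < top n (L n) (-1) 0 := by
    obtain ⟨y, δ, hδ, h1, h2⟩ := c.neg.thick h
    rw [← Kt_neg_one] at h1 h2
    have a1 := (c.slice n n' hn hn' hp hp' (-1) (by simp) 0 hq hq' (y + δ)).1 h1
    have a2 := (c.slice n n' hn hn' hp hp' (-1) (by simp) 0 hq hq' (y - δ)).1 h2
    linarith [a1.2, a2.1]
  have hμ : 0 ≤ (1 - t) / 2 := by linarith [(abs_le.1 ht).2]
  have hν : 0 ≤ (1 + t) / 2 := by linarith [(abs_le.1 ht).1]
  have hBT : top n' (L n') t 0 < top n (L n) t 0 := by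
    rw [top_affine n (L n) hp.ne' t 0, top_affine n' (L n') hp'.ne t 0]
    rcases lt_or_ge t 1 with h1 | h1
    · have hμ' : 0 < (1 - t) / 2 := by linarith
      have a1 := mul_lt_mul_of_pos_left gapm hμ'
      have a2 := mul_le_mul_of_nonneg_left gap1.le hν
      linarith
    · have hν' : 0 < (1 + t) / 2 := by linarith
      have a1 := mul_le_mul_of_nonneg_left gapm.le hμ
      have a2 := mul_lt_mul_of_pos_left gap1 hν'
      linarith
  set T := top n (L n) t 0 with hT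
  set B := top n' (L n') t 0 with hB
  refine ⟨(B + T) / 2, (T - B) / 2, by linarith, ?_, ?_⟩
  · have : (B + T) / 2 + (T - B) / 2 = T := by ring
    rw [this]
    exact c.top_mem n hn hp.ne' t 0 hq
  · have : (B + T) / 2 - (T - B) / 2 = B := by ring
    rw [this]
    exact c.top_mem n' hn' hp'.ne t 0 hq'

/-- The moved polytope projects onto the projection of the polytope. -/
theorem fst_image_Kt (X : Finset F) (α : F → ℝ) (t : ℝ) : Prod.fst '' Kt X α t = Dset X := by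
  unfold Kt
  rw [fst_convexHull, Set.image_image]
  rfl

/-- Positivity of the volume at all times. -/
theorem Chord.volume_pos {X N : Finset F} {α : F → ℝ} {L : F → F} (h : Pair X N)
    (c : Chord X N α L) {t : ℝ} (ht : |t| ≤ 1) : 0 < (volume (Kt X α t)).toReal := by
  have h0 := zero_mem_interior_Dset h
  obtain ⟨y, δ, hδ, hp, hm⟩ := c.thick_t h ht
  obtain ⟨ε₁, hε₁, h1⟩ := exists_pos_add_mem h0 ((1, 0) : ℝ × ℝ)
  obtain ⟨ε₂, hε₂, h2⟩ := exists_pos_add_mem h0 ((0, 1) : ℝ × ℝ)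
  rw [← fst_image_Kt X α t] at h1 h2
  obtain ⟨u, hu, hu1⟩ := h1
  obtain ⟨v, hv, hv1⟩ := h2
  set a : F := (0, y + δ) with ha
  set b : F := (0, y - δ) with hb
  have hsub : convexHull ℝ ({a, b, u, v} : Set F) ⊆ Kt X α t := by
    apply convexHull_min _ (convex_convexHull ℝ _)
    intro x hx
    simp only [mem_insert_iff, mem_singleton_iff] at hx
    rcases hx with rfl | rfl | rfl | rfl <;> assumption
  have hvol := measure_mono (μ := volume) hsub
  rw [volume_hull_four] at hvol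
  have htv : 0 < tv a b u v := by
    have e1 : u.1 = ((0 : ℝ × ℝ) + ε₁ • ((1, 0) : ℝ × ℝ)) := hu1
    have e2 : v.1 = ((0 : ℝ × ℝ) + ε₂ • ((0, 1) : ℝ × ℝ)) := hv1
    have e3 : u.1.1 = ε₁ := by rw [e1]; simp
    have e4 : u.1.2 = 0 := by rw [e1]; simp
    have e5 : v.1.1 = 0 := by rw [e2]; simp
    have e6 : v.1.2 = ε₂ := by rw [e2]; simp
    have : det3 (b - a) (u - a) (v - a) = -(2 * δ * ε₁ * ε₂) := by
      simp only [det3, ha, hb, Prod.fst_sub, Prod.snd_sub, Prod.fst_zero, Prod.snd_zero, e3, e4, e5,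
        e6]
      ring
    unfold tv
    rw [this, abs_neg]
    have : 0 < 2 * δ * ε₁ * ε₂ := by positivity
    rw [abs_of_pos this]
    positivity
  have hpos : 0 < volume (Kt X α t) :=
    lt_of_lt_of_le (ENNReal.ofReal_pos.2 htv) hvol
  exact ENNReal.toReal_pos hpos.ne' (Kt_compact X α t).measure_lt_top.ne

/-- The vertical translate by `s` of the polytope at time `t` has the origin inside. -/
def ValidAt (X : Finset F) (hX : X.Nonempty) (α : F → ℝ) (t s : ℝ) : Prop :=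
  ∃ δ : ℝ, 0 < δ ∧ (∀ w, δ ≤ Phi X hX (fun x => x.2 + t * α x - s) w) ∧
    (∀ w, δ ≤ Phi X hX (fun x => -(x.2 + t * α x - s)) w)

/-- The bound at time `t` for all vertical translates. -/
def GoodAt (X : Finset F) (hX : X.Nonempty) (α : F → ℝ) (c : ENNReal) (t : ℝ) : Prop :=
  ∀ s : ℝ, ValidAt X hX α t s →
    c ≤ volume (Kt X α t) * volume (Qset X (fun x => x.2 + t * α x - s))

/-- The bounds on the support functions given by a vertical segment in the moved polytope. -/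
theorem thick_bounds {X : Finset F} (hX : X.Nonempty) (α : F → ℝ) (t s : ℝ) {Y δ : ℝ}
    (hp : ((0, Y + δ) : F) ∈ Kt X α t) (hm : ((0, Y - δ) : F) ∈ Kt X α t) :
    (∀ w, (Y - s) + δ ≤ Phi X hX (fun x => x.2 + t * α x - s) w) ∧
      (∀ w, -(Y - s) + δ ≤ Phi X hX (fun x => -(x.2 + t * α x - s)) w) := by
  let β : F → ℝ := fun x => x.2 + t * α x
  have hK : Kt X α t = convexHull ℝ ((fun x : F => ((x.1, β x) : F)) '' (X : Set F)) := rfl
  rw [hK] at hp hm
  constructor
  · intro w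
    have h1 := phi_ge hX β hp w
    have h2 := PM.phi_sub X hX β s w
    have h3 : dot2 w ((0, Y + δ) : F).1 + ((0, Y + δ) : F).2 = Y + δ := by
      simp [dot2]
    have h4 : Phi X hX (fun x => x.2 + t * α x - s) w = Phi X hX (fun x => β x - s) w := rfl
    rw [h4, h2]
    linarith
  · intro w
    have h1 := phi_ge_neg hX β hm w
    have h2 := PM.phi_sub X hX (fun x => -β x) (-s) w
    have h3 : dot2 w ((0, Y - δ) : F).1 - ((0, Y - δ) : F).2 = -Y + δ := by
      simp [dot2]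
      ring
    have h4 : (fun x : F => -(x.2 + t * α x - s)) = fun x => -β x - (-s) := by
      funext x
      simp only [β]
      ring
    rw [h4, h2]
    linarith

/-- Midpoint step: uses `polar_midpoint`, `Chord.volume_mid`, `final_ineq`. -/
theorem GoodAt.mid {X N : Finset F} {α : F → ℝ} {L : F → F} (h : Pair X N)
    (ch : Chord X N α L) (hX : X.Nonempty) {c : ENNReal} (hc : c ≠ ⊤) {t₁ t₂ : ℝ}
    (h₁ : |t₁| ≤ 1) (h₂ : |t₂| ≤ 1) (g₁ : GoodAt X hX α c t₁) (g₂ : GoodAt X hX α c t₂) :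
    GoodAt X hX α c ((t₁ + t₂) / 2) := by
  intro s hs
  obtain ⟨δ, hδ, hz1, hz2⟩ := hs
  obtain ⟨ε, hε, h0⟩ := h.coercive hX
  let β1 : F → ℝ := fun x => x.2 + t₁ * α x - s
  let β2 : F → ℝ := fun x => x.2 + t₂ * α x - s
  have hmid : (fun x => (β1 x + β2 x) / 2) = fun x => x.2 + (t₁ + t₂) / 2 * α x - s := by
    funext x
    simp only [β1, β2]
    ring
  have hmidn : (fun x => -((β1 x + β2 x) / 2)) = fun x => -(x.2 + (t₁ + t₂) / 2 * α x - s) := by
    funext x
    simp only [β1, β2]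
    ring
  have hz1' : ∀ w, δ ≤ Phi X hX (fun x => (β1 x + β2 x) / 2) w := by
    rw [hmid]
    exact hz1
  have hz2' : ∀ w, δ ≤ Phi X hX (fun x => -((β1 x + β2 x) / 2)) w := by
    rw [hmidn]
    exact hz2
  obtain ⟨Y1, δ1, hδ1, p1, m1⟩ := ch.thick_t h h₁
  obtain ⟨Y2, δ2, hδ2, p2, m2⟩ := ch.thick_t h h₂
  obtain ⟨t11, t12⟩ := thick_bounds hX α t₁ s p1 m1
  obtain ⟨t21, t22⟩ := thick_bounds hX α t₂ s p2 m2
  obtain ⟨s', δ', hδ', q1, q2, q3, q4, hineq⟩ := polar_midpoint X hX β1 β2 ε hε h0 δ hδ hz1' hz2'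
    (Y1 - s) δ1 hδ1 t11 t12 (Y2 - s) δ2 hδ2 t21 t22
  have e1 : (fun x => β1 x - s') = fun x => x.2 + t₁ * α x - (s + s') := by
    funext x
    simp only [β1]
    ring
  have e2 : (fun x => β2 x + s') = fun x => x.2 + t₂ * α x - (s - s') := by
    funext x
    simp only [β2]
    ring
  have e1n : (fun x => -(β1 x - s')) = fun x => -(x.2 + t₁ * α x - (s + s')) := by
    funext x
    simp only [β1]
    ring
  have e2n : (fun x => -(β2 x + s')) = fun x => -(x.2 + t₂ * α x - (s - s')) := by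
    funext x
    simp only [β2]
    ring
  have v1 : ValidAt X hX α t₁ (s + s') :=
    ⟨δ', hδ', by rw [← e1]; exact q1, by rw [← e1n]; exact q2⟩
  have v2 : ValidAt X hX α t₂ (s - s') :=
    ⟨δ', hδ', by rw [← e2]; exact q3, by rw [← e2n]; exact q4⟩
  have I1 := g₁ _ v1
  have I2 := g₂ _ v2
  rw [← e1] at I1
  rw [← e2] at I2
  obtain ⟨pQ0, fQ0⟩ := Qset_volume_pos_finite X hX (fun x => (β1 x + β2 x) / 2) ε hε h0 δ hδ
    hz1' hz2'
  obtain ⟨pQ1, fQ1⟩ := Qset_volume_pos_finite X hX (fun x => β1 x - s') ε hε h0 δ' hδ' q1 q2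
  obtain ⟨pQ2, fQ2⟩ := Qset_volume_pos_finite X hX (fun x => β2 x + s') ε hε h0 δ' hδ' q3 q4
  rw [← hmid]
  exact final_ineq hc (Kt_compact X α t₁).measure_lt_top.ne (Kt_compact X α t₂).measure_lt_top.ne
    fQ0 fQ1 fQ2 pQ0 pQ1 pQ2 (ch.volume_mid h h₁ h₂) I1 I2 hineq

theorem abs_chord_le {p q l : ℝ} (hp : |p| ≤ 1) (hq : |q| ≤ 1) (h0 : 0 ≤ l) (h1 : l ≤ 1) :
    |p + l * (q - p)| ≤ 1 := by
  obtain ⟨a1, a2⟩ := abs_le.1 hp
  obtain ⟨b1, b2⟩ := abs_le.1 hq
  have e : p + l * (q - p) = (1 - l) * p + l * q := by ring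
  rw [e]
  have h2 : 0 ≤ 1 - l := by linarith
  apply abs_le.2
  constructor <;> nlinarith [mul_le_mul_of_nonneg_left a1 h2, mul_le_mul_of_nonneg_left a2 h2,
    mul_le_mul_of_nonneg_left b1 h0, mul_le_mul_of_nonneg_left b2 h0]

/-- Dyadic iteration of the midpoint step. -/
theorem GoodAt.dyadic {X N : Finset F} {α : F → ℝ} {L : F → F} (h : Pair X N)
    (ch : Chord X N α L) (hX : X.Nonempty) {c : ENNReal} (hc : c ≠ ⊤) {p q : ℝ}
    (hp : |p| ≤ 1) (hq : |q| ≤ 1) (gp : GoodAt X hX α c p) (gq : GoodAt X hX α c q)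
    (n j : ℕ) (hj : j ≤ 2 ^ n) : GoodAt X hX α c (p + (j : ℝ) / 2 ^ n * (q - p)) := by
  induction n generalizing j with
  | zero =>
    have hj' : j ≤ 1 := by simpa using hj
    interval_cases j
    · simpa using gp
    · simpa using gq
  | succ n ih =>
    have hpow : (0 : ℝ) < 2 ^ n := by positivity
    have hle : ∀ i : ℕ, i ≤ 2 ^ n → |p + (i : ℝ) / 2 ^ n * (q - p)| ≤ 1 := by
      intro i hi
      apply abs_chord_le hp hq (by positivity)
      rw [div_le_one hpow]
      exact_mod_cast hi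
    rcases Nat.even_or_odd' j with ⟨i, rfl | rfl⟩
    · have hi : i ≤ 2 ^ n := by
        rw [pow_succ] at hj
        omega
      have e : p + ((2 * i : ℕ) : ℝ) / 2 ^ (n + 1) * (q - p) = p + (i : ℝ) / 2 ^ n * (q - p) := by
        push_cast
        rw [pow_succ]
        field_simp
      rw [e]
      exact ih i hi
    · have hi : i + 1 ≤ 2 ^ n := by
        rw [pow_succ] at hj
        omega
      have hi' : i ≤ 2 ^ n := by omega
      have e : p + ((2 * i + 1 : ℕ) : ℝ) / 2 ^ (n + 1) * (q - p) =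
          ((p + (i : ℝ) / 2 ^ n * (q - p)) + (p + ((i + 1 : ℕ) : ℝ) / 2 ^ n * (q - p))) / 2 := by
        push_cast
        field_simp
        ring
      rw [e]
      exact GoodAt.mid h ch hX hc (hle i hi') (hle (i + 1) hi) (ih i hi') (ih (i + 1) hi)

/-- If the bound holds for all polar pairs of translates at time `t`, then `GoodAt`.
Uses `exists_pair`, `span_of_phi`, `polarSet_image`, `volume_hull_translate`. -/
theorem goodAt_of_pairs {X : Finset F} {α : F → ℝ} (hX : X.Nonempty) {ε : ℝ} (hε : 0 < ε)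
    (h0 : ∀ w : ℝ × ℝ, ε * (|w.1| + |w.2|) ≤ X.sup' hX (fun x => dot2 w x.1))
    {c : ENNReal} {t : ℝ}
    (hp : ∀ (s : ℝ) (X' N' : Finset F), Pair X' N' →
      convexHull ℝ (X' : Set F) =
        convexHull ℝ ((fun x : F => ((x.1, x.2 + t * α x - s) : F)) '' (X : Set F)) →
      c ≤ volume (convexHull ℝ (X' : Set F)) * volume (convexHull ℝ (N' : Set F))) :
    GoodAt X hX α c t := by
  classical
  intro s hs
  obtain ⟨δ, hδ, h1, h2⟩ := hs
  let β : F → ℝ := fun x => x.2 + t * α x - s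
  obtain ⟨X', N', hP, hc1, hn1⟩ := exists_pair (X.image (fun x : F => ((x.1, β x) : F)))
    (span_of_phi hX β hε h0 hδ h1 h2)
  have hc2 : convexHull ℝ (X' : Set F) =
      convexHull ℝ ((fun x : F => ((x.1, x.2 + t * α x - s) : F)) '' (X : Set F)) := by
    rw [hc1, Finset.coe_image]
  have key := hp s X' N' hP hc2
  have v : volume (convexHull ℝ (X' : Set F)) = volume (Kt X α t) := by
    rw [hc2]
    unfold Kt
    have e : (fun x : F => ((x.1, x.2 + t * α x - s) : F)) '' (X : Set F) =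
        (fun u : F => ((u.1, u.2 + -s) : F)) '' (mvd α t '' (X : Set F)) := by
      rw [Set.image_image]
      simp only [mvd, sub_eq_add_neg]
    rw [e]
    exact volume_hull_translate _ (-s)
  have q : volume (convexHull ℝ (N' : Set F)) = volume (Qset X β) := by
    rw [hn1, polarSet_image]
  rw [v, q] at key
  exact key

/-- The largest tetrahedron among the moved points at time `t`. -/
noncomputable def maxTv (X : Finset F) (hX : X.Nonempty) (α : F → ℝ) (t : ℝ) : ℝ :=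
  (X ×ˢ X ×ˢ X ×ˢ X).sup' (by
      obtain ⟨x, hx⟩ := hX
      exact ⟨(x, x, x, x), by simp [hx]⟩)
    (fun p => tv (mvd α t p.1) (mvd α t p.2.1) (mvd α t p.2.2.1) (mvd α t p.2.2.2))

theorem continuous_maxTv (X : Finset F) (hX : X.Nonempty) (α : F → ℝ) :
    Continuous (maxTv X hX α) := by
  have hne : (X ×ˢ X ×ˢ X ×ˢ X).Nonempty := by
    obtain ⟨x, hx⟩ := hX
    exact ⟨(x, x, x, x), by simp [hx]⟩
  have e : maxTv X hX α = (X ×ˢ X ×ˢ X ×ˢ X).sup' hne
      (fun p t => tv (mvd α t p.1) (mvd α t p.2.1) (mvd α t p.2.2.1) (mvd α t p.2.2.2)) := by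
    funext t
    simp [maxTv, Finset.sup'_apply]
  rw [e]
  apply Continuous.finset_sup'
  intro p _
  simp only [tv, det3, mvd, Prod.fst_sub, Prod.snd_sub]
  fun_prop

/-- `Far` in terms of the largest tetrahedron among the moved points. -/
theorem far_Kt_iff (X : Finset F) (hX : X.Nonempty) (α : F → ℝ) (t e : ℝ) :
    Far (Kt X α t) e ↔ maxTv X hX α t ≤ (1 - e) * (volume (Kt X α t)).toReal := by
  have hgen : ∀ x ∈ X, mvd α t x ∈ Kt X α t := fun x hx =>
    subset_convexHull ℝ _ ⟨x, hx, rfl⟩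
  constructor
  · intro hf
    apply Finset.sup'_le
    rintro ⟨x1, x2, x3, x4⟩ hp
    simp only [Finset.mem_product] at hp
    exact hf _ (hgen _ hp.1) _ (hgen _ hp.2.1) _ (hgen _ hp.2.2.1) _ (hgen _ hp.2.2.2)
  · intro hm
    apply tv_le_of_generators
    rintro _ ⟨x1, h1, rfl⟩ _ ⟨x2, h2, rfl⟩ _ ⟨x3, h3, rfl⟩ _ ⟨x4, h4, rfl⟩
    refine le_trans ?_ hm
    exact Finset.le_sup' (fun p : F × F × F × F =>
        tv (mvd α t p.1) (mvd α t p.2.1) (mvd α t p.2.2.1) (mvd α t p.2.2.2))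
      (b := (x1, x2, x3, x4)) (by simp_all)

/-- The largest tetrahedron among the moved points, over the volume, is continuous on `[-1, 1]` and
controls `Far` at time `t` (by `tv_le_of_generators`). -/
theorem Chord.exists_crossing {X N : Finset F} {α : F → ℝ} {L : F → F} (h : Pair X N)
    (c : Chord X N α L) {e1 e2 : ℝ} (he : e1 < e2) {σ : ℝ} (hσ : σ = 1 ∨ σ = -1)
    (h0 : Far (Kt X α 0) e2) (h1 : ¬ Far (Kt X α σ) e1) :
    ∃ a b : ℝ, 0 < a ∧ a < b ∧ b < 1 ∧ ∀ r : ℝ, a < r → r < b →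
      Far (Kt X α (r * σ)) e1 ∧ ¬ Far (Kt X α (r * σ)) e2 := by
  have hX := h.nonempty_X
  have hσ1 : |σ| = 1 := by
    rcases hσ with rfl | rfl <;> simp
  have htime : ∀ r : ℝ, 0 ≤ r → r ≤ 1 → |r * σ| ≤ 1 := by
    intro r h1 h2
    rw [abs_mul, hσ1, mul_one, abs_of_nonneg h1]
    exact h2
  set Vm := (volume (Kt X α (-1))).toReal with hVm
  set Vp := (volume (Kt X α 1)).toReal with hVp
  let V : ℝ → ℝ := fun r => (1 - r * σ) / 2 * Vm + (1 + r * σ) / 2 * Vp
  have hVc : Continuous V := by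
    simp only [V]
    fun_prop
  have hV : ∀ r : ℝ, 0 ≤ r → r ≤ 1 → (volume (Kt X α (r * σ))).toReal = V r :=
    fun r h1 h2 => c.volume_affine h (htime r h1 h2)
  have hVpos : ∀ r : ℝ, 0 ≤ r → r ≤ 1 → 0 < V r := by
    intro r h1 h2
    rw [← hV r h1 h2]
    exact c.volume_pos h (htime r h1 h2)
  have hMc : Continuous (fun r : ℝ => maxTv X hX α (r * σ)) :=
    (continuous_maxTv X hX α).comp (by fun_prop)
  have hfar : ∀ r e : ℝ, 0 ≤ r → r ≤ 1 →
      (Far (Kt X α (r * σ)) e ↔ maxTv X hX α (r * σ) ≤ (1 - e) * V r) := by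
    intro r e h1 h2
    rw [far_Kt_iff X hX α (r * σ) e, hV r h1 h2]
  set κ : ℝ := 1 - (e1 + e2) / 2 with hκ
  let H : ℝ → ℝ := fun r => maxTv X hX α (r * σ) - κ * V r
  have hHc : Continuous H := hMc.sub (continuous_const.mul hVc)
  have hH0 : H 0 < 0 := by
    have h2 : Far (Kt X α ((0 : ℝ) * σ)) e2 := by
      rw [zero_mul]
      exact h0
    have h3 := (hfar 0 e2 le_rfl zero_le_one).1 h2
    have h4 := hVpos 0 le_rfl zero_le_one
    simp only [H]
    have : (1 - e2) * V 0 < κ * V 0 := mul_lt_mul_of_pos_right (by rw [hκ]; linarith) h4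
    linarith
  have hH1 : 0 < H 1 := by
    have h2 : ¬ Far (Kt X α ((1 : ℝ) * σ)) e1 := by
      rw [one_mul]
      exact h1
    have h3 := (not_congr (hfar 1 e1 zero_le_one le_rfl)).1 h2
    push Not at h3
    have h4 := hVpos 1 zero_le_one le_rfl
    simp only [H]
    have : κ * V 1 < (1 - e1) * V 1 := mul_lt_mul_of_pos_right (by rw [hκ]; linarith) h4
    linarith
  obtain ⟨r0, hr0, hr⟩ : (0 : ℝ) ∈ H '' Ioo 0 1 :=
    intermediate_value_Ioo zero_le_one hHc.continuousOn ⟨hH0, hH1⟩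
  let U : Set ℝ := {r | maxTv X hX α (r * σ) - (1 - e1) * V r < 0} ∩
    ({r | 0 < maxTv X hX α (r * σ) - (1 - e2) * V r} ∩ Ioo 0 1)
  have hU : IsOpen U := by
    apply IsOpen.inter
    · exact isOpen_lt (hMc.sub (continuous_const.mul hVc)) continuous_const
    · apply IsOpen.inter
      · exact isOpen_lt continuous_const (hMc.sub (continuous_const.mul hVc))
      · exact isOpen_Ioo
  have hV0 := hVpos r0 hr0.1.le hr0.2.le
  have hr' : maxTv X hX α (r0 * σ) = κ * V r0 := by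
    simp only [H] at hr
    linarith
  have hr0U : r0 ∈ U := by
    refine ⟨?_, ?_, hr0⟩
    · change maxTv X hX α (r0 * σ) - (1 - e1) * V r0 < 0
      rw [hr']
      have : κ * V r0 < (1 - e1) * V r0 := mul_lt_mul_of_pos_right (by rw [hκ]; linarith) hV0
      linarith
    · change 0 < maxTv X hX α (r0 * σ) - (1 - e2) * V r0
      rw [hr']
      have : (1 - e2) * V r0 < κ * V r0 := mul_lt_mul_of_pos_right (by rw [hκ]; linarith) hV0
      linarith
  obtain ⟨ε, hε, hball⟩ := Metric.isOpen_iff.1 hU r0 hr0U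
  have mem : ∀ r : ℝ, |r - r0| < ε → r ∈ U := fun r hr => hball (by
    rw [Metric.mem_ball, Real.dist_eq]
    exact hr)
  have ha := (mem (r0 - ε / 2) (by
    rw [abs_lt]
    constructor <;> linarith)).2.2
  have hb := (mem (r0 + ε / 2) (by
    rw [abs_lt]
    constructor <;> linarith)).2.2
  refine ⟨r0 - ε / 2, r0 + ε / 2, ha.1, by linarith, hb.2, ?_⟩
  intro r hr1 hr2
  have hrU := mem r (by
    rw [abs_lt]
    constructor <;> linarith)
  obtain ⟨u1, u2, u3⟩ := hrU
  have u1' : maxTv X hX α (r * σ) - (1 - e1) * V r < 0 := u1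
  have u2' : 0 < maxTv X hX α (r * σ) - (1 - e2) * V r := u2
  constructor
  · rw [hfar r e1 u3.1.le u3.2.le]
    linarith
  · rw [hfar r e2 u3.1.le u3.2.le]
    linarith

/-- A dyadic number strictly between two numbers. -/
theorem exists_dyadic_btwn {x y : ℝ} (hx : 0 ≤ x) (hxy : x < y) :
    ∃ n j : ℕ, x < (j : ℝ) / 2 ^ n ∧ (j : ℝ) / 2 ^ n < y := by
  obtain ⟨n, hn⟩ := exists_pow_lt_of_lt_one (sub_pos.2 hxy) (by norm_num : (1 / 2 : ℝ) < 1)
  refine ⟨n, ⌊x * 2 ^ n⌋₊ + 1, ?_, ?_⟩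
  · have hpow : (0 : ℝ) < 2 ^ n := by positivity
    rw [lt_div_iff₀ hpow]
    push_cast
    exact Nat.lt_floor_add_one _
  · have hpow : (0 : ℝ) < 2 ^ n := by positivity
    have h1 : (⌊x * 2 ^ n⌋₊ : ℝ) ≤ x * 2 ^ n := Nat.floor_le (by positivity)
    rw [div_lt_iff₀ hpow]
    push_cast
    have h2 : (1 / 2 : ℝ) ^ n * 2 ^ n = 1 := by
      rw [← mul_pow]
      norm_num
    have h3 : (1 / 2 : ℝ) ^ n * 2 ^ n < (y - x) * 2 ^ n := mul_lt_mul_of_pos_right hn hpow
    nlinarith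

/-- Choice of a time with the origin at a dyadic position. -/
theorem exists_dyadic_time {q a b : ℝ} (hq : 0 < q) (ha : 0 < a) (hab : a < b) :
    ∃ p : ℝ, a < p ∧ p < b ∧ ∃ (n j : ℕ), j ≤ 2 ^ n ∧
      (-p) + (j : ℝ) / 2 ^ n * (q - (-p)) = 0 := by
  have hb : 0 < b := ha.trans hab
  have h1 : 0 < q + a := by linarith
  have h2 : 0 < q + b := by linarith
  have hxy : a / (q + a) < b / (q + b) := by
    rw [div_lt_div_iff₀ h1 h2]
    nlinarith
  obtain ⟨n, j, hj1, hj2⟩ := exists_dyadic_btwn (by positivity : 0 ≤ a / (q + a)) hxy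
  set l : ℝ := (j : ℝ) / 2 ^ n with hl
  have hl1 : l < 1 := hj2.trans (by
    rw [div_lt_one h2]
    linarith)
  have hl0 : 0 < l := lt_trans (by positivity) hj1
  have h3 : 0 < 1 - l := by linarith
  have h4 : a < l * (q + a) := by
    rwa [div_lt_iff₀ h1] at hj1
  have h5 : l * (q + b) < b := by
    rwa [lt_div_iff₀ h2] at hj2
  refine ⟨l * q / (1 - l), ?_, ?_, n, j, ?_, ?_⟩
  · rw [lt_div_iff₀ h3]
    nlinarith
  · rw [div_lt_iff₀ h3]
    nlinarith
  · have hpow : (0 : ℝ) < 2 ^ n := by positivity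
    have : (j : ℝ) < 2 ^ n := by
      rw [hl, div_lt_one hpow] at hl1
      exact hl1
    have : j < 2 ^ n := by exact_mod_cast this
    exact this.le
  · rw [← hl]
    field_simp
    ring

end Vale.Agent.Lib.P248
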