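import Vale.Agent.Lib.P248.Eq.Tetra
import Vale.Agent.Lib.P248.PairTheory

/-!
The statements of the local lemma, as they are used in the induction.
-/

open MeasureTheory Set

namespace Vale.Agent.Lib.P248

/-- The local lemma: a polytope close to a simplex has a larger volume product. -/
def LMStatement : Prop :=
  ∀ {X N : Finset F}, Pair X N → ∀ e1 e2 : ℝ, 0 ≤ e1 → e2 ≤ 1 / 10000000 →
    Far (convexHull ℝ (X : Set F)) e1 → ¬ Far (convexHull ℝ (X : Set F)) e2 →
    ENNReal.ofReal (64 / 9 * (1 + e1 / 10)) ≤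
      volume (convexHull ℝ (X : Set F)) * volume (convexHull ℝ (N : Set F))

/-- The comparison of the two sides of a polar pair. -/
def M6Statement : Prop :=
  ∀ {X N : Finset F}, Pair X N → ∀ e : ℝ, 0 < e → e ≤ 1 / 10000000 →
    Far (convexHull ℝ (N : Set F)) e → ¬ Far (convexHull ℝ (X : Set F)) (e / 64) →
    ENNReal.ofReal (64 / 9 * (101 / 100)) ≤
      volume (convexHull ℝ (X : Set F)) * volume (convexHull ℝ (N : Set F))

end Vale.Agent.Lib.P248
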