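import Vale.Agent.Lib.P248.Eq.BodyEq

/-!
Module E9, second part: the transfer of the equality statements to Euclidean three-space.
-/

open MeasureTheory Set Filter Topology
open scoped Pointwise

namespace Vale.Agent.Lib.P248

/-- Euclidean three-space. -/
abbrev E3 := EuclideanSpace ℝ (Fin 3)

/-- The polar body of `K - z`. -/
def eucPolar (K : Set E3) (z : E3) : Set E3 := {y | ∀ x ∈ K, inner ℝ y (x - z) ≤ 1}

/-- The map from Euclidean space to the model, sending `z` to the origin. -/
noncomputable def modelHomeo (z : E3) : E3 ≃ₜ F :=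
  (Homeomorph.subRight z).trans psiL.toHomeomorph

@[simp] lemma modelHomeo_apply (z x : E3) : modelHomeo z x = psiL (x - z) := rfl

/-- The model of `K` with `z` at the origin. -/
noncomputable def modelSet (K : Set E3) (z : E3) : Set F := modelHomeo z '' K

lemma modelSet_compact {K : Set E3} (hc : IsCompact K) (z : E3) : IsCompact (modelSet K z) :=
  hc.image (modelHomeo z).continuous

/-- The map to the model, as an affine map. -/
noncomputable def modelAff (z : E3) : E3 →ᵃ[ℝ] F where
  toFun x := psiL (x - z)
  linear := (psiL : E3 →L[ℝ] F).toLinearMap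
  map_vadd' p v := by
    simp only [vadd_eq_add, ContinuousLinearMap.coe_coe, ContinuousLinearEquiv.coe_coe]
    rw [← map_add]
    congr 1
    abel

lemma modelAff_apply (z x : E3) : modelAff z x = psiL (x - z) := rfl

lemma modelSet_eq_aff (K : Set E3) (z : E3) : modelSet K z = modelAff z '' K := rfl

lemma modelSet_convex {K : Set E3} (hconv : Convex ℝ K) (z : E3) : Convex ℝ (modelSet K z) := by
  rw [modelSet_eq_aff]
  exact hconv.affine_image _

lemma interior_modelSet (K : Set E3) (z : E3) :
    interior (modelSet K z) = modelHomeo z '' interior K :=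
  ((modelHomeo z).image_interior K).symm

lemma zero_mem_interior_modelSet {K : Set E3} {z : E3} (hz : z ∈ interior K) :
    (0 : F) ∈ interior (modelSet K z) := by
  rw [interior_modelSet]
  exact ⟨z, hz, by simp⟩

lemma mem_interior_of_zero_mem {K : Set E3} {z : E3} (h : (0 : F) ∈ interior (modelSet K z)) :
    z ∈ interior K := by
  rw [interior_modelSet] at h
  obtain ⟨x, hx, hx0⟩ := h
  have : x - z = 0 := by
    have h1 : psiL (x - z) = 0 := hx0
    exact (map_eq_zero_iff _ psiL.injective).1 h1
  rw [sub_eq_zero.1 this] at hx
  exact hx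

lemma interior_modelSet_nonempty {K : Set E3} (hint : (interior K).Nonempty) (z : E3) :
    (interior (modelSet K z)).Nonempty := by
  rw [interior_modelSet]
  exact hint.image _

lemma volume_modelSet (K : Set E3) (z : E3) : volume (modelSet K z) = volume K := by
  have hmp := measurePreserving_psiL
  have h1 : modelSet K z = psiL.toHomeomorph.toMeasurableEquiv.symm ⁻¹' ((fun x => x + z) ⁻¹' K) := by
    ext u
    constructor
    · rintro ⟨x, hx, rfl⟩
      show psiL.symm (psiL (x - z)) + z ∈ K
      rw [ContinuousLinearEquiv.symm_apply_apply]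
      simpa using hx
    · intro hu
      refine ⟨psiL.symm u + z, hu, ?_⟩
      show psiL (psiL.symm u + z - z) = u
      rw [add_sub_cancel_right, ContinuousLinearEquiv.apply_symm_apply]
  have hmp' : MeasurePreserving psiL.toHomeomorph.toMeasurableEquiv.symm := by
    have : MeasurePreserving psiL.toHomeomorph.toMeasurableEquiv := hmp
    exact this.symm
  rw [h1, hmp'.measure_preimage_equiv, measure_preimage_add_right]

lemma volume_eucPolar (K : Set E3) (z : E3) :
    volume (eucPolar K z) = volume (polarSet (modelSet K z)) := by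
  have hmp := measurePreserving_psiL
  have hpol : eucPolar K z = psiL ⁻¹' polarSet (modelSet K z) := by
    ext y
    constructor
    · rintro hy _ ⟨x, hx, rfl⟩
      rw [modelHomeo_apply, dot_psiL]
      exact hy x hx
    · intro hy x hx
      rw [← dot_psiL]
      exact hy _ ⟨x, hx, rfl⟩
  rw [hpol]
  have : MeasurePreserving psiL.toHomeomorph.toMeasurableEquiv := hmp
  exact this.measure_preimage_equiv _

/-- The volume product in the model is the volume product in Euclidean space. -/
lemma product_eq (K : Set E3) (z : E3) :
    volume K * volume (eucPolar K z) = volume (modelSet K z) * volume (polarSet (modelSet K z)) := by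
  rw [volume_modelSet, volume_eucPolar]

/-! ### `Far` under translations -/

lemma Far.translate {S : Set F} {e : ℝ} (h : Far S e) (v : F) :
    Far ((fun u => u + v) '' S) e := by
  have hvol : volume ((fun u => u + v) '' S) = volume S := by
    rw [Set.image_add_right, measure_preimage_add_right]
  intro a ha b hb c hc d hd
  obtain ⟨a', ha', rfl⟩ := ha
  obtain ⟨b', hb', rfl⟩ := hb
  obtain ⟨c', hc', rfl⟩ := hc
  obtain ⟨d', hd', rfl⟩ := hd
  rw [hvol, tv_add]
  exact h a' ha' b' hb' c' hc' d' hd'

lemma modelSet_translate (K : Set E3) (z : E3) :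
    modelSet K z = (fun u => u + (-psiL z)) '' modelSet K 0 := by
  ext u
  constructor
  · rintro ⟨x, hx, rfl⟩
    refine ⟨psiL x, ⟨x, hx, by simp⟩, ?_⟩
    simp [sub_eq_add_neg]
  · rintro ⟨_, ⟨x, hx, rfl⟩, rfl⟩
    refine ⟨x, hx, ?_⟩
    simp [sub_eq_add_neg]

/-! ### The shape of the model -/

lemma not_simplex_model {K : Set E3}
    (hns : ¬ ∃ a b c d : E3, K = convexHull ℝ ({a, b, c, d} : Set E3)) :
    ¬ ∃ a b c d : F, modelSet K 0 = convexHull ℝ ({a, b, c, d} : Set F) := by
  rintro ⟨a, b, c, d, h⟩
  apply hns
  refine ⟨psiL.symm a, psiL.symm b, psiL.symm c, psiL.symm d, ?_⟩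
  have h1 : K = (psiL.symm : F →L[ℝ] E3).toLinearMap '' modelSet K 0 := by
    ext x
    constructor
    · intro hx
      refine ⟨psiL x, ⟨x, hx, by simp only [modelHomeo_apply, sub_zero]⟩, ?_⟩
      show psiL.symm (psiL x) = x
      exact psiL.symm_apply_apply x
    · rintro ⟨_, ⟨y, hy, rfl⟩, rfl⟩
      show psiL.symm (psiL (y - 0)) ∈ K
      rw [psiL.symm_apply_apply, sub_zero]
      exact hy
  rw [h1, h, LinearMap.image_convexHull]
  congr 1
  simp only [image_insert_eq, image_singleton]
  rfl

lemma model_of_simplex (a b c d z : E3) :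
    modelSet (convexHull ℝ ({a, b, c, d} : Set E3)) z =
      convexHull ℝ ({psiL (a - z), psiL (b - z), psiL (c - z), psiL (d - z)} : Set F) := by
  rw [modelSet_eq_aff, AffineMap.image_convexHull]
  congr 1
  simp only [image_insert_eq, image_singleton]
  rfl

/-! ### The main transfer -/

/-- Bodies in Euclidean space: the gap for bodies which are not tetrahedra, uniform in the centre,
and the exact value at the centroid of a tetrahedron. -/
theorem euclid_main (hpair : ∀ e : ℝ, 0 < e → e ≤ 1 / 10000000 →
      ∀ X N : Finset F, Pair X N →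
      (Far (convexHull ℝ (X : Set F)) e ∨ Far (convexHull ℝ (N : Set F)) e) →
      gapConst e ≤ volume (convexHull ℝ (X : Set F)) * volume (convexHull ℝ (N : Set F)))
    (K : Set E3) (hc : IsCompact K) (hconv : Convex ℝ K) (hint : (interior K).Nonempty) :
    ((¬ ∃ a b c d : E3, K = convexHull ℝ ({a, b, c, d} : Set E3)) →
      ∃ η : ℝ, 64 / 9 < η ∧ ∀ z ∈ interior K,
        ENNReal.ofReal η ≤ volume K * volume (eucPolar K z)) ∧
    ((∃ a b c d : E3, K = convexHull ℝ ({a, b, c, d} : Set E3)) →
      ∃ z ∈ interior K, volume K * volume (eucPolar K z) = ENNReal.ofReal (64 / 9)) := by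
  constructor
  · intro hns
    obtain ⟨e, he, he1, hfar⟩ := exists_far_of_not_simplex (modelSet K 0) (modelSet_compact hc 0)
      (modelSet_convex hconv 0) (interior_modelSet_nonempty hint 0) (not_simplex_model hns)
    refine ⟨64 / 9 * (1 + (e / 2) / 1280), ?_, ?_⟩
    · have : 0 < (e / 2) / 1280 := by positivity
      nlinarith
    · intro z hz
      rw [product_eq]
      have hfz : Far (modelSet K z) e := by
        rw [modelSet_translate]
        exact hfar.translate _
      exact body_eq hpair (modelSet K z) (modelSet_compact hc z) (modelSet_convex hconv z)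
        (zero_mem_interior_modelSet hz) he he1 hfz
  · rintro ⟨a, b, c, d, rfl⟩
    set z : E3 := (1 / 4 : ℝ) • (a + b + c + d) with hz
    have hsum : psiL (a - z) + psiL (b - z) + psiL (c - z) + psiL (d - z) = 0 := by
      rw [← map_add, ← map_add, ← map_add]
      have : a - z + (b - z) + (c - z) + (d - z) = 0 := by
        have h4 : (4 : ℝ) • z = a + b + c + d := by
          rw [hz, smul_smul]
          norm_num
        have h5 : a - z + (b - z) + (c - z) + (d - z) = (a + b + c + d) - (4 : ℝ) • z := by
          have : (4 : ℝ) • z = z + z + z + z := by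
            have h6 : (4 : ℝ) = 1 + 1 + 1 + 1 := by norm_num
            rw [h6, add_smul, add_smul, add_smul, one_smul]
          rw [this]
          abel
        rw [h5, h4, sub_self]
      rw [this, map_zero]
    have hintm := interior_modelSet_nonempty hint z
    rw [model_of_simplex] at hintm
    obtain ⟨h0, hprod⟩ := simplex_exact hsum hintm
    rw [← model_of_simplex] at h0 hprod
    exact ⟨z, mem_interior_of_zero_mem h0, by rw [product_eq]; exact hprod⟩

end Vale.Agent.Lib.P248
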