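import Vale.Agent.Lib.P248.Eq.Tetra

/-!
Barycentric frames of a tetrahedron.
-/

open MeasureTheory Set

namespace Vale.Agent.Lib.P248

/-- The affine function with gradient `c` and value `b` at the origin. -/
def mf (c : F) (b : ℝ) (x : F) : ℝ := dot c x + b

lemma mf_mix (c : F) (b : ℝ) (x y : F) {s t : ℝ} (hst : s + t = 1) :
    mf c b (s • x + t • y) = s * mf c b x + t * mf c b y := by
  have hs : s = 1 - t := by linarith
  subst hs
  simp only [mf, dot_add_right, dot_smul_right]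
  ring

lemma mf_combo3 (c : F) (b : ℝ) (a A B C : F) (α β γ : ℝ) :
    mf c b (a + α • A + β • B + γ • C) =
      mf c b a + α * dot c A + β * dot c B + γ * dot c C := by
  simp only [mf, dot_add_right, dot_smul_right]
  ring

lemma continuous_mf (c : F) (b : ℝ) : Continuous (mf c b) := by
  unfold mf
  exact (continuous_dot_right c).add continuous_const

/-- Barycentric coordinates of the tetrahedron `v0 v1 v2 v3`. -/
structure Frame4 (v0 v1 v2 v3 c0 c1 c2 c3 : F) (b0 b1 b2 b3 : ℝ) : Prop where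
  sb : b0 + b1 + b2 + b3 = 1
  sc : c0 + c1 + c2 + c3 = 0
  d00 : dot c0 v0 + b0 = 1
  d01 : dot c1 v0 + b1 = 0
  d02 : dot c2 v0 + b2 = 0
  d03 : dot c3 v0 + b3 = 0
  d10 : dot c0 v1 + b0 = 0
  d11 : dot c1 v1 + b1 = 1
  d12 : dot c2 v1 + b2 = 0
  d13 : dot c3 v1 + b3 = 0
  d20 : dot c0 v2 + b0 = 0
  d21 : dot c1 v2 + b1 = 0
  d22 : dot c2 v2 + b2 = 1
  d23 : dot c3 v2 + b3 = 0
  d30 : dot c0 v3 + b0 = 0
  d31 : dot c1 v3 + b1 = 0
  d32 : dot c2 v3 + b2 = 0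
  d33 : dot c3 v3 + b3 = 1

variable {v0 v1 v2 v3 c0 c1 c2 c3 : F} {b0 b1 b2 b3 : ℝ}

/-- Cyclic relabelling of a frame. -/
theorem Frame4.cyc (fr : Frame4 v0 v1 v2 v3 c0 c1 c2 c3 b0 b1 b2 b3) :
    Frame4 v1 v2 v3 v0 c1 c2 c3 c0 b1 b2 b3 b0 where
  sb := by linarith [fr.sb]
  sc := by rw [← fr.sc]; abel
  d00 := fr.d11
  d01 := fr.d12
  d02 := fr.d13
  d03 := fr.d10
  d10 := fr.d21
  d11 := fr.d22
  d12 := fr.d23
  d13 := fr.d20
  d20 := fr.d31
  d21 := fr.d32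
  d22 := fr.d33
  d23 := fr.d30
  d30 := fr.d01
  d31 := fr.d02
  d32 := fr.d03
  d33 := fr.d00

/-- The four barycentric coordinates sum to one. -/
theorem Frame4.sum_mf (fr : Frame4 v0 v1 v2 v3 c0 c1 c2 c3 b0 b1 b2 b3) (x : F) :
    mf c0 b0 x + mf c1 b1 x + mf c2 b2 x + mf c3 b3 x = 1 := by
  have h : dot (c0 + c1 + c2 + c3) x = 0 := by rw [fr.sc]; simp
  simp only [dot_add_left] at h
  simp only [mf]
  linarith [fr.sb]

/-- Product formula for determinants. -/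
lemma det3_mul_det3 (a1 a2 a3 u1 u2 u3 : F) :
    det3 a1 a2 a3 * det3 u1 u2 u3 =
      dot a1 u1 * (dot a2 u2 * dot a3 u3 - dot a2 u3 * dot a3 u2)
      - dot a1 u2 * (dot a2 u1 * dot a3 u3 - dot a2 u3 * dot a3 u1)
      + dot a1 u3 * (dot a2 u1 * dot a3 u2 - dot a2 u2 * dot a3 u1) := by
  simp only [det3, dot, dot2]
  ring

theorem Frame4.det_rel (fr : Frame4 v0 v1 v2 v3 c0 c1 c2 c3 b0 b1 b2 b3) :
    det3 c1 c2 c3 * det3 (v1 - v0) (v2 - v0) (v3 - v0) = 1 := by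
  rw [det3_mul_det3]
  simp only [dot_sub_right]
  have h11 : dot c1 v1 - dot c1 v0 = 1 := by linarith [fr.d01, fr.d11]
  have h12 : dot c1 v2 - dot c1 v0 = 0 := by linarith [fr.d01, fr.d21]
  have h13 : dot c1 v3 - dot c1 v0 = 0 := by linarith [fr.d01, fr.d31]
  have h21 : dot c2 v1 - dot c2 v0 = 0 := by linarith [fr.d02, fr.d12]
  have h22 : dot c2 v2 - dot c2 v0 = 1 := by linarith [fr.d02, fr.d22]
  have h23 : dot c2 v3 - dot c2 v0 = 0 := by linarith [fr.d02, fr.d32]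
  have h31 : dot c3 v1 - dot c3 v0 = 0 := by linarith [fr.d03, fr.d13]
  have h32 : dot c3 v2 - dot c3 v0 = 0 := by linarith [fr.d03, fr.d23]
  have h33 : dot c3 v3 - dot c3 v0 = 1 := by linarith [fr.d03, fr.d33]
  rw [h11, h12, h13, h21, h22, h23, h31, h32, h33]
  ring

theorem Frame4.det_ne (fr : Frame4 v0 v1 v2 v3 c0 c1 c2 c3 b0 b1 b2 b3) :
    det3 (v1 - v0) (v2 - v0) (v3 - v0) ≠ 0 := by
  intro h
  have := fr.det_rel
  rw [h] at this
  simp at this

theorem Frame4.detc_ne (fr : Frame4 v0 v1 v2 v3 c0 c1 c2 c3 b0 b1 b2 b3) :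
    det3 c1 c2 c3 ≠ 0 := by
  intro h
  have := fr.det_rel
  rw [h] at this
  simp at this

/-- Expansion in the dual basis. -/
lemma expand_of_dual {a1 a2 a3 u1 u2 u3 : F} (hne : det3 u1 u2 u3 ≠ 0)
    (h11 : dot a1 u1 = 1) (h12 : dot a1 u2 = 0) (h13 : dot a1 u3 = 0)
    (h21 : dot a2 u1 = 0) (h22 : dot a2 u2 = 1) (h23 : dot a2 u3 = 0)
    (h31 : dot a3 u1 = 0) (h32 : dot a3 u2 = 0) (h33 : dot a3 u3 = 1) (p : F) :
    p = dot a1 p • u1 + dot a2 p • u2 + dot a3 p • u3 := by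
  obtain ⟨n1, n2, n3, -, -, -, hexp, -⟩ := dual_exists hne
  have e := hexp p
  have e1 : dot a1 p = dot n1 p := by
    conv_lhs => rw [e]
    simp only [dot_add_right, dot_smul_right, h11, h12, h13]
    ring
  have e2 : dot a2 p = dot n2 p := by
    conv_lhs => rw [e]
    simp only [dot_add_right, dot_smul_right, h21, h22, h23]
    ring
  have e3 : dot a3 p = dot n3 p := by
    conv_lhs => rw [e]
    simp only [dot_add_right, dot_smul_right, h31, h32, h33]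
    ring
  rw [e1, e2, e3]
  exact e

/-- Expansion of a point in the frame. -/
theorem Frame4.recon (fr : Frame4 v0 v1 v2 v3 c0 c1 c2 c3 b0 b1 b2 b3) (x : F) :
    x - v0 = mf c1 b1 x • (v1 - v0) + mf c2 b2 x • (v2 - v0) + mf c3 b3 x • (v3 - v0) := by
  have h := expand_of_dual (a1 := c1) (a2 := c2) (a3 := c3) fr.det_ne
    (by rw [dot_sub_right]; linarith [fr.d01, fr.d11])
    (by rw [dot_sub_right]; linarith [fr.d01, fr.d21])
    (by rw [dot_sub_right]; linarith [fr.d01, fr.d31])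
    (by rw [dot_sub_right]; linarith [fr.d02, fr.d12])
    (by rw [dot_sub_right]; linarith [fr.d02, fr.d22])
    (by rw [dot_sub_right]; linarith [fr.d02, fr.d32])
    (by rw [dot_sub_right]; linarith [fr.d03, fr.d13])
    (by rw [dot_sub_right]; linarith [fr.d03, fr.d23])
    (by rw [dot_sub_right]; linarith [fr.d03, fr.d33]) (x - v0)
  have e1 : dot c1 (x - v0) = mf c1 b1 x := by
    rw [dot_sub_right]; simp only [mf]; linarith [fr.d01]
  have e2 : dot c2 (x - v0) = mf c2 b2 x := by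
    rw [dot_sub_right]; simp only [mf]; linarith [fr.d02]
  have e3 : dot c3 (x - v0) = mf c3 b3 x := by
    rw [dot_sub_right]; simp only [mf]; linarith [fr.d03]
  rw [e1, e2, e3] at h
  exact h

/-- The origin as an affine combination of the vertices. -/
theorem Frame4.sum_bv (fr : Frame4 v0 v1 v2 v3 c0 c1 c2 c3 b0 b1 b2 b3) :
    b0 • v0 + b1 • v1 + b2 • v2 + b3 • v3 = 0 := by
  have h := fr.recon 0
  simp only [mf, dot_zero_right, zero_add, zero_sub] at h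
  have hb0 : b0 = 1 - b1 - b2 - b3 := by linarith [fr.sb]
  subst hb0
  have h2 : (1 - b1 - b2 - b3) • v0 + b1 • v1 + b2 • v2 + b3 • v3 =
      v0 + (b1 • (v1 - v0) + b2 • (v2 - v0) + b3 • (v3 - v0)) := by
    ext <;> simp <;> ring
  rw [h2, ← h]
  simp

/-- Frames exist for nondegenerate tetrahedra. -/
theorem exists_frame4 {v0 v1 v2 v3 : F} (hD : det3 (v1 - v0) (v2 - v0) (v3 - v0) ≠ 0) :
    ∃ (c0 c1 c2 c3 : F) (b0 b1 b2 b3 : ℝ), Frame4 v0 v1 v2 v3 c0 c1 c2 c3 b0 b1 b2 b3 := by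
  obtain ⟨n1, n2, n3, ⟨h11, h12, h13⟩, ⟨h21, h22, h23⟩, ⟨h31, h32, h33⟩, -, -⟩ := dual_exists hD
  rw [dot_sub_right] at h11 h12 h13 h21 h22 h23 h31 h32 h33
  refine ⟨-(n1 + n2 + n3), n1, n2, n3, 1 + dot n1 v0 + dot n2 v0 + dot n3 v0, -dot n1 v0,
    -dot n2 v0, -dot n3 v0, ?_⟩
  refine ⟨by ring, by abel, ?_, by ring, by ring, by ring, ?_, by linarith, by linarith, by linarith,
    ?_, by linarith, by linarith, by linarith, ?_, by linarith, by linarith, by linarith⟩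
  · simp only [dot_neg_left, dot_add_left]; ring
  · simp only [dot_neg_left, dot_add_left]; linarith
  · simp only [dot_neg_left, dot_add_left]; linarith
  · simp only [dot_neg_left, dot_add_left]; linarith

/-! ### Replacing a vertex -/

lemma det3_repl1 (u1 u2 u3 : F) (α β γ : ℝ) :
    det3 (α • u1 + β • u2 + γ • u3) u2 u3 = α * det3 u1 u2 u3 := by
  simp only [det3, Prod.fst_add, Prod.snd_add, Prod.smul_fst, Prod.smul_snd, smul_eq_mul]
  ring

lemma det3_repl2 (u1 u2 u3 : F) (α β γ : ℝ) :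
    det3 u1 (α • u1 + β • u2 + γ • u3) u3 = β * det3 u1 u2 u3 := by
  simp only [det3, Prod.fst_add, Prod.snd_add, Prod.smul_fst, Prod.smul_snd, smul_eq_mul]
  ring

lemma det3_repl3 (u1 u2 u3 : F) (α β γ : ℝ) :
    det3 u1 u2 (α • u1 + β • u2 + γ • u3) = γ * det3 u1 u2 u3 := by
  simp only [det3, Prod.fst_add, Prod.snd_add, Prod.smul_fst, Prod.smul_snd, smul_eq_mul]
  ring

lemma det3_repl0 (u1 u2 u3 : F) (α β γ : ℝ) :
    det3 (u1 - (α • u1 + β • u2 + γ • u3)) (u2 - (α • u1 + β • u2 + γ • u3))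
      (u3 - (α • u1 + β • u2 + γ • u3)) = (1 - α - β - γ) * det3 u1 u2 u3 := by
  simp only [det3, Prod.fst_add, Prod.snd_add, Prod.fst_sub, Prod.snd_sub, Prod.smul_fst,
    Prod.smul_snd, smul_eq_mul]
  ring

theorem Frame4.tv_repl1 (fr : Frame4 v0 v1 v2 v3 c0 c1 c2 c3 b0 b1 b2 b3) (x : F) :
    tv v0 x v2 v3 = |mf c1 b1 x| * tv v0 v1 v2 v3 := by
  unfold tv
  rw [fr.recon x, det3_repl1, abs_mul]
  ring

theorem Frame4.tv_repl2 (fr : Frame4 v0 v1 v2 v3 c0 c1 c2 c3 b0 b1 b2 b3) (x : F) :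
    tv v0 v1 x v3 = |mf c2 b2 x| * tv v0 v1 v2 v3 := by
  unfold tv
  rw [fr.recon x, det3_repl2, abs_mul]
  ring

theorem Frame4.tv_repl3 (fr : Frame4 v0 v1 v2 v3 c0 c1 c2 c3 b0 b1 b2 b3) (x : F) :
    tv v0 v1 v2 x = |mf c3 b3 x| * tv v0 v1 v2 v3 := by
  unfold tv
  rw [fr.recon x, det3_repl3, abs_mul]
  ring

theorem Frame4.tv_repl0 (fr : Frame4 v0 v1 v2 v3 c0 c1 c2 c3 b0 b1 b2 b3) (x : F) :
    tv x v1 v2 v3 = |mf c0 b0 x| * tv v0 v1 v2 v3 := by
  have e1 : v1 - x = (v1 - v0) - (x - v0) := by abel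
  have e2 : v2 - x = (v2 - v0) - (x - v0) := by abel
  have e3 : v3 - x = (v3 - v0) - (x - v0) := by abel
  have h0 : mf c0 b0 x = 1 - mf c1 b1 x - mf c2 b2 x - mf c3 b3 x := by
    linarith [fr.sum_mf x]
  unfold tv
  rw [e1, e2, e3, fr.recon x, det3_repl0, abs_mul, h0]
  ring

/-- Invariance of the tetrahedron volume under cyclic relabelling. -/
lemma tv_cyc (a b c d : F) : tv b c d a = tv a b c d := by
  unfold tv
  have : det3 (c - b) (d - b) (a - b) = - det3 (b - a) (c - a) (d - a) := by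
    simp only [det3, Prod.fst_sub, Prod.snd_sub]
    ring
  rw [this, abs_neg]

/-- At a tetrahedron of maximal volume the barycentric coordinates are at most one. -/
theorem Frame4.mf_le_one (fr : Frame4 v0 v1 v2 v3 c0 c1 c2 c3 b0 b1 b2 b3) {L : Set F}
    (h0 : v0 ∈ L) (h1 : v1 ∈ L) (h2 : v2 ∈ L) (h3 : v3 ∈ L)
    (hmax : ∀ a ∈ L, ∀ b ∈ L, ∀ c ∈ L, ∀ d ∈ L, tv a b c d ≤ tv v0 v1 v2 v3)
    {x : F} (hx : x ∈ L) :
    mf c0 b0 x ≤ 1 ∧ mf c1 b1 x ≤ 1 ∧ mf c2 b2 x ≤ 1 ∧ mf c3 b3 x ≤ 1 := by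
  have hpos : 0 < tv v0 v1 v2 v3 := by
    unfold tv
    have := abs_pos.2 fr.det_ne
    positivity
  have key : ∀ m : ℝ, |m| * tv v0 v1 v2 v3 ≤ tv v0 v1 v2 v3 → m ≤ 1 := by
    intro m hm
    have : |m| ≤ 1 := by
      by_contra hc
      push Not at hc
      nlinarith
    exact (le_abs_self m).trans this
  refine ⟨key _ ?_, key _ ?_, key _ ?_, key _ ?_⟩
  · rw [← fr.tv_repl0]; exact hmax _ hx _ h1 _ h2 _ h3
  · rw [← fr.tv_repl1]; exact hmax _ h0 _ hx _ h2 _ h3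
  · rw [← fr.tv_repl2]; exact hmax _ h0 _ h1 _ hx _ h3
  · rw [← fr.tv_repl3]; exact hmax _ h0 _ h1 _ h2 _ hx

/-- The relation between the sizes of the tetrahedron and of the gradients. -/
theorem Frame4.tv_mul (fr : Frame4 v0 v1 v2 v3 c0 c1 c2 c3 b0 b1 b2 b3) :
    tv v0 v1 v2 v3 * |det3 c1 c2 c3| = 1 / 6 := by
  unfold tv
  have h := fr.det_rel
  have h2 : |det3 c1 c2 c3| * |det3 (v1 - v0) (v2 - v0) (v3 - v0)| = 1 := by
    rw [← abs_mul, h, abs_one]
  nlinarith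

/-- The absolute determinant of the gradients does not depend on the choice of three. -/
theorem Frame4.detc_cyc (fr : Frame4 v0 v1 v2 v3 c0 c1 c2 c3 b0 b1 b2 b3) :
    |det3 c2 c3 c0| = |det3 c1 c2 c3| := by
  have h : c0 = -(c1 + c2 + c3) := by
    have := fr.sc
    rw [eq_neg_iff_add_eq_zero]
    rw [← this]
    abel
  rw [h]
  have : det3 c2 c3 (-(c1 + c2 + c3)) = - det3 c1 c2 c3 := by
    simp only [det3, Prod.fst_add, Prod.snd_add, Prod.fst_neg, Prod.snd_neg]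
    ring
  rw [this, abs_neg]

end Vale.Agent.Lib.P248
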