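import Vale.Agent.Lib.P248.Eq.ChordT
import Vale.Agent.Lib.P248.Eq.Gap
import Vale.Agent.Lib.P248.Chord5
import Vale.Agent.Lib.P248.PairMain

/-!
The induction for the stability version of the three-dimensional inequality.
-/

open MeasureTheory Set
open scoped Pointwise

namespace Vale.Agent.Lib.P248

private lemma volume_vadd' (v : F) (S : Set F) : volume (v +ᵥ S) = volume S := by
  have hH : (volume : Measure F).IsAddHaarMeasure := by
    rw [Measure.volume_eq_prod]
    infer_instance
  exact measure_vadd _ _ _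

/-- `Far` is invariant under translations. -/
lemma far_vadd {K : Set F} {e : ℝ} (v : F) (hK : Far K e) : Far (v +ᵥ K) e := by
  rintro a ⟨a0, ha, rfl⟩ b ⟨b0, hb, rfl⟩ c ⟨c0, hc, rfl⟩ d ⟨d0, hd, rfl⟩
  have e1 := hK a0 ha b0 hb c0 hc d0 hd
  rw [volume_vadd']
  simp only [vadd_eq_add]
  rw [add_comm v a0, add_comm v b0, add_comm v c0, add_comm v d0, tv_add]
  exact e1

lemma far_vadd_iff {K : Set F} {e : ℝ} (v : F) : Far (v +ᵥ K) e ↔ Far K e := by
  constructor
  · intro h
    have := far_vadd (-v) h
    rwa [neg_vadd_vadd] at this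
  · exact far_vadd v

/-- The hull of the points moved at time `t` and translated by `s`. -/
lemma hull_moved (X : Finset F) (α : F → ℝ) (t s : ℝ) :
    convexHull ℝ ((fun x : F => ((x.1, x.2 + t * α x - s) : F)) '' (X : Set F)) =
      ((0, -s) : F) +ᵥ Kt X α t := by
  unfold Kt
  rw [← convexHull_vadd]
  congr 1
  change _ = (fun u : F => ((0, -s) : F) +ᵥ u) '' (mvd α t '' (X : Set F))
  rw [Set.image_image]
  apply Set.image_congr
  intro x _
  simp only [mvd, vadd_eq_add]
  ext <;> simp <;> ring

/-- The local lemma gives the bound at the times where the polytope is close to a simplex. -/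
lemma goodAt_of_lm (lm : LMStatement) {X : Finset F} {α : F → ℝ} (hX : X.Nonempty) {ε : ℝ}
    (hε : 0 < ε) (h0 : ∀ w : ℝ × ℝ, ε * (|w.1| + |w.2|) ≤ X.sup' hX (fun x => dot2 w x.1))
    {t e1 e2 : ℝ} (h1 : 0 ≤ e1) (h2 : e2 ≤ 1 / 10000000) (hf : Far (Kt X α t) e1)
    (hn : ¬ Far (Kt X α t) e2) :
    GoodAt X hX α (ENNReal.ofReal (64 / 9 * (1 + e1 / 10))) t := by
  apply goodAt_of_pairs hX hε h0
  intro s X' N' hP hc
  have hc' := hc.trans (hull_moved X α t s)
  apply lm hP e1 e2 h1 h2
  · rw [hc']
    exact far_vadd _ hf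
  · rw [hc', far_vadd_iff]
    exact hn

/-- The bound at an end of the chord, where the complexity drops. -/
lemma goodAt_end (lm : LMStatement) {X N : Finset F} {α : F → ℝ} {e : ℝ} (he : 0 < e)
    (he1 : e ≤ 1 / 10000000) (hX : X.Nonempty) {ε : ℝ} (hε : 0 < ε)
    (h0 : ∀ w : ℝ × ℝ, ε * (|w.1| + |w.2|) ≤ X.sup' hX (fun x => dot2 w x.1)) {t : ℝ}
    (hdrop : ∀ (s : ℝ) (X' N' : Finset F), Pair X' N' →
      convexHull ℝ (X' : Set F) =
        convexHull ℝ ((fun x : F => ((x.1, x.2 + t * α x - s) : F)) '' (X : Set F)) →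
      X'.card + N'.card < X.card + N.card)
    (IH : ∀ X' N', Pair X' N' → X'.card + N'.card < X.card + N.card →
      (Far (convexHull ℝ (X' : Set F)) e ∨ Far (convexHull ℝ (N' : Set F)) e) →
      gapConst e ≤ volume (convexHull ℝ (X' : Set F)) * volume (convexHull ℝ (N' : Set F)))
    (hf : Far (Kt X α t) (e / 64 / 2)) : GoodAt X hX α (gapConst e) t := by
  apply goodAt_of_pairs hX hε h0
  intro s X' N' hP hc
  have hc' := hc.trans (hull_moved X α t s)
  by_cases hfe : Far (convexHull ℝ (X' : Set F)) e
  · exact IH X' N' hP (hdrop s X' N' hP hc) (Or.inl hfe)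
  · have := lm hP (e / 64 / 2) e (by positivity) he1
      (by rw [hc']; exact far_vadd _ hf) hfe
    have e2 : 64 / 9 * (1 + e / 64 / 2 / 10) = 64 / 9 * (1 + e / 1280) := by ring
    rw [e2] at this
    exact this

/-- One side of the chord: a good time exists. -/
lemma side_good (lm : LMStatement) {X N : Finset F} {α : F → ℝ} {L : F → F} (h : Pair X N)
    (ch : Chord X N α L) {e : ℝ} (he : 0 < e) (he1 : e ≤ 1 / 10000000) (hX : X.Nonempty) {ε : ℝ}
    (hε : 0 < ε) (h0 : ∀ w : ℝ × ℝ, ε * (|w.1| + |w.2|) ≤ X.sup' hX (fun x => dot2 w x.1))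
    {σ : ℝ} (hσ : σ = 1 ∨ σ = -1)
    (hdrop : ∀ (s : ℝ) (X' N' : Finset F), Pair X' N' →
      convexHull ℝ (X' : Set F) =
        convexHull ℝ ((fun x : F => ((x.1, x.2 + σ * α x - s) : F)) '' (X : Set F)) →
      X'.card + N'.card < X.card + N.card)
    (IH : ∀ X' N', Pair X' N' → X'.card + N'.card < X.card + N.card →
      (Far (convexHull ℝ (X' : Set F)) e ∨ Far (convexHull ℝ (N' : Set F)) e) →
      gapConst e ≤ volume (convexHull ℝ (X' : Set F)) * volume (convexHull ℝ (N' : Set F)))
    (hfar : Far (Kt X α 0) (e / 64)) :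
    GoodAt X hX α (gapConst e) σ ∨
      ∃ a b : ℝ, 0 < a ∧ a < b ∧ b < 1 ∧ ∀ r : ℝ, a < r → r < b →
        GoodAt X hX α (gapConst e) (r * σ) := by
  by_cases hf : Far (Kt X α σ) (e / 64 / 2)
  · exact Or.inl (goodAt_end lm he he1 hX hε h0 hdrop IH hf)
  · right
    have hlt : e / 64 / 2 < e / 64 := by linarith
    obtain ⟨a, b, ha, hab, hb, hr⟩ := ch.exists_crossing h hlt hσ hfar hf
    refine ⟨a, b, ha, hab, hb, fun r h1 h2 => ?_⟩
    obtain ⟨f1, f2⟩ := hr r h1 h2
    have := goodAt_of_lm lm hX hε h0 (e1 := e / 64 / 2) (e2 := e / 64) (by positivity)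
      (by linarith) f1 f2
    have e2 : 64 / 9 * (1 + e / 64 / 2 / 10) = 64 / 9 * (1 + e / 1280) := by ring
    rw [e2] at this
    exact this

/-- One chord step: the polytope is far from simplices, moved along a chord. -/
theorem chord_step_eq (lm : LMStatement)
    {X N : Finset F} (h : Pair X N) {e : ℝ} (he : 0 < e) (he1 : e ≤ 1 / 10000000)
    (α : F → ℝ)
    (hα : ∀ n ∈ N, n.2 ≠ 0 → ∃ L : F, ∀ x ∈ tightPts X n, α x = dot L x)
    (hnt : ¬ ∃ (L : F) (a : ℝ), ∀ x ∈ X, α x = dot L x + a)
    (IH : ∀ X' N', Pair X' N' → X'.card + N'.card < X.card + N.card →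
      (Far (convexHull ℝ (X' : Set F)) e ∨ Far (convexHull ℝ (N' : Set F)) e) →
      gapConst e ≤ volume (convexHull ℝ (X' : Set F)) * volume (convexHull ℝ (N' : Set F)))
    (hfar : Far (convexHull ℝ (X : Set F)) (e / 64)) :
    gapConst e ≤ volume (convexHull ℝ (X : Set F)) * volume (convexHull ℝ (N : Set F)) := by
  classical
  obtain ⟨a, L, ch⟩ := exists_chord h α hα hnt
  have hX := h.nonempty_X
  obtain ⟨ε, hε, h0⟩ := h.coercive hX
  obtain ⟨ρ, hρ, hball⟩ := h.ball
  have hcf : gapConst e ≠ ⊤ := ENNReal.ofReal_ne_top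
  have hfar0 : Far (Kt X a 0) (e / 64) := by
    rw [Kt_zero]
    exact hfar
  have drop1 : ∀ (s : ℝ) (X' N' : Finset F), Pair X' N' →
      convexHull ℝ (X' : Set F) =
        convexHull ℝ ((fun x : F => ((x.1, x.2 + (1 : ℝ) * a x - s) : F)) '' (X : Set F)) →
      X'.card + N'.card < X.card + N.card := by
    intro s X' N' hP hc
    refine measure_drop h (ch.translate s) hP (hc.trans ?_)
    congr 1
    apply Set.image_congr
    intro x _
    simp only [mvd]
    ext <;> simp <;> ring
  have dropm : ∀ (s : ℝ) (X' N' : Finset F), Pair X' N' →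
      convexHull ℝ (X' : Set F) =
        convexHull ℝ ((fun x : F => ((x.1, x.2 + (-1 : ℝ) * a x - s) : F)) '' (X : Set F)) →
      X'.card + N'.card < X.card + N.card := by
    intro s X' N' hP hc
    refine measure_drop h (ch.neg.translate s) hP (hc.trans ?_)
    congr 1
    apply Set.image_congr
    intro x _
    simp only [mvd]
    ext <;> simp <;> ring
  have s1 := side_good lm h ch he he1 hX hε h0 (Or.inl rfl) drop1 IH hfar0
  have s2 := side_good lm h ch he he1 hX hε h0 (Or.inr rfl) dropm IH hfar0
  have ht1 : |(1 : ℝ)| ≤ 1 := by simp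
  have htm : |(-1 : ℝ)| ≤ 1 := by simp
  -- a good time on the positive side
  have hgood0 : GoodAt X hX a (gapConst e) 0 := by
    rcases s2 with g2 | ⟨a2, b2, ha2, hab2, hb2, hr2⟩
    · rcases s1 with g1 | ⟨a1, b1, ha1, hab1, hb1, hr1⟩
      · have := GoodAt.dyadic h ch hX hcf htm ht1 g2 g1 1 1 (by norm_num)
        have e2 : (-1 : ℝ) + ((1 : ℕ) : ℝ) / 2 ^ 1 * (1 - (-1)) = 0 := by norm_num
        rwa [e2] at this
      · obtain ⟨p, hp1, hp2, n, j, hj, hz⟩ :=
          exists_dyadic_time (q := 1) (a := a1) (b := b1) one_pos ha1 hab1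
        have gp : GoodAt X hX a (gapConst e) p := by
          have := hr1 p hp1 hp2
          rwa [mul_one] at this
        have hp0 : 0 < p := lt_trans ha1 hp1
        have hp3 : |p| ≤ 1 := by
          rw [abs_of_pos hp0]
          linarith
        have := GoodAt.dyadic h ch hX hcf hp3 htm gp g2 n j hj
        have e2 : p + (j : ℝ) / 2 ^ n * (-1 - p) = 0 := by linarith
        rwa [e2] at this
    · have hq : ∃ q : ℝ, 0 < q ∧ q ≤ 1 ∧ GoodAt X hX a (gapConst e) q := by
        rcases s1 with g1 | ⟨a1, b1, ha1, hab1, hb1, hr1⟩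
        · exact ⟨1, one_pos, le_rfl, g1⟩
        · refine ⟨(a1 + b1) / 2, by linarith, by linarith, ?_⟩
          have := hr1 ((a1 + b1) / 2) (by linarith) (by linarith)
          rwa [mul_one] at this
      obtain ⟨q, hq0, hq1, gq⟩ := hq
      obtain ⟨p, hp1, hp2, n, j, hj, hz⟩ := exists_dyadic_time hq0 ha2 hab2
      have gp : GoodAt X hX a (gapConst e) (-p) := by
        have := hr2 p hp1 hp2
        rwa [mul_neg_one] at this
      have hp0 : 0 < p := lt_trans ha2 hp1
      have hp3 : |(-p)| ≤ 1 := by
        rw [abs_neg, abs_of_pos hp0]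
        linarith
      have hq3 : |q| ≤ 1 := by
        rw [abs_of_pos hq0]
        exact hq1
      have := GoodAt.dyadic h ch hX hcf hp3 hq3 gp gq n j hj
      rwa [hz] at this
  -- read the bound at time zero
  have hval : ValidAt X hX a 0 0 := by
    have idimg : (fun x : F => ((x.1, x.2) : F)) '' (X : Set F) = X := by
      simp
    refine ⟨ρ, hρ, ?_, ?_⟩
    · intro w
      have hu : ((0, ρ) : F) ∈ convexHull ℝ ((fun x : F => ((x.1, x.2) : F)) '' (X : Set F)) := by
        rw [idimg]
        exact hball _ (by simp [abs_of_pos hρ])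
      have := phi_ge hX (fun x : F => x.2) hu w
      have e2 : (fun x : F => x.2 + (0 : ℝ) * a x - 0) = fun x : F => x.2 := by
        funext x
        ring
      rw [e2]
      simpa [dot2] using this
    · intro w
      have hu : ((0, -ρ) : F) ∈ convexHull ℝ ((fun x : F => ((x.1, x.2) : F)) '' (X : Set F)) := by
        rw [idimg]
        exact hball _ (by simp [abs_of_pos hρ])
      have := phi_ge_neg hX (fun x : F => x.2) hu w
      have e2 : (fun x : F => -(x.2 + (0 : ℝ) * a x - 0)) = fun x : F => -x.2 := by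
        funext x
        ring
      rw [e2]
      simpa [dot2] using this
  have hfin := hgood0 0 hval
  rw [Kt_zero] at hfin
  have e3 : Qset X (fun x => x.2 + (0 : ℝ) * a x - 0) = convexHull ℝ (N : Set F) := by
    rw [h.conv_N_eq]
    ext y
    simp [Qset, polarSet]
  rw [e3] at hfin
  exact hfin

/-- A tetrahedron is not far from a tetrahedron. -/
lemma not_far_of_card_four {X N : Finset F} (h : Pair X N) (hc : X.card = 4) {e : ℝ} (he : 0 < e) :
    ¬ Far (convexHull ℝ (X : Set F)) e := by
  classical
  intro hf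
  have hs := simplex_case h hc
  obtain ⟨x0, T, hx0T, rfl, hT⟩ := Finset.card_eq_succ.1 hc
  obtain ⟨x1, x2, x3, -, -, -, rfl⟩ := Finset.card_eq_three.1 hT
  have hcoe : ((insert x0 {x1, x2, x3} : Finset F) : Set F) = {x0, x1, x2, x3} := by
    simp
  rw [hcoe] at hs hf
  rw [volume_hull_four] at hs
  have hpos : 0 < tv x0 x1 x2 x3 := by
    by_contra hle
    have h0 : ENNReal.ofReal (tv x0 x1 x2 x3) = 0 := ENNReal.ofReal_eq_zero.2 (not_lt.1 hle)
    rw [h0, zero_mul] at hs
    have : (0 : ENNReal) < ENNReal.ofReal (64 / 9) := ENNReal.ofReal_pos.2 (by norm_num)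
    exact absurd hs (not_le.2 this)
  have hm : ∀ y ∈ ({x0, x1, x2, x3} : Set F), y ∈ convexHull ℝ ({x0, x1, x2, x3} : Set F) :=
    fun y hy => subset_convexHull ℝ _ hy
  have := hf x0 (hm _ (by simp)) x1 (hm _ (by simp)) x2 (hm _ (by simp)) x3 (hm _ (by simp))
  rw [volume_hull_four, ENNReal.toReal_ofReal hpos.le] at this
  nlinarith

/-- `Far` passes to the image under a volume preserving affine map. -/
lemma far_image {T : F → F} (hvol : ∀ s : Set F, volume (T '' s) = volume s)
    (hconv : ∀ s : Set F, T '' (convexHull ℝ s) = convexHull ℝ (T '' s)) {S : Set F} {e : ℝ}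
    (hf : Far (convexHull ℝ S) e) : Far (convexHull ℝ (T '' S)) e := by
  have htv : ∀ a b c d : F, tv (T a) (T b) (T c) (T d) = tv a b c d := by
    intro a b c d
    have e1 : volume (convexHull ℝ ({T a, T b, T c, T d} : Set F)) =
        volume (convexHull ℝ ({a, b, c, d} : Set F)) := by
      rw [← hvol (convexHull ℝ ({a, b, c, d} : Set F)), hconv]
      congr 2
      simp only [Set.image_insert_eq, Set.image_singleton]
    rw [volume_hull_four, volume_hull_four] at e1
    exact (ENNReal.ofReal_eq_ofReal_iff (tv_nonneg _ _ _ _) (tv_nonneg _ _ _ _)).1 e1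
  rw [← hconv]
  rintro _ ⟨a, ha, rfl⟩ _ ⟨b, hb, rfl⟩ _ ⟨c, hc, rfl⟩ _ ⟨d, hd, rfl⟩
  rw [htv, hvol]
  exact hf a ha b hb c hc d hd

/-- The induction (compare `pair_main_of_step`). -/
theorem pair_main_eq (lm : LMStatement) (m6 : M6Statement) {e : ℝ} (he : 0 < e)
    (he1 : e ≤ 1 / 10000000) :
    ∀ (m : ℕ) (X N : Finset F), Pair X N → X.card + N.card ≤ m →
      (Far (convexHull ℝ (X : Set F)) e ∨ Far (convexHull ℝ (N : Set F)) e) →
      gapConst e ≤ volume (convexHull ℝ (X : Set F)) * volume (convexHull ℝ (N : Set F)) := by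
  classical
  have gle : gapConst e ≤ ENNReal.ofReal (64 / 9 * (101 / 100)) := by
    apply ENNReal.ofReal_le_ofReal
    have : e / 1280 ≤ 1 / 100 := by linarith
    nlinarith
  have hee : e / 64 ≤ e := by linarith
  intro m
  induction m with
  | zero =>
    intro X N h hm _
    have := incidence_bound h
    omega
  | succ m ihm =>
    intro X N h hm hfar
    by_cases hFX : Far (convexHull ℝ (X : Set F)) (e / 64)
    swap
    · rcases hfar with hf | hf
      · exact absurd (hf.mono hee) hFX
      · exact gle.trans (m6 h e he he1 hf hFX)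
    by_cases hFN : Far (convexHull ℝ (N : Set F)) (e / 64)
    swap
    · rcases hfar with hf | hf
      · have := gle.trans (m6 h.swap e he he1 hf hFN)
        rwa [mul_comm] at this
      · exact absurd (hf.mono hee) hFN
    have IH : ∀ X' N', Pair X' N' → X'.card + N'.card < X.card + N.card →
        (Far (convexHull ℝ (X' : Set F)) e ∨ Far (convexHull ℝ (N' : Set F)) e) →
        gapConst e ≤
          volume (convexHull ℝ (X' : Set F)) * volume (convexHull ℝ (N' : Set F)) := by
      intro X' N' h' hlt hf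
      exact ihm X' N' h' (by omega) hf
    have hI := incidence_bound h
    set I := ∑ n ∈ N, (tightPts X n).card with hIdef
    by_cases hA : I + 5 ≤ X.card + 3 * N.card
    · obtain ⟨α, hα, hnt⟩ := exists_alpha h N (Finset.Subset.refl _) hA
      exact chord_step_eq lm h he he1 α (fun n hn _ => hα n hn) hnt IH hFX
    by_cases hB : I + 5 ≤ N.card + 3 * X.card
    · have hB' : ∑ x ∈ X, (tightPts N x).card + 5 ≤ N.card + 3 * X.card := by
        rw [sum_tight_swap]
        exact hB
      obtain ⟨α, hα, hnt⟩ := exists_alpha h.swap X (Finset.Subset.refl _) hB'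
      have := chord_step_eq lm h.swap he he1 α (fun n hn _ => hα n hn) hnt
        (fun X' N' h' hlt hf => IH X' N' h' (by omega) hf) hFN
      rwa [mul_comm] at this
    have hXN : X.card = N.card := by omega
    have hIval : I + 4 = 4 * X.card := by omega
    by_cases hall : ∀ n ∈ N, (tightPts X n).card = 3
    · have h3 : I = N.card * 3 := by
        rw [hIdef, Finset.sum_congr rfl hall, Finset.sum_const, smul_eq_mul]
      exact absurd hFX (not_far_of_card_four h (by omega) (by positivity))
    · push Not at hall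
      obtain ⟨n0, hn0, hn0c⟩ := hall
      have hk0 : 4 ≤ (tightPts X n0).card := by
        have := three_le_card_tight h hn0
        omega
      obtain ⟨T, hTinj, hp, hT0, hdot, hvol, hconv⟩ := exists_rotation h n0
      have hcX : (X.image T).card = X.card := Finset.card_image_of_injective _ hTinj
      have hcN : (N.image T).card = N.card := Finset.card_image_of_injective _ hTinj
      have htight : ∀ n, tightPts (X.image T) (T n) = (tightPts X n).image T := by
        intro n
        ext y
        simp only [mem_tightPts, Finset.mem_image]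
        constructor
        · rintro ⟨⟨x, hx, rfl⟩, h2⟩
          exact ⟨x, ⟨hx, by rwa [hdot] at h2⟩, rfl⟩
        · rintro ⟨x, ⟨hx1, hx2⟩, rfl⟩
          exact ⟨⟨x, hx1, rfl⟩, by rwa [hdot]⟩
      have hcard : ∀ n, (tightPts (X.image T) (T n)).card = (tightPts X n).card := by
        intro n
        rw [htight, Finset.card_image_of_injective _ hTinj]
      have hsum : ∑ n' ∈ N.image T, (tightPts (X.image T) n').card = I := by
        rw [Finset.sum_image (fun a _ b _ hab => hTinj hab)]
        exact Finset.sum_congr rfl (fun n _ => hcard n)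
      have hT0mem : T n0 ∈ N.image T := Finset.mem_image_of_mem _ hn0
      have herase := Finset.add_sum_erase (N.image T) (fun n' => (tightPts (X.image T) n').card) hT0mem
      rw [hsum, hcard] at herase
      have hcount : ∑ n' ∈ (N.image T).erase (T n0), (tightPts (X.image T) n').card + 5
          ≤ (X.image T).card + 3 * ((N.image T).erase (T n0)).card := by
        rw [Finset.card_erase_of_mem hT0mem, hcN, hcX]
        have hNpos : 0 < N.card := Finset.card_pos.2 ⟨n0, hn0⟩
        omega
      obtain ⟨α, hα, hnt⟩ := exists_alpha hp _ (Finset.erase_subset _ _) hcount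
      have hFX' : Far (convexHull ℝ ((X.image T : Finset F) : Set F)) (e / 64) := by
        rw [Finset.coe_image]
        exact far_image hvol hconv hFX
      have hmain := chord_step_eq lm hp he he1 α
        (fun n hn hn2 => hα n (Finset.mem_erase.2 ⟨fun he => hn2 (by rw [he]; exact hT0), hn⟩)) hnt
        (fun X' N' h' hlt hf => IH X' N' h' (by omega) hf) hFX'
      have hv : ∀ S : Finset F, volume (convexHull ℝ ((S.image T : Finset F) : Set F))
          = volume (convexHull ℝ (S : Set F)) := by
        intro S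
        rw [Finset.coe_image, ← hconv, hvol]
      rwa [hv, hv] at hmain

end Vale.Agent.Lib.P248
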