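import Vale.Agent.Lib.P248.Eq.LMNear
import Vale.Agent.Lib.P248.Eq.Claim

/-!
The local lemma when the origin is far from the centroid, and the assembly.
-/

open MeasureTheory Set

namespace Vale.Agent.Lib.P248

/-- A refined arithmetic-geometric mean inequality for four numbers. -/
lemma far_core {x y z u S κ : ℝ} (px : 0 < x) (py : 0 < y) (pz : 0 < z) (pu : 0 < u)
    (hs : x + y + z + u = S) (hfar : κ ≤ (4 * x - S) ^ 2) :
    256 * (x * y * z * u) ≤ S ^ 4 - 2 / 27 * κ * S ^ 2 := by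
  have h1 : 27 * (y * z * u) ≤ (y + z + u) ^ 3 := by
    nlinarith [mul_nonneg py.le (sq_nonneg (z - u)), mul_nonneg pz.le (sq_nonneg (y - u)),
      mul_nonneg pu.le (sq_nonneg (y - z)), mul_nonneg py.le (sq_nonneg (y - z)),
      mul_nonneg py.le (sq_nonneg (y - u)), mul_nonneg pz.le (sq_nonneg (z - u)),
      mul_nonneg pz.le (sq_nonneg (z - y)), mul_nonneg pu.le (sq_nonneg (u - y)),
      mul_nonneg pu.le (sq_nonneg (u - z))]
  have h2 : y + z + u = S - x := by linarith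
  rw [h2] at h1
  have h3 : 27 * (256 * (x * (y * z * u))) ≤ 256 * (x * (S - x) ^ 3) := by
    have := mul_le_mul_of_nonneg_left h1 (by positivity : 0 ≤ 256 * x)
    nlinarith
  have h4 : 27 * (256 * (x * (S - x) ^ 3) / 27) = 256 * (x * (S - x) ^ 3) := by ring
  have identity : 256 * (x * (S - x) ^ 3) =
      27 * (S ^ 4 - 2 / 27 * (4 * x - S) ^ 2 * S ^ 2) - ((4 * x - S) * (4 * x - 5 * S)) ^ 2 := by
    ring
  have h5 : 2 / 27 * κ * S ^ 2 ≤ 2 / 27 * (4 * x - S) ^ 2 * S ^ 2 := by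
    have hS : 0 ≤ S ^ 2 := by positivity
    nlinarith [mul_le_mul_of_nonneg_right hfar hS]
  have h6 := sq_nonneg ((4 * x - S) * (4 * x - 5 * S))
  have e : x * y * z * u = x * (y * z * u) := by ring
  rw [e]
  nlinarith

lemma far_numeric {x y z u g a : ℝ} (px : 0 < x) (py : 0 < y) (pz : 0 < z) (pu : 0 < u)
    (hs : x + y + z + u = 1 + 4 * g) (hfar : (1 / 125) ^ 2 ≤ (4 * x - (1 + 4 * g)) ^ 2)
    (ha0 : 0 ≤ a) (hg0 : 0 ≤ g) (hg1 : g ≤ 1 / 4000000) :
    64 / 9 * (1 + a / 10) ≤ (1 + a) * (1 + 4 * g) / (36 * (x * y * z * u)) := by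
  have hcore := far_core px py pz pu hs hfar
  set S := 1 + 4 * g with hS
  have hS1 : 1 ≤ S := by rw [hS]; linarith
  have hS2 : S ≤ 1 + 1 / 1000000 := by rw [hS]; linarith
  have hw : S ^ 4 - 2 / 27 * (1 / 125) ^ 2 * S ^ 2 ≤ S := by
    have h3 : S ^ 3 - 2 / 27 * (1 / 125) ^ 2 * S ≤ 1 := by
      have h4 : S ^ 3 ≤ (1 + 1 / 1000000) ^ 3 := pow_le_pow_left₀ (by linarith) hS2 3
      norm_num at h4 ⊢
      nlinarith
    nlinarith
  have hprod : 0 < x * y * z * u := by positivity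
  rw [le_div_iff₀ (by positivity)]
  have h5 : 256 * (x * y * z * u) ≤ S := hcore.trans hw
  have h6 : (1 + a / 10) * (256 * (x * y * z * u)) ≤ (1 + a / 10) * S :=
    mul_le_mul_of_nonneg_left h5 (by positivity)
  nlinarith

lemma far_numeric2 {x y z u g a : ℝ} (px : 0 < x) (py : 0 < y) (pz : 0 < z) (pu : 0 < u)
    (hs : x + y + z + u = 1 + 4 * g) (hfar : (1 / 2) ^ 2 ≤ (4 * x - (1 + 4 * g)) ^ 2)
    (ha0 : 0 ≤ a) (hg0 : 0 ≤ g) (hg1 : g ≤ 1 / 4000000) :
    64 / 9 * (101 / 100) ≤ (1 + a) * (1 + 4 * g) / (36 * (x * y * z * u)) := by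
  have hcore := far_core px py pz pu hs hfar
  set S := 1 + 4 * g with hS
  have hS1 : 1 ≤ S := by rw [hS]; linarith
  have hS2 : S ≤ 1 + 1 / 1000000 := by rw [hS]; linarith
  have hw : 101 / 100 * (S ^ 4 - 2 / 27 * (1 / 2) ^ 2 * S ^ 2) ≤ S := by
    have h3 : 101 / 100 * (S ^ 3 - 2 / 27 * (1 / 2) ^ 2 * S) ≤ 1 := by
      have h4 : S ^ 3 ≤ (1 + 1 / 1000000) ^ 3 := pow_le_pow_left₀ (by linarith) hS2 3
      norm_num at h4 ⊢
      nlinarith
    nlinarith
  have hprod : 0 < x * y * z * u := by positivity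
  rw [le_div_iff₀ (by positivity)]
  have h5 : 101 / 100 * (256 * (x * y * z * u)) ≤ S :=
    (mul_le_mul_of_nonneg_left hcore (by norm_num)).trans hw
  have h6 : S ≤ (1 + a) * S := by nlinarith
  nlinarith

variable {v0 v1 v2 v3 c0 c1 c2 c3 : F} {b0 b1 b2 b3 : ℝ}

/-- The bound from the enclosing simplex. -/
theorem Frame4.enclose_bound (fr : Frame4 v0 v1 v2 v3 c0 c1 c2 c3 b0 b1 b2 b3) {L : Set F}
    {g a : ℝ} (ha0 : 0 ≤ a) (hg0 : 0 ≤ g) (p0 : 0 < b0 + g) (p1 : 0 < b1 + g) (p2 : 0 < b2 + g)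
    (p3 : 0 < b3 + g)
    (m0 : ∀ x ∈ L, -g ≤ mf c0 b0 x) (m1 : ∀ x ∈ L, -g ≤ mf c1 b1 x)
    (m2 : ∀ x ∈ L, -g ≤ mf c2 b2 x) (m3 : ∀ x ∈ L, -g ≤ mf c3 b3 x)
    (hV : volume L = ENNReal.ofReal ((1 + a) * tv v0 v1 v2 v3)) :
    ENNReal.ofReal ((1 + a) * (1 + 4 * g) / (36 * ((b0 + g) * (b1 + g) * (b2 + g) * (b3 + g)))) ≤
      volume L * volume (polarSet L) := by
  obtain ⟨h0, h1, h2, h3, hv⟩ := fr.polar_enclose L p0 p1 p2 p3
    (fun x hx => by linarith [m0 x hx]) (fun x hx => by linarith [m1 x hx])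
    (fun x hx => by linarith [m2 x hx]) (fun x hx => by linarith [m3 x hx])
  have hsub := simplexSet_subset (polarSet_convex L) h0 h1 h2 h3
  have hQ := measure_mono (μ := volume) hsub
  rw [volume_simplexSet] at hQ
  have hQ2 : ENNReal.ofReal (|det3 c1 c2 c3| / 6 * (1 + 4 * g) /
      ((b0 + g) * (b1 + g) * (b2 + g) * (b3 + g))) ≤ volume (polarSet L) := by
    rw [← hv]
    exact hQ
  rw [hV]
  have hT0 := tv_nonneg v0 v1 v2 v3
  refine le_trans ?_ (mul_le_mul_right hQ2 _)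
  rw [← ENNReal.ofReal_mul (by positivity)]
  apply ENNReal.ofReal_le_ofReal
  apply le_of_eq
  have h := fr.tv_mul
  have e : (1 + a) * tv v0 v1 v2 v3 * (|det3 c1 c2 c3| / 6 * (1 + 4 * g) /
      ((b0 + g) * (b1 + g) * (b2 + g) * (b3 + g))) =
      (tv v0 v1 v2 v3 * |det3 c1 c2 c3|) * ((1 + a) * (1 + 4 * g) / 6 /
      ((b0 + g) * (b1 + g) * (b2 + g) * (b3 + g))) := by
    ring
  rw [e, h]
  field_simp
  norm_num

/-- Every point of `L` lies above the enlarged facet. -/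
theorem Frame4.low_bound (fr : Frame4 v0 v1 v2 v3 c0 c1 c2 c3 b0 b1 b2 b3) {L : Set F}
    (hL : Convex ℝ L) (hLm : MeasurableSet L) (h0 : v0 ∈ L) (h1 : v1 ∈ L) (h2 : v2 ∈ L)
    (h3 : v3 ∈ L) {a : ℝ} (ha0 : 0 ≤ a)
    (hV : volume L = ENNReal.ofReal ((1 + a) * tv v0 v1 v2 v3)) {x : F} (hx : x ∈ L) :
    -(100 / 97 * a) ≤ mf c0 b0 x := by
  by_contra hcon
  push Not at hcon
  have hpos : 0 < -mf c0 b0 x := by
    have : 0 ≤ 100 / 97 * a := by positivity
    linarith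
  have key := fr.height_le hL hLm h0 h1 h2 h3 hx hpos (by ring)
  have hT : 0 < tv v0 v1 v2 v3 := by
    unfold tv
    have := abs_pos.2 fr.det_ne
    positivity
  rw [hV, ← ENNReal.ofReal_add hT.le (by positivity), ENNReal.ofReal_le_ofReal_iff (by positivity)] at key
  have h5 : tv v0 v1 v2 v3 * (97 / 100 * -mf c0 b0 x) ≤ tv v0 v1 v2 v3 * a := by nlinarith
  have h6 := le_of_mul_le_mul_left h5 hT
  have h7 : 100 / 97 * a < -mf c0 b0 x := by linarith
  nlinarith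

/-- The origin lies strictly above the enlarged facet. -/
theorem Frame4.origin_above (fr : Frame4 v0 v1 v2 v3 c0 c1 c2 c3 b0 b1 b2 b3) {L : Set F}
    (h00 : (0 : F) ∈ interior L) {g : ℝ} (hl : ∀ x ∈ L, -g ≤ mf c0 b0 x) : 0 < b0 + g := by
  have fr3 := fr.cyc.cyc.cyc
  have hc0 : c0 ≠ 0 := by
    rintro rfl
    apply fr3.detc_ne
    simp [det3]
  have hcc : 0 < dot c0 c0 := by
    have h1 : c0.1.1 ≠ 0 ∨ c0.1.2 ≠ 0 ∨ c0.2 ≠ 0 := by
      by_contra hh
      push Not at hh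
      apply hc0
      ext <;> simp [hh.1, hh.2.1, hh.2.2]
    simp only [dot, dot2]
    rcases h1 with h1 | h1 | h1
    · have := mul_self_pos.2 h1
      nlinarith [mul_self_nonneg c0.1.2, mul_self_nonneg c0.2]
    · have := mul_self_pos.2 h1
      nlinarith [mul_self_nonneg c0.1.1, mul_self_nonneg c0.2]
    · have := mul_self_pos.2 h1
      nlinarith [mul_self_nonneg c0.1.1, mul_self_nonneg c0.1.2]
  have hc : ContinuousAt (fun ε : ℝ => (-ε) • c0) 0 := by fun_prop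
  have h1 : L ∈ nhds ((fun ε : ℝ => (-ε) • c0) 0) := by
    simpa using mem_interior_iff_mem_nhds.1 h00
  have h2 := hc.eventually_mem h1
  have h3 : ∀ᶠ ε in nhdsWithin (0 : ℝ) (Ioi 0), (-ε) • c0 ∈ L := nhdsWithin_le_nhds h2
  obtain ⟨ε, h4, h5⟩ := (h3.and self_mem_nhdsWithin).exists
  have h5' : (0 : ℝ) < ε := h5
  have h6 := hl _ h4
  simp only [mf, dot_smul_right] at h6
  nlinarith

/-- The local lemma for a tetrahedron of maximal volume. -/
theorem lm_core {L : Set F} (hLc : IsCompact L) (hL : Convex ℝ L) (h00 : (0 : F) ∈ interior L)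
    {v0 v1 v2 v3 : F} (h0 : v0 ∈ L) (h1 : v1 ∈ L) (h2 : v2 ∈ L) (h3 : v3 ∈ L)
    (hmax : ∀ a ∈ L, ∀ b ∈ L, ∀ c ∈ L, ∀ d ∈ L, tv a b c d ≤ tv v0 v1 v2 v3)
    (hT : 0 < tv v0 v1 v2 v3) {a : ℝ} (ha0 : 0 ≤ a) (ha1 : a ≤ 2 / 10000000)
    (hV : volume L = ENNReal.ofReal ((1 + a) * tv v0 v1 v2 v3)) :
    ENNReal.ofReal (64 / 9 * (1 + a / 10)) ≤ volume L * volume (polarSet L) := by
  have hD : det3 (v1 - v0) (v2 - v0) (v3 - v0) ≠ 0 := by
    intro hD
    unfold tv at hT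
    rw [hD] at hT
    simp at hT
  obtain ⟨c0, c1, c2, c3, b0, b1, b2, b3, fr⟩ := exists_frame4 hD
  have fr1 := fr.cyc
  have fr2 := fr1.cyc
  have fr3 := fr2.cyc
  have hLm := hLc.isClosed.measurableSet
  have hle := fun x hx => fr.mf_le_one h0 h1 h2 h3 hmax (x := x) hx
  have tv1 : tv v1 v2 v3 v0 = tv v0 v1 v2 v3 := tv_cyc _ _ _ _
  have tv2 : tv v2 v3 v0 v1 = tv v0 v1 v2 v3 := by rw [tv_cyc v1 v2 v3 v0, tv1]
  have tv3 : tv v3 v0 v1 v2 = tv v0 v1 v2 v3 := by rw [tv_cyc v2 v3 v0 v1, tv2]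
  set g := 100 / 97 * a with hg
  have hg0 : 0 ≤ g := by positivity
  have hg1 : g ≤ 1 / 4000000 := by
    rw [hg]
    linarith
  have hga : 97 / 100 * g ≤ a := by
    rw [hg]
    apply le_of_eq
    ring
  have l0 : ∀ x ∈ L, -g ≤ mf c0 b0 x := fun x hx => fr.low_bound hL hLm h0 h1 h2 h3 ha0 hV hx
  have l1 : ∀ x ∈ L, -g ≤ mf c1 b1 x := fun x hx =>
    fr1.low_bound hL hLm h1 h2 h3 h0 ha0 (by rw [tv1]; exact hV) hx
  have l2 : ∀ x ∈ L, -g ≤ mf c2 b2 x := fun x hx =>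
    fr2.low_bound hL hLm h2 h3 h0 h1 ha0 (by rw [tv2]; exact hV) hx
  have l3 : ∀ x ∈ L, -g ≤ mf c3 b3 x := fun x hx =>
    fr3.low_bound hL hLm h3 h0 h1 h2 ha0 (by rw [tv3]; exact hV) hx
  have p0 : 0 < b0 + g := fr.origin_above h00 l0
  have p1 : 0 < b1 + g := fr1.origin_above h00 l1
  have p2 : 0 < b2 + g := fr2.origin_above h00 l2
  have p3 : 0 < b3 + g := fr3.origin_above h00 l3
  have hfar := fr.enclose_bound (L := L) ha0 hg0 p0 p1 p2 p3 l0 l1 l2 l3 hV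
  have hsum : (b0 + g) + (b1 + g) + (b2 + g) + (b3 + g) = 1 + 4 * g := by linarith [fr.sb]
  have farcase : ∀ {x y z u : ℝ}, 0 < x → 0 < y → 0 < z → 0 < u → x + y + z + u = 1 + 4 * g →
      (1 / 125) ^ 2 ≤ (4 * x - (1 + 4 * g)) ^ 2 →
      x * y * z * u = (b0 + g) * (b1 + g) * (b2 + g) * (b3 + g) →
      ENNReal.ofReal (64 / 9 * (1 + a / 10)) ≤ volume L * volume (polarSet L) := by
    intro x y z u px py pz pu hs hf he
    refine le_trans ?_ hfar
    apply ENNReal.ofReal_le_ofReal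
    rw [← he]
    exact far_numeric px py pz pu hs hf ha0 hg0 hg1
  have hb : ∀ {b : ℝ}, ¬ (31 / 125 ≤ b ∧ b ≤ 63 / 250) → (1 / 125) ^ 2 ≤ (4 * (b + g) - (1 + 4 * g)) ^ 2 := by
    intro b hb
    have e : 4 * (b + g) - (1 + 4 * g) = 4 * b - 1 := by ring
    rw [e]
    by_cases h : 31 / 125 ≤ b
    · have h2 : 63 / 250 < b := by
        by_contra hc
        exact hb ⟨h, not_lt.1 hc⟩
      have h3 : 1 / 125 ≤ 4 * b - 1 := by linarith
      exact pow_le_pow_left₀ (by norm_num) h3 2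
    · push Not at h
      have h3 : 1 / 125 ≤ -(4 * b - 1) := by linarith
      have := pow_le_pow_left₀ (by norm_num : (0 : ℝ) ≤ 1 / 125) h3 2
      rwa [neg_sq] at this
  by_cases c0' : 31 / 125 ≤ b0 ∧ b0 ≤ 63 / 250
  swap
  · exact farcase p0 p1 p2 p3 hsum (hb c0') rfl
  by_cases c1' : 31 / 125 ≤ b1 ∧ b1 ≤ 63 / 250
  swap
  · exact farcase p1 p0 p2 p3 (by linarith) (hb c1') (by ring)
  by_cases c2' : 31 / 125 ≤ b2 ∧ b2 ≤ 63 / 250
  swap
  · exact farcase p2 p0 p1 p3 (by linarith) (hb c2') (by ring)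
  by_cases c3' : 31 / 125 ≤ b3 ∧ b3 ≤ 63 / 250
  swap
  · exact farcase p3 p0 p1 p2 (by linarith) (hb c3') (by ring)
  exact fr.lm_near hLc hL h0 h1 h2 h3 (fun x hx => (hle x hx).1) (fun x hx => (hle x hx).2.1)
    (fun x hx => (hle x hx).2.2.1) (fun x hx => (hle x hx).2.2.2) hg0 (by linarith) l0 l1 l2 l3
    c0'.1 c1'.1 c2'.1 c3'.1 c0'.2 c1'.2 c2'.2 c3'.2 ha0 (by linarith) hga hV

/-- The local lemma in the form used by the induction. -/
theorem lmStatement : LMStatement := by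
  intro X N h e1 e2 he1 he2 hF1 hF2
  classical
  set L := convexHull ℝ (X : Set F) with hLd
  have hX : X.Nonempty := by
    obtain ⟨ρ, hρ, hb⟩ := h.ball
    have h0 : (0 : F) ∈ convexHull ℝ (X : Set F) := hb 0 (by simp [hρ.le])
    by_contra hne
    rw [Finset.not_nonempty_iff_eq_empty] at hne
    simp [hne] at h0
  have hLc : IsCompact L := X.finite_toSet.isCompact_convexHull ℝ
  have hL : Convex ℝ L := convex_convexHull ℝ _
  have h00 : (0 : F) ∈ interior L := by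
    obtain ⟨ρ, hρ, hb⟩ := h.ball
    rw [mem_interior]
    refine ⟨Metric.ball 0 (ρ / 3), ?_, Metric.isOpen_ball, by simp [hρ]⟩
    intro q hq
    apply hb
    have hq' : ‖q‖ < ρ / 3 := by simpa using hq
    have h1 : |q.1.1| ≤ ‖q‖ := by
      rw [← Real.norm_eq_abs]
      exact (norm_fst_le q.1).trans (norm_fst_le q)
    have h2 : |q.1.2| ≤ ‖q‖ := by
      rw [← Real.norm_eq_abs]
      exact (norm_snd_le q.1).trans (norm_fst_le q)
    have h3 : |q.2| ≤ ‖q‖ := by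
      rw [← Real.norm_eq_abs]
      exact norm_snd_le q
    linarith
  obtain ⟨v0, m0, v1, m1, v2, m2, v3, m3, hmax⟩ := exists_max_tetra X hX
  have m0' : v0 ∈ L := subset_convexHull ℝ _ m0
  have m1' : v1 ∈ L := subset_convexHull ℝ _ m1
  have m2' : v2 ∈ L := subset_convexHull ℝ _ m2
  have m3' : v3 ∈ L := subset_convexHull ℝ _ m3
  have hVfin : volume L ≠ ⊤ := hLc.measure_lt_top.ne
  set V := (volume L).toReal with hVd
  have hVe : volume L = ENNReal.ofReal V := (ENNReal.ofReal_toReal hVfin).symm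
  set T := tv v0 v1 v2 v3 with hTd
  -- the tetrahedron is large
  have hbig : (1 - e2) * V < T := by
    unfold Far at hF2
    push Not at hF2
    obtain ⟨a, ha, b, hb, c, hc, d, hd, hlt⟩ := hF2
    exact hlt.trans_le (hmax a ha b hb c hc d hd)
  have hsmall : T ≤ (1 - e1) * V := hF1 _ m0' _ m1' _ m2' _ m3'
  have hVpos : 0 ≤ V := ENNReal.toReal_nonneg
  have hVpos' : 0 < V := by
    have hvolpos : 0 < volume L := by
      have := (isOpen_interior.measure_pos (volume : Measure F) ⟨0, h00⟩)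
      exact this.trans_le (measure_mono interior_subset)
    exact ENNReal.toReal_pos hvolpos.ne' hVfin
  have he2' : 0 < 1 - e2 := by linarith
  have hTpos : 0 < T := lt_of_le_of_lt (by positivity) hbig
  set a := V / T - 1 with ha
  have hVT : V = (1 + a) * T := by
    rw [ha]
    field_simp
    ring
  have hVa : volume L = ENNReal.ofReal ((1 + a) * T) := by rw [hVe, hVT]
  have hae1 : e1 ≤ a := by
    have h5 : T * (1 + e1) ≤ V := by
      have : (1 - e1) * (1 + e1) ≤ 1 := by nlinarith [sq_nonneg e1]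
      have h6 : (1 + e1) * T ≤ (1 + e1) * ((1 - e1) * V) :=
        mul_le_mul_of_nonneg_left hsmall (by linarith)
      nlinarith
    rw [ha, le_sub_iff_add_le, le_div_iff₀ hTpos]
    linarith
  have ha1 : a ≤ 2 / 10000000 := by
    rw [ha, sub_le_iff_le_add, div_le_iff₀ hTpos]
    have h5 : (1 - 1 / 10000000) * V ≤ (1 - e2) * V :=
      mul_le_mul_of_nonneg_right (by linarith) hVpos
    have h6 : V ≤ (2 / 10000000 + 1) * ((1 - 1 / 10000000) * V) := by
      have : (1 : ℝ) ≤ (2 / 10000000 + 1) * (1 - 1 / 10000000) := by norm_num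
      nlinarith
    have h7 : (2 / 10000000 + 1) * ((1 - 1 / 10000000) * V) ≤ (2 / 10000000 + 1) * T :=
      mul_le_mul_of_nonneg_left (h5.trans hbig.le) (by norm_num)
    linarith
  have ha0 : 0 ≤ a := he1.trans hae1
  have key := lm_core hLc hL h00 m0' m1' m2' m3' hmax hTpos ha0 ha1 hVa
  have hpol : volume (convexHull ℝ (N : Set F)) = volume (polarSet L) := by
    rw [h.conv_N_eq, hLd, polarSet_convexHull]
  rw [hpol]
  refine le_trans ?_ key
  apply ENNReal.ofReal_le_ofReal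
  have : e1 / 10 ≤ a / 10 := by linarith
  nlinarith

end Vale.Agent.Lib.P248
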