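import Vale.Agent.Lib.P248.Eq.Near

/-!
The local lemma when the origin is close to the centroid of the tetrahedron: the assembly.
-/

open MeasureTheory Set

namespace Vale.Agent.Lib.P248

lemma prod_le_of_sum {b0 b1 b2 b3 : ℝ} (p0 : 0 < b0) (p1 : 0 < b1) (p2 : 0 < b2) (p3 : 0 < b3)
    (h : b0 + b1 + b2 + b3 = 1) : b0 * b1 * b2 * b3 ≤ 1 / 256 := by
  have h1 : 4 * (b0 * b1) ≤ (b0 + b1) ^ 2 := by nlinarith [sq_nonneg (b0 - b1)]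
  have h2 : 4 * (b2 * b3) ≤ (b2 + b3) ^ 2 := by nlinarith [sq_nonneg (b2 - b3)]
  have h3 : 4 * ((b0 + b1) * (b2 + b3)) ≤ 1 := by
    have : b2 + b3 = 1 - (b0 + b1) := by linarith
    rw [this]
    nlinarith [sq_nonneg (2 * (b0 + b1) - 1)]
  have h4 : 0 < (b0 + b1) * (b2 + b3) := by positivity
  have h5 : 16 * (b0 * b1 * (b2 * b3)) ≤ ((b0 + b1) * (b2 + b3)) ^ 2 := by
    have := mul_le_mul h1 h2 (by positivity) (by positivity)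
    nlinarith
  have h6 : ((b0 + b1) * (b2 + b3)) ^ 2 ≤ (1 / 4) ^ 2 :=
    pow_le_pow_left₀ h4.le (by linarith) 2
  nlinarith

variable {v0 v1 v2 v3 c0 c1 c2 c3 : F} {b0 b1 b2 b3 : ℝ}

/-- The final numerical step of the near case. -/
lemma near_final {V Q : ENNReal} {t s a l : ℝ} (hT : 0 < t) (hs : 0 < s) (ha0 : 0 ≤ a)
    (ha1 : a ≤ 1 / 1000) (hl : l ≤ 81 / 100 * a) (hts : 64 / 9 ≤ t * s)
    (hV : V = ENNReal.ofReal ((1 + a) * t))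
    (hQ : ENNReal.ofReal s ≤ Q + ENNReal.ofReal (s * l)) (_h0 : 0 ≤ l) :
    ENNReal.ofReal (64 / 9 * (1 + a / 10)) ≤ V * Q := by
  have hl1 : 0 ≤ 1 - l := by linarith
  have hQ' : ENNReal.ofReal (s * (1 - l)) ≤ Q := by
    have e : s * (1 - l) = s - s * l := by ring
    rw [e, ENNReal.ofReal_sub _ (by positivity)]
    exact tsub_le_iff_right.2 hQ
  rw [hV]
  refine le_trans ?_ (mul_le_mul_right hQ' _)
  rw [← ENNReal.ofReal_mul (by positivity)]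
  apply ENNReal.ofReal_le_ofReal
  have h1 : (1 + a) * (1 - 81 / 100 * a) ≤ (1 + a) * (1 - l) :=
    mul_le_mul_of_nonneg_left (by linarith) (by linarith)
  have h2 : 1 + a / 10 ≤ (1 + a) * (1 - 81 / 100 * a) := by nlinarith
  have h3 : 64 / 9 * ((1 + a) * (1 - l)) ≤ (t * s) * ((1 + a) * (1 - l)) :=
    mul_le_mul_of_nonneg_right hts (by positivity)
  calc 64 / 9 * (1 + a / 10) ≤ 64 / 9 * ((1 + a) * (1 - l)) := by nlinarith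
    _ ≤ (t * s) * ((1 + a) * (1 - l)) := h3
    _ = (1 + a) * t * (s * (1 - l)) := by ring

/-- The bound for the heights from the volumes of the caps. -/
lemma height_sum {T a H0 H1 H2 H3 : ℝ} (hT : 0 < T) (h0 : 0 ≤ H0) (h1 : 0 ≤ H1) (h2 : 0 ≤ H2)
    (h3 : 0 ≤ H3) {C0 C1 C2 C3 V : ENNReal}
    (hc0 : ENNReal.ofReal (99 / 100 * T * H0) ≤ C0) (hc1 : ENNReal.ofReal (99 / 100 * T * H1) ≤ C1)
    (hc2 : ENNReal.ofReal (99 / 100 * T * H2) ≤ C2) (hc3 : ENNReal.ofReal (99 / 100 * T * H3) ≤ C3)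
    (hsum : ENNReal.ofReal T + C0 + C1 + C2 + C3 ≤ V) (hV : V = ENNReal.ofReal ((1 + a) * T))
    (ha : 0 ≤ a) :
    99 / 100 * (H0 + H1 + H2 + H3) ≤ a := by
  have key : ENNReal.ofReal T + ENNReal.ofReal (99 / 100 * T * H0) +
      ENNReal.ofReal (99 / 100 * T * H1) + ENNReal.ofReal (99 / 100 * T * H2) +
      ENNReal.ofReal (99 / 100 * T * H3) ≤ ENNReal.ofReal ((1 + a) * T) := by
    rw [← hV]
    refine le_trans ?_ hsum
    gcongr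
  rw [← ENNReal.ofReal_add (by positivity) (by positivity),
    ← ENNReal.ofReal_add (by positivity) (by positivity),
    ← ENNReal.ofReal_add (by positivity) (by positivity),
    ← ENNReal.ofReal_add (by positivity) (by positivity),
    ENNReal.ofReal_le_ofReal_iff (by positivity)] at key
  have h5 : T * (99 / 100 * (H0 + H1 + H2 + H3)) ≤ T * a := by nlinarith
  exact le_of_mul_le_mul_left h5 hT


lemma aux_mG {g m b : ℝ} (hb : 0 < b) (hm : -g ≤ m) : -m ≤ b * (g / b) := by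
  have : b * (g / b) = g := by field_simp
  rw [this]
  linarith

lemma aux_GE {g E k b : ℝ} (hb : 0 < b) (h6 : k ≤ g) (h5 : 0 ≤ k) (h7 : E ≤ 199 / 200 * k / b) :
    E ≤ g / b := by
  refine h7.trans ?_
  apply div_le_div_of_nonneg_right _ hb.le
  linarith

lemma aux_one_le {b : ℝ} (hb : 31 / 125 ≤ b) : 1 ≤ 125 / 31 * b := by
  have := mul_le_mul_of_nonneg_left hb (by norm_num : (0 : ℝ) ≤ 125 / 31)
  norm_num at this ⊢
  linarith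

lemma aux_Gu {g b : ℝ} (hg : 0 ≤ g) (hb : 31 / 125 ≤ b) : g / b ≤ 125 / 31 * g := by
  have hb0 : 0 < b := by linarith
  rw [div_le_iff₀ hb0]
  have : 125 / 31 * g * b = g * (125 / 31 * b) := by ring
  rw [this]
  have h5 := aux_one_le hb
  exact le_mul_of_one_le_right hg h5

lemma aux_Eu {E k b : ℝ} (hb : 31 / 125 ≤ b) (hk : 0 ≤ k) (h7 : E ≤ 199 / 200 * k / b) :
    E ≤ 199 / 200 * (125 / 31) * k := by
  have hb0 : 0 < b := by linarith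
  refine h7.trans ?_
  rw [div_le_iff₀ hb0]
  have h5 := aux_one_le hb
  have h6 : 0 ≤ 199 / 200 * k := by positivity
  have := le_mul_of_one_le_right h6 h5
  calc 199 / 200 * k ≤ 199 / 200 * k * (125 / 31 * b) := this
    _ = 199 / 200 * (125 / 31) * k * b := by ring

lemma aux_E {a k01 k02 k03 k12 k13 k10 k23 k20 k21 k30 k31 k32 E01 E02 E03 E12 E13 E10 E23 E20 E21 E30 E31 E32 : ℝ}
    (hH : 99 / 100 * (k10 + k20 + k30 + (k21 + k31 + k01) + (k32 + k02 + k12) + (k03 + k13 + k23)) ≤ a)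
    (a01 : E01 ≤ 199 / 200 * (125 / 31) * k01) (a02 : E02 ≤ 199 / 200 * (125 / 31) * k02)
    (a03 : E03 ≤ 199 / 200 * (125 / 31) * k03) (a12 : E12 ≤ 199 / 200 * (125 / 31) * k12)
    (a13 : E13 ≤ 199 / 200 * (125 / 31) * k13) (a10 : E10 ≤ 199 / 200 * (125 / 31) * k10)
    (a23 : E23 ≤ 199 / 200 * (125 / 31) * k23) (a20 : E20 ≤ 199 / 200 * (125 / 31) * k20)
    (a21 : E21 ≤ 199 / 200 * (125 / 31) * k21) (a30 : E30 ≤ 199 / 200 * (125 / 31) * k30)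
    (a31 : E31 ≤ 199 / 200 * (125 / 31) * k31) (a32 : E32 ≤ 199 / 200 * (125 / 31) * k32) :
    99 / 100 * (E01 + E02 + E03 + E12 + E13 + E10 + E23 + E20 + E21 + E30 + E31 + E32) ≤
      199 / 200 * (125 / 31) * a := by
  linarith

lemma aux_loss_nonneg {b0 b1 b2 b3 G0 G1 G2 G3 E01 E02 E03 E12 E13 E10 E23 E20 E21 E30 E31 E32 : ℝ}
    (p0 : 0 < b0) (p1 : 0 < b1) (p2 : 0 < b2) (p3 : 0 < b3)
    (q0 : 0 < 1 - b0) (q1 : 0 < 1 - b1) (q2 : 0 < 1 - b2) (q3 : 0 < 1 - b3)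
    (G0' : 0 ≤ G0) (G1' : 0 ≤ G1) (G2' : 0 ≤ G2) (G3' : 0 ≤ G3)
    (e01 : 0 ≤ E01) (e02 : 0 ≤ E02) (e03 : 0 ≤ E03) (e12 : 0 ≤ E12) (e13 : 0 ≤ E13) (e10 : 0 ≤ E10)
    (e23 : 0 ≤ E23) (e20 : 0 ≤ E20) (e21 : 0 ≤ E21) (e30 : 0 ≤ E30) (e31 : 0 ≤ E31) (e32 : 0 ≤ E32) :
    0 ≤ lossTotal b0 b1 b2 b3 (1 / 200) G0 G1 G2 G3 E01 E02 E03 E12 E13 E10 E23 E20 E21 E30 E31 E32 := by
  unfold lossTotal
  have w0 : (0 : ℝ) ≤ 1 / 200 := by norm_num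
  have w1 : (1 / 200 : ℝ) ≤ 1 := by norm_num
  have L1 := Lf_nonneg w0 w1 G1' G2' e01 e02
  have L2 := Lf_nonneg w0 w1 G2' G3' e02 e03
  have L3 := Lf_nonneg w0 w1 G3' G1' e03 e01
  have L4 := Lf_nonneg w0 w1 G2' G3' e12 e13
  have L5 := Lf_nonneg w0 w1 G3' G0' e13 e10
  have L6 := Lf_nonneg w0 w1 G0' G2' e10 e12
  have L7 := Lf_nonneg w0 w1 G3' G0' e23 e20
  have L8 := Lf_nonneg w0 w1 G0' G1' e20 e21
  have L9 := Lf_nonneg w0 w1 G1' G3' e21 e23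
  have L10 := Lf_nonneg w0 w1 G0' G1' e30 e31
  have L11 := Lf_nonneg w0 w1 G1' G2' e31 e32
  have L12 := Lf_nonneg w0 w1 G2' G0' e32 e30
  positivity

lemma aux_hts {T d b0 b1 b2 b3 : ℝ} (p0 : 0 < b0) (p1 : 0 < b1) (p2 : 0 < b2) (p3 : 0 < b3)
    (hprod : b0 * b1 * b2 * b3 ≤ 1 / 256) (h : T * d = 1 / 6) :
    64 / 9 ≤ T * (d / 6 / (b0 * b1 * b2 * b3)) := by
  have e : T * (d / 6 / (b0 * b1 * b2 * b3)) = (T * d) / 6 / (b0 * b1 * b2 * b3) := by ring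
  rw [e, h, le_div_iff₀ (by positivity)]
  linarith

/-- The local lemma near the centroid. -/
theorem Frame4.lm_near (fr : Frame4 v0 v1 v2 v3 c0 c1 c2 c3 b0 b1 b2 b3) {L : Set F}
    (hLc : IsCompact L) (hL : Convex ℝ L) (h0 : v0 ∈ L) (h1 : v1 ∈ L) (h2 : v2 ∈ L) (h3 : v3 ∈ L)
    (hle0 : ∀ x ∈ L, mf c0 b0 x ≤ 1) (hle1 : ∀ x ∈ L, mf c1 b1 x ≤ 1)
    (hle2 : ∀ x ∈ L, mf c2 b2 x ≤ 1) (hle3 : ∀ x ∈ L, mf c3 b3 x ≤ 1)
    {g : ℝ} (hg0 : 0 ≤ g) (hg1 : g ≤ 1 / 2000000)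
    (hl0 : ∀ x ∈ L, -g ≤ mf c0 b0 x) (hl1 : ∀ x ∈ L, -g ≤ mf c1 b1 x)
    (hl2 : ∀ x ∈ L, -g ≤ mf c2 b2 x) (hl3 : ∀ x ∈ L, -g ≤ mf c3 b3 x)
    (n0 : 31 / 125 ≤ b0) (n1 : 31 / 125 ≤ b1) (n2 : 31 / 125 ≤ b2) (n3 : 31 / 125 ≤ b3)
    (u0 : b0 ≤ 63 / 250) (u1 : b1 ≤ 63 / 250) (u2 : b2 ≤ 63 / 250) (u3 : b3 ≤ 63 / 250)
    {a : ℝ} (ha0 : 0 ≤ a) (ha1 : a ≤ 1 / 1000) (hga : 97 / 100 * g ≤ a)
    (hV : volume L = ENNReal.ofReal ((1 + a) * tv v0 v1 v2 v3)) :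
    ENNReal.ofReal (64 / 9 * (1 + a / 10)) ≤ volume L * volume (polarSet L) := by
  have fr1 := fr.cyc
  have fr2 := fr1.cyc
  have fr3 := fr2.cyc
  have p0 : 0 < b0 := by linarith
  have p1 : 0 < b1 := by linarith
  have p2 : 0 < b2 := by linarith
  have p3 : 0 < b3 := by linarith
  have hTpos : 0 < tv v0 v1 v2 v3 := by
    unfold tv
    have := abs_pos.2 fr.det_ne
    positivity
  obtain ⟨E10, E20, E30, k10, k20, k30, e10, e20, e30, q10, q20, q30, r10, r20, r30,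
    l10, l20, l30, m10, m20, m30, C0⟩ :=
    fr.facet_cap hLc hL h0 h1 h2 h3 hle0 hle1 hle2 hle3 hg0 hg1 hl0 hl1 hl2 hl3 n0 n1 n2 n3 u0 u1 u2 u3
  obtain ⟨E21, E31, E01, k21, k31, k01, e21, e31, e01, q21, q31, q01, r21, r31, r01,
    l21, l31, l01, m21, m31, m01, C1⟩ :=
    fr1.facet_cap hLc hL h1 h2 h3 h0 hle1 hle2 hle3 hle0 hg0 hg1 hl1 hl2 hl3 hl0 n1 n2 n3 n0 u1 u2 u3 u0
  obtain ⟨E32, E02, E12, k32, k02, k12, e32, e02, e12, q32, q02, q12, r32, r02, r12,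
    l32, l02, l12, m32, m02, m12, C2⟩ :=
    fr2.facet_cap hLc hL h2 h3 h0 h1 hle2 hle3 hle0 hle1 hg0 hg1 hl2 hl3 hl0 hl1 n2 n3 n0 n1 u2 u3 u0 u1
  obtain ⟨E03, E13, E23, k03, k13, k23, e03, e13, e23, q03, q13, q23, r03, r13, r23,
    l03, l13, l23, m03, m13, m23, C3⟩ :=
    fr3.facet_cap hLc hL h3 h0 h1 h2 hle3 hle0 hle1 hle2 hg0 hg1 hl3 hl0 hl1 hl2 n3 n0 n1 n2 u3 u0 u1 u2
  have tv1 : tv v1 v2 v3 v0 = tv v0 v1 v2 v3 := tv_cyc _ _ _ _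
  have tv2 : tv v2 v3 v0 v1 = tv v0 v1 v2 v3 := by rw [tv_cyc v1 v2 v3 v0, tv1]
  have tv3 : tv v3 v0 v1 v2 = tv v0 v1 v2 v3 := by rw [tv_cyc v2 v3 v0 v1, tv2]
  rw [tv1] at C1
  rw [tv2] at C2
  rw [tv3] at C3
  have hsum := fr.volume_caps hL hLc.isClosed.measurableSet h0 h1 h2 h3
  have hH := height_sum hTpos (by positivity) (by positivity) (by positivity) (by positivity)
    C0 C1 C2 C3 hsum hV ha0
  -- the numbers `G`
  have G0 : 0 ≤ g / b0 := by positivity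
  have G1 : 0 ≤ g / b1 := by positivity
  have G2 : 0 ≤ g / b2 := by positivity
  have G3 : 0 ≤ g / b3 := by positivity
  have key := fr.polar_near p0 p1 p2 p3 L (w := 1 / 200) (G0 := g / b0) (G1 := g / b1) (G2 := g / b2)
    (G3 := g / b3) (E01 := E01) (E02 := E02) (E03 := E03) (E12 := E12) (E13 := E13) (E10 := E10)
    (E23 := E23) (E20 := E20) (E21 := E21) (E30 := E30) (E31 := E31) (E32 := E32)
    (by norm_num) (by norm_num) G0 G1 G2 G3 e01 e02 e03 e12 e13 e10 e23 e20 e21 e30 e31 e32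
    (fun x hx => aux_mG p0 (hl0 x hx)) (fun x hx => aux_mG p1 (hl1 x hx))
    (fun x hx => aux_mG p2 (hl2 x hx)) (fun x hx => aux_mG p3 (hl3 x hx))
    m01 m02 m03 m12 m13 m10 m23 m20 m21 m30 m31 m32 hle0 hle1 hle2 hle3
  have hE := aux_E hH (aux_Eu n1 q01 l01) (aux_Eu n2 q02 l02) (aux_Eu n3 q03 l03)
    (aux_Eu n2 q12 l12) (aux_Eu n3 q13 l13) (aux_Eu n0 q10 l10) (aux_Eu n3 q23 l23)
    (aux_Eu n0 q20 l20) (aux_Eu n1 q21 l21) (aux_Eu n0 q30 l30) (aux_Eu n1 q31 l31)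
    (aux_Eu n2 q32 l32)
  have hloss := loss_bound n0 n1 n2 n3 u0 u1 u2 u3 G0 G1 G2 G3 e01 e02 e03 e12 e13 e10 e23 e20 e21
    e30 e31 e32 (aux_GE p1 r01 q01 l01) (aux_GE p2 r02 q02 l02) (aux_GE p3 r03 q03 l03)
    (aux_GE p2 r12 q12 l12) (aux_GE p3 r13 q13 l13) (aux_GE p0 r10 q10 l10) (aux_GE p3 r23 q23 l23)
    (aux_GE p0 r20 q20 l20) (aux_GE p1 r21 q21 l21) (aux_GE p0 r30 q30 l30) (aux_GE p1 r31 q31 l31)
    (aux_GE p2 r32 q32 l32) (aux_Gu hg0 n0) (aux_Gu hg0 n1) (aux_Gu hg0 n2) (aux_Gu hg0 n3) hga hE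
  have hdet : 0 < |det3 c1 c2 c3| := abs_pos.2 fr.detc_ne
  have hts := aux_hts p0 p1 p2 p3 (prod_le_of_sum p0 p1 p2 p3 fr.sb) fr.tv_mul
  have hl0' := aux_loss_nonneg p0 p1 p2 p3 (by linarith) (by linarith) (by linarith) (by linarith)
    G0 G1 G2 G3 e01 e02 e03 e12 e13 e10 e23 e20 e21 e30 e31 e32
  exact near_final hTpos (by positivity) ha0 ha1 hloss hts hV key hl0'

end Vale.Agent.Lib.P248
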