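import Vale.Agent.Lib.P248.Eq.LMFar

/-!
Comparison of the two sides of a polar pair.
-/

open MeasureTheory Set

namespace Vale.Agent.Lib.P248

variable {v0 v1 v2 v3 c0 c1 c2 c3 : F} {b0 b1 b2 b3 : ℝ}

lemma dot_vec_zero_of (fr : Frame4 v0 v1 v2 v3 c0 c1 c2 c3 b0 b1 b2 b3) {u : F}
    (h0 : dot u v0 = 0) (h1 : dot u v1 = 0) (h2 : dot u v2 = 0) (h3 : dot u v3 = 0) : u = 0 := by
  have hne := fr.detc_ne
  have e := expand_of_dual (a1 := v1 - v0) (a2 := v2 - v0) (a3 := v3 - v0) (u1 := c1) (u2 := c2)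
    (u3 := c3) hne
    (by rw [dot_sub_left, dot_comm v1, dot_comm v0]; linarith [fr.d01, fr.d11])
    (by rw [dot_sub_left, dot_comm v1, dot_comm v0]; linarith [fr.d12, fr.d02])
    (by rw [dot_sub_left, dot_comm v1, dot_comm v0]; linarith [fr.d13, fr.d03])
    (by rw [dot_sub_left, dot_comm v2, dot_comm v0]; linarith [fr.d21, fr.d01])
    (by rw [dot_sub_left, dot_comm v2, dot_comm v0]; linarith [fr.d22, fr.d02])
    (by rw [dot_sub_left, dot_comm v2, dot_comm v0]; linarith [fr.d23, fr.d03])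
    (by rw [dot_sub_left, dot_comm v3, dot_comm v0]; linarith [fr.d31, fr.d01])
    (by rw [dot_sub_left, dot_comm v3, dot_comm v0]; linarith [fr.d32, fr.d02])
    (by rw [dot_sub_left, dot_comm v3, dot_comm v0]; linarith [fr.d33, fr.d03]) u
  rw [e]
  simp only [dot_sub_left, dot_comm v1, dot_comm v2, dot_comm v3, dot_comm v0, h0, h1, h2, h3]
  simp

/-- The polar of a set containing the tetrahedron lies in the polar simplex. -/
theorem Frame4.polar_sub_top (fr : Frame4 v0 v1 v2 v3 c0 c1 c2 c3 b0 b1 b2 b3)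
    (p0 : 0 < b0) (p1 : 0 < b1) (p2 : 0 < b2) (p3 : 0 < b3) {L : Set F}
    (h0 : v0 ∈ L) (h1 : v1 ∈ L) (h2 : v2 ∈ L) (h3 : v3 ∈ L) :
    polarSet L ⊆ simplexSet (nv c0 b0) (nv c1 b1 - nv c0 b0) (nv c2 b2 - nv c0 b0)
      (nv c3 b3 - nv c0 b0) := by
  intro y hy
  have s0 : 0 ≤ 1 - dot y v0 := by linarith [hy v0 h0]
  have s1 : 0 ≤ 1 - dot y v1 := by linarith [hy v1 h1]
  have s2 : 0 ≤ 1 - dot y v2 := by linarith [hy v2 h2]
  have s3 : 0 ≤ 1 - dot y v3 := by linarith [hy v3 h3]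
  have hbv : b0 * dot y v0 + b1 * dot y v1 + b2 * dot y v2 + b3 * dot y v3 = 0 := by
    have := fr.sum_bv
    have h5 : dot y (b0 • v0 + b1 • v1 + b2 • v2 + b3 • v3) = 0 := by rw [this]; simp
    simpa only [dot_add_right, dot_smul_right] using h5
  have hsb : b0 * (1 - dot y v0) + b1 * (1 - dot y v1) + b2 * (1 - dot y v2) + b3 * (1 - dot y v3) = 1 := by
    linarith [fr.sb]
  set s₀ := 1 - dot y v0 with hs0
  set s₁ := 1 - dot y v1 with hs1
  set s₂ := 1 - dot y v2 with hs2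
  set s₃ := 1 - dot y v3 with hs3
  have hu : y + (s₀ • c0 + s₁ • c1 + s₂ • c2 + s₃ • c3) = 0 := by
    apply dot_vec_zero_of fr
    · simp only [dot_add_left, dot_smul_left]
      have d0 := fr.d00
      have d1 := fr.d01
      have d2 := fr.d02
      have d3 := fr.d03
      have e0 : dot c0 v0 = 1 - b0 := by linarith
      have e1 : dot c1 v0 = -b1 := by linarith
      have e2 : dot c2 v0 = -b2 := by linarith
      have e3 : dot c3 v0 = -b3 := by linarith
      rw [e0, e1, e2, e3]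
      have : dot y v0 = 1 - s₀ := by rw [hs0]; ring
      rw [this]
      linear_combination -hsb
    · simp only [dot_add_left, dot_smul_left]
      have d0 := fr.d10
      have d1 := fr.d11
      have d2 := fr.d12
      have d3 := fr.d13
      have e0 : dot c0 v1 = -b0 := by linarith
      have e1 : dot c1 v1 = 1 - b1 := by linarith
      have e2 : dot c2 v1 = -b2 := by linarith
      have e3 : dot c3 v1 = -b3 := by linarith
      rw [e0, e1, e2, e3]
      have : dot y v1 = 1 - s₁ := by rw [hs1]; ring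
      rw [this]
      linear_combination -hsb
    · simp only [dot_add_left, dot_smul_left]
      have d0 := fr.d20
      have d1 := fr.d21
      have d2 := fr.d22
      have d3 := fr.d23
      have e0 : dot c0 v2 = -b0 := by linarith
      have e1 : dot c1 v2 = -b1 := by linarith
      have e2 : dot c2 v2 = 1 - b2 := by linarith
      have e3 : dot c3 v2 = -b3 := by linarith
      rw [e0, e1, e2, e3]
      have : dot y v2 = 1 - s₂ := by rw [hs2]; ring
      rw [this]
      linear_combination -hsb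
    · simp only [dot_add_left, dot_smul_left]
      have d0 := fr.d30
      have d1 := fr.d31
      have d2 := fr.d32
      have d3 := fr.d33
      have e0 : dot c0 v3 = -b0 := by linarith
      have e1 : dot c1 v3 = -b1 := by linarith
      have e2 : dot c2 v3 = -b2 := by linarith
      have e3 : dot c3 v3 = 1 - b3 := by linarith
      rw [e0, e1, e2, e3]
      have : dot y v3 = 1 - s₃ := by rw [hs3]; ring
      rw [this]
      linear_combination -hsb
  have hy' : y = -(s₀ • c0 + s₁ • c1 + s₂ • c2 + s₃ • c3) := eq_neg_of_add_eq_zero_left hu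
  rw [mem_simplexSet]
  refine ⟨b1 * s₁, b2 * s₂, b3 * s₃, by positivity, by positivity, by positivity, ?_, ?_⟩
  · have : 0 ≤ b0 * s₀ := by positivity
    linarith
  · have hb0 : b0 * s₀ = 1 - b1 * s₁ - b2 * s₂ - b3 * s₃ := by linarith
    have ee : nv c0 b0 + (b1 * s₁) • (nv c1 b1 - nv c0 b0) + (b2 * s₂) • (nv c2 b2 - nv c0 b0) +
        (b3 * s₃) • (nv c3 b3 - nv c0 b0) =
        (b0 * s₀) • nv c0 b0 + (b1 * s₁) • nv c1 b1 + (b2 * s₂) • nv c2 b2 + (b3 * s₃) • nv c3 b3 := by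
      rw [hb0]
      ext <;> simp <;> ring
    rw [ee, hy']
    have n0 : (b0 * s₀) • nv c0 b0 = -(s₀ • c0) := by
      simp only [nv, smul_smul]
      rw [show b0 * s₀ * -b0⁻¹ = -s₀ by field_simp, neg_smul]
    have n1 : (b1 * s₁) • nv c1 b1 = -(s₁ • c1) := by
      simp only [nv, smul_smul]
      rw [show b1 * s₁ * -b1⁻¹ = -s₁ by field_simp, neg_smul]
    have n2 : (b2 * s₂) • nv c2 b2 = -(s₂ • c2) := by
      simp only [nv, smul_smul]
      rw [show b2 * s₂ * -b2⁻¹ = -s₂ by field_simp, neg_smul]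
    have n3 : (b3 * s₃) • nv c3 b3 = -(s₃ • c3) := by
      simp only [nv, smul_smul]
      rw [show b3 * s₃ * -b3⁻¹ = -s₃ by field_simp, neg_smul]
    rw [n0, n1, n2, n3]
    abel

/-- A comparison of products. -/
lemma prod_compare {b0 b1 b2 b3 g : ℝ} (n0 : 1 / 8 ≤ b0) (n1 : 1 / 8 ≤ b1) (n2 : 1 / 8 ≤ b2)
    (n3 : 1 / 8 ≤ b3) (hg0 : 0 ≤ g) (hg1 : g ≤ 1 / 1000) :
    (1 - 32 * g) * ((b0 + g) * (b1 + g) * (b2 + g) * (b3 + g)) ≤
      (1 + 4 * g) * (b0 * b1 * b2 * b3) := by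
  have key : ∀ {b : ℝ}, 1 / 8 ≤ b → b + g ≤ b * (1 + 8 * g) := by
    intro b hb
    nlinarith
  have p0 : 0 < b0 := by linarith
  have p1 : 0 < b1 := by linarith
  have p2 : 0 < b2 := by linarith
  have p3 : 0 < b3 := by linarith
  have h0 := key n0
  have h1 := key n1
  have h2 := key n2
  have h3 := key n3
  have hprod : (b0 + g) * (b1 + g) * (b2 + g) * (b3 + g) ≤
      (b0 * (1 + 8 * g)) * (b1 * (1 + 8 * g)) * (b2 * (1 + 8 * g)) * (b3 * (1 + 8 * g)) := by
    have q0 : 0 ≤ b0 + g := by positivity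
    have q1 : 0 ≤ b1 + g := by positivity
    have q2 : 0 ≤ b2 + g := by positivity
    have q3 : 0 ≤ b3 + g := by positivity
    have r0 : 0 ≤ b0 * (1 + 8 * g) := by positivity
    have r1 : 0 ≤ b1 * (1 + 8 * g) := by positivity
    have r2 : 0 ≤ b2 * (1 + 8 * g) := by positivity
    exact mul_le_mul (mul_le_mul (mul_le_mul h0 h1 q1 r0) h2 q2 (mul_nonneg r0 r1)) h3 q3
      (mul_nonneg (mul_nonneg r0 r1) r2)
  have hpos : 0 ≤ 1 - 32 * g := by linarith
  have hx : (1 - 32 * g) * (1 + 8 * g) ^ 4 ≤ 1 := by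
    have e : (1 - 32 * g) * (1 + 8 * g) ^ 4 = 1 - (640 * g ^ 2 + 10240 * g ^ 3 + 61440 * g ^ 4 +
      131072 * g ^ 5) := by ring
    rw [e]
    have : 0 ≤ 640 * g ^ 2 + 10240 * g ^ 3 + 61440 * g ^ 4 + 131072 * g ^ 5 := by positivity
    linarith
  have hA : 0 < b0 * b1 * b2 * b3 := by positivity
  calc (1 - 32 * g) * ((b0 + g) * (b1 + g) * (b2 + g) * (b3 + g))
      ≤ (1 - 32 * g) * ((b0 * (1 + 8 * g)) * (b1 * (1 + 8 * g)) * (b2 * (1 + 8 * g)) *
          (b3 * (1 + 8 * g))) := mul_le_mul_of_nonneg_left hprod hpos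
    _ = ((1 - 32 * g) * (1 + 8 * g) ^ 4) * (b0 * b1 * b2 * b3) := by ring
    _ ≤ 1 * (b0 * b1 * b2 * b3) := mul_le_mul_of_nonneg_right hx hA.le
    _ ≤ (1 + 4 * g) * (b0 * b1 * b2 * b3) := mul_le_mul_of_nonneg_right (by linarith) hA.le

/-- If the polar is `Far` then the enlargement is not small. -/
theorem Frame4.far_polar_core (fr : Frame4 v0 v1 v2 v3 c0 c1 c2 c3 b0 b1 b2 b3) {L : Set F}
    (h0 : v0 ∈ L) (h1 : v1 ∈ L) (h2 : v2 ∈ L) (h3 : v3 ∈ L)
    {g e : ℝ} (hg0 : 0 ≤ g) (hg1 : g ≤ 1 / 1000)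
    (n0 : 1 / 8 ≤ b0) (n1 : 1 / 8 ≤ b1) (n2 : 1 / 8 ≤ b2) (n3 : 1 / 8 ≤ b3)
    (m0 : ∀ x ∈ L, -g ≤ mf c0 b0 x) (m1 : ∀ x ∈ L, -g ≤ mf c1 b1 x)
    (m2 : ∀ x ∈ L, -g ≤ mf c2 b2 x) (m3 : ∀ x ∈ L, -g ≤ mf c3 b3 x)
    (hfar : Far (polarSet L) e) : e ≤ 32 * g := by
  have p0 : 0 < b0 := by linarith
  have p1 : 0 < b1 := by linarith
  have p2 : 0 < b2 := by linarith
  have p3 : 0 < b3 := by linarith
  obtain ⟨q0, q1, q2, q3, hv⟩ := fr.polar_enclose L (g := g) (by positivity) (by positivity)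
    (by positivity) (by positivity) (fun x hx => by linarith [m0 x hx])
    (fun x hx => by linarith [m1 x hx]) (fun x hx => by linarith [m2 x hx])
    (fun x hx => by linarith [m3 x hx])
  have h5 := hfar _ q0 _ q1 _ q2 _ q3
  rw [hv] at h5
  have hsub := fr.polar_sub_top p0 p1 p2 p3 h0 h1 h2 h3
  have hvol := measure_mono (μ := volume) hsub
  rw [fr.volume_top p0 p1 p2 p3] at hvol
  set A := b0 * b1 * b2 * b3 with hA
  set B := (b0 + g) * (b1 + g) * (b2 + g) * (b3 + g) with hB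
  set d := |det3 c1 c2 c3| with hd
  have dpos : 0 < d := abs_pos.2 fr.detc_ne
  have Apos : 0 < A := by positivity
  have Bpos : 0 < B := by positivity
  have hle : (volume (polarSet L)).toReal ≤ d / 6 / A := by
    have := ENNReal.toReal_mono ENNReal.ofReal_ne_top hvol
    rwa [ENNReal.toReal_ofReal (by positivity)] at this
  by_contra hcon
  push Not at hcon
  have he1 : 1 - e < 1 - 32 * g := by linarith
  have hcomp := prod_compare n0 n1 n2 n3 hg0 hg1
  rw [← hA, ← hB] at hcomp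
  have hstrict : (1 - e) * (d / 6 / A) < d / 6 * (1 + 4 * g) / B := by
    have h6 : (1 - 32 * g) / A ≤ (1 + 4 * g) / B := by
      rw [div_le_div_iff₀ Apos Bpos]
      linarith
    have h7 : (1 - e) / A < (1 - 32 * g) / A := div_lt_div_of_pos_right he1 Apos
    have e1 : (1 - e) * (d / 6 / A) = d / 6 * ((1 - e) / A) := by ring
    have e2 : d / 6 * (1 + 4 * g) / B = d / 6 * ((1 + 4 * g) / B) := by ring
    rw [e1, e2]
    exact mul_lt_mul_of_pos_left (lt_of_lt_of_le h7 h6) (by positivity)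
  have h8 : (1 - e) * (volume (polarSet L)).toReal ≤ (1 - e) * (d / 6 / A) := by
    by_cases he : 0 ≤ 1 - e
    · exact mul_le_mul_of_nonneg_left hle he
    · push Not at he
      have hb : 0 ≤ (volume (polarSet L)).toReal := ENNReal.toReal_nonneg
      have hc : 0 < d / 6 * (1 + 4 * g) / B := by positivity
      exfalso
      have : (1 - e) * (volume (polarSet L)).toReal ≤ 0 :=
        mul_nonpos_of_nonpos_of_nonneg he.le hb
      linarith
  linarith

/-- The comparison of the two sides of a polar pair. -/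
theorem m6Statement : M6Statement := by
  intro X N h e he he1 hF1 hF2
  classical
  set L := convexHull ℝ (X : Set F) with hLd
  have hX : X.Nonempty := by
    obtain ⟨ρ, hρ, hb⟩ := h.ball
    have h0 : (0 : F) ∈ convexHull ℝ (X : Set F) := hb 0 (by simp [hρ.le])
    by_contra hne
    rw [Finset.not_nonempty_iff_eq_empty] at hne
    simp [hne] at h0
  have hLc : IsCompact L := X.finite_toSet.isCompact_convexHull ℝ
  have hL : Convex ℝ L := convex_convexHull ℝ _
  have h00 : (0 : F) ∈ interior L := by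
    obtain ⟨ρ, hρ, hb⟩ := h.ball
    rw [mem_interior]
    refine ⟨Metric.ball 0 (ρ / 3), ?_, Metric.isOpen_ball, by simp [hρ]⟩
    intro q hq
    apply hb
    have hq' : ‖q‖ < ρ / 3 := by simpa using hq
    have h1 : |q.1.1| ≤ ‖q‖ := by
      rw [← Real.norm_eq_abs]
      exact (norm_fst_le q.1).trans (norm_fst_le q)
    have h2 : |q.1.2| ≤ ‖q‖ := by
      rw [← Real.norm_eq_abs]
      exact (norm_snd_le q.1).trans (norm_fst_le q)
    have h3 : |q.2| ≤ ‖q‖ := by
      rw [← Real.norm_eq_abs]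
      exact norm_snd_le q
    linarith
  obtain ⟨v0, m0, v1, m1, v2, m2, v3, m3, hmax⟩ := exists_max_tetra X hX
  have h0 : v0 ∈ L := subset_convexHull ℝ _ m0
  have h1 : v1 ∈ L := subset_convexHull ℝ _ m1
  have h2 : v2 ∈ L := subset_convexHull ℝ _ m2
  have h3 : v3 ∈ L := subset_convexHull ℝ _ m3
  have hVfin : volume L ≠ ⊤ := hLc.measure_lt_top.ne
  set V := (volume L).toReal with hVd
  have hVe : volume L = ENNReal.ofReal V := (ENNReal.ofReal_toReal hVfin).symm
  set T := tv v0 v1 v2 v3 with hTd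
  have hbig : (1 - e / 64) * V < T := by
    unfold Far at hF2
    push Not at hF2
    obtain ⟨a, ha, b, hb, c, hc, d, hd, hlt⟩ := hF2
    exact hlt.trans_le (hmax a ha b hb c hc d hd)
  have hVpos' : 0 < V := by
    have hvolpos : 0 < volume L := by
      have := (isOpen_interior.measure_pos (volume : Measure F) ⟨0, h00⟩)
      exact this.trans_le (measure_mono interior_subset)
    exact ENNReal.toReal_pos hvolpos.ne' hVfin
  have hTpos : 0 < T := lt_of_le_of_lt (by
    have : 0 ≤ 1 - e / 64 := by linarith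
    positivity) hbig
  have hTV : T ≤ V := by
    have hsub := simplexSet_subset hL h0 h1 h2 h3
    have := measure_mono (μ := volume) hsub
    rw [volume_simplexSet] at this
    have h5 := ENNReal.toReal_mono hVfin this
    rwa [ENNReal.toReal_ofReal (by positivity)] at h5
  set a := V / T - 1 with ha
  have hVT : V = (1 + a) * T := by
    rw [ha]
    field_simp
    ring
  have hVa : volume L = ENNReal.ofReal ((1 + a) * T) := by rw [hVe, hVT]
  have ha0 : 0 ≤ a := by
    rw [ha, sub_nonneg, le_div_iff₀ hTpos]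
    linarith
  have ha1 : a ≤ 101 / 100 * (e / 64) := by
    rw [ha, sub_le_iff_le_add, div_le_iff₀ hTpos]
    have hx : e / 64 ≤ 1 / 1000 := by linarith
    have hx0 : 0 < e / 64 := by positivity
    have h6 : 1 ≤ (101 / 100 * (e / 64) + 1) * (1 - e / 64) := by nlinarith
    have h7 : (101 / 100 * (e / 64) + 1) * ((1 - e / 64) * V) ≤ (101 / 100 * (e / 64) + 1) * T :=
      mul_le_mul_of_nonneg_left hbig.le (by positivity)
    nlinarith
  have hD : det3 (v1 - v0) (v2 - v0) (v3 - v0) ≠ 0 := by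
    intro hD
    rw [hTd] at hTpos
    unfold tv at hTpos
    rw [hD] at hTpos
    simp at hTpos
  obtain ⟨c0, c1, c2, c3, b0, b1, b2, b3, fr⟩ := exists_frame4 hD
  have fr1 := fr.cyc
  have fr2 := fr1.cyc
  have fr3 := fr2.cyc
  have hLm := hLc.isClosed.measurableSet
  have tv1 : tv v1 v2 v3 v0 = tv v0 v1 v2 v3 := tv_cyc _ _ _ _
  have tv2 : tv v2 v3 v0 v1 = tv v0 v1 v2 v3 := by rw [tv_cyc v1 v2 v3 v0, tv1]
  have tv3 : tv v3 v0 v1 v2 = tv v0 v1 v2 v3 := by rw [tv_cyc v2 v3 v0 v1, tv2]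
  set g := 100 / 97 * a with hg
  have hg0 : 0 ≤ g := by positivity
  have hg1 : g ≤ 1 / 4000000 := by
    rw [hg]
    have : a ≤ 101 / 100 * ((1 / 10000000) / 64) := by
      refine ha1.trans ?_
      gcongr
    linarith
  have l0 : ∀ x ∈ L, -g ≤ mf c0 b0 x := fun x hx => fr.low_bound hL hLm h0 h1 h2 h3 ha0 hVa hx
  have l1 : ∀ x ∈ L, -g ≤ mf c1 b1 x := fun x hx =>
    fr1.low_bound hL hLm h1 h2 h3 h0 ha0 (by rw [tv1]; exact hVa) hx
  have l2 : ∀ x ∈ L, -g ≤ mf c2 b2 x := fun x hx =>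
    fr2.low_bound hL hLm h2 h3 h0 h1 ha0 (by rw [tv2]; exact hVa) hx
  have l3 : ∀ x ∈ L, -g ≤ mf c3 b3 x := fun x hx =>
    fr3.low_bound hL hLm h3 h0 h1 h2 ha0 (by rw [tv3]; exact hVa) hx
  have p0 : 0 < b0 + g := fr.origin_above h00 l0
  have p1 : 0 < b1 + g := fr1.origin_above h00 l1
  have p2 : 0 < b2 + g := fr2.origin_above h00 l2
  have p3 : 0 < b3 + g := fr3.origin_above h00 l3
  have hpol : convexHull ℝ (N : Set F) = polarSet L := by
    rw [h.conv_N_eq, hLd, polarSet_convexHull]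
  have hfar := fr.enclose_bound (L := L) ha0 hg0 p0 p1 p2 p3 l0 l1 l2 l3 hVa
  have hsum : (b0 + g) + (b1 + g) + (b2 + g) + (b3 + g) = 1 + 4 * g := by linarith [fr.sb]
  rw [hpol] at hF1 ⊢
  have farcase : ∀ {x y z u : ℝ}, 0 < x → 0 < y → 0 < z → 0 < u → x + y + z + u = 1 + 4 * g →
      (1 / 2) ^ 2 ≤ (4 * x - (1 + 4 * g)) ^ 2 →
      x * y * z * u = (b0 + g) * (b1 + g) * (b2 + g) * (b3 + g) →
      ENNReal.ofReal (64 / 9 * (101 / 100)) ≤ volume L * volume (polarSet L) := by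
    intro x y z u px py pz pu hs hf he
    refine le_trans ?_ hfar
    apply ENNReal.ofReal_le_ofReal
    rw [← he]
    exact far_numeric2 px py pz pu hs hf ha0 hg0 hg1
  have hb : ∀ {b : ℝ}, b < 1 / 8 → (1 / 2) ^ 2 ≤ (4 * (b + g) - (1 + 4 * g)) ^ 2 := by
    intro b hb
    have e : 4 * (b + g) - (1 + 4 * g) = 4 * b - 1 := by ring
    rw [e]
    have h3 : 1 / 2 ≤ -(4 * b - 1) := by linarith
    have := pow_le_pow_left₀ (by norm_num : (0 : ℝ) ≤ 1 / 2) h3 2
    rwa [neg_sq] at this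
  by_cases c0' : 1 / 8 ≤ b0
  swap
  · push Not at c0'
    exact farcase p0 p1 p2 p3 hsum (hb c0') rfl
  by_cases c1' : 1 / 8 ≤ b1
  swap
  · push Not at c1'
    exact farcase p1 p0 p2 p3 (by linarith) (hb c1') (by ring)
  by_cases c2' : 1 / 8 ≤ b2
  swap
  · push Not at c2'
    exact farcase p2 p0 p1 p3 (by linarith) (hb c2') (by ring)
  by_cases c3' : 1 / 8 ≤ b3
  swap
  · push Not at c3'
    exact farcase p3 p0 p1 p2 (by linarith) (hb c3') (by ring)
  -- the remaining case contradicts `Far`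
  exfalso
  have := fr.far_polar_core h0 h1 h2 h3 hg0 (by linarith) c0' c1' c2' c3' l0 l1 l2 l3 hF1
  have h9 : 32 * g ≤ 32 * (100 / 97) * (101 / 100 * (e / 64)) := by
    rw [hg]
    nlinarith
  nlinarith

end Vale.Agent.Lib.P248
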