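import Vale.Agent.Lib.P248.Eq.Cells

/-!
Lower bounds for the volume of the polar of a set containing a tetrahedron.
-/

open MeasureTheory Set

namespace Vale.Agent.Lib.P248

/-- The vertex of the polar simplex belonging to the coordinate `(c, b)`. -/
noncomputable def nv (c : F) (b : ℝ) : F := (-b⁻¹) • c

lemma dot_nv (c : F) {b : ℝ} (hb : b ≠ 0) (x : F) : dot (nv c b) x = 1 - mf c b x / b := by
  simp only [nv, dot_smul_left, mf]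
  field_simp
  ring

lemma mem_polar_of_le {L : Set F} {u : F} {E : ℝ} (hE : 0 ≤ E) (h : ∀ x ∈ L, dot u x ≤ 1 + E) :
    (1 + E)⁻¹ • u ∈ polarSet L := by
  intro x hx
  rw [dot_smul_left, inv_mul_le_iff₀ (by linarith)]
  simpa using h x hx

lemma zero_mem_polar (L : Set F) : (0 : F) ∈ polarSet L := by
  intro x _
  simp

variable {v0 v1 v2 v3 c0 c1 c2 c3 : F} {b0 b1 b2 b3 : ℝ}

/-- The loss in the cone over the facet opposite to the vertex `0` of the polar simplex. -/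
theorem Frame4.cone_polar (fr : Frame4 v0 v1 v2 v3 c0 c1 c2 c3 b0 b1 b2 b3)
    (p0 : 0 < b0) (p1 : 0 < b1) (p2 : 0 < b2) (p3 : 0 < b3) (L : Set F) {w G1 G2 G3 E1 E2 E3 : ℝ}
    (hw0 : 0 < w) (hw1 : w < 1) (hG1 : 0 ≤ G1) (hG2 : 0 ≤ G2) (hG3 : 0 ≤ G3)
    (hE1 : 0 ≤ E1) (hE2 : 0 ≤ E2) (hE3 : 0 ≤ E3)
    (mG1 : ∀ x ∈ L, -mf c1 b1 x ≤ b1 * G1) (mG2 : ∀ x ∈ L, -mf c2 b2 x ≤ b2 * G2)
    (mG3 : ∀ x ∈ L, -mf c3 b3 x ≤ b3 * G3)
    (mE1 : ∀ x ∈ L, (1 - w) * (-mf c1 b1 x / b1) + w * ((mf c0 b0 x - 1) / (1 - b0)) ≤ E1)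
    (mE2 : ∀ x ∈ L, (1 - w) * (-mf c2 b2 x / b2) + w * ((mf c0 b0 x - 1) / (1 - b0)) ≤ E2)
    (mE3 : ∀ x ∈ L, (1 - w) * (-mf c3 b3 x / b3) + w * ((mf c0 b0 x - 1) / (1 - b0)) ≤ E3)
    (mM : ∀ x ∈ L, mf c0 b0 x ≤ 1) :
    volume (cone3 (nv c1 b1) (nv c2 b2) (nv c3 b3) \ polarSet L) ≤
      ENNReal.ofReal (|det3 c1 c2 c3| / 6 / (b0 * b1 * b2 * b3) * (b0 / (1 - b0) *
        (b3 * Lf w G1 G2 E1 E2 + b1 * Lf w G2 G3 E2 E3 + b2 * Lf w G3 G1 E3 E1))) := by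
  have hs : b1 + b2 + b3 = 1 - b0 := by linarith [fr.sb]
  have hs0 : 0 < 1 - b0 := by rw [← hs]; positivity
  set M : F := (1 - b0)⁻¹ • c0 with hMd
  have hM : M = (b1 + b2 + b3)⁻¹ • (b1 • nv c1 b1 + b2 • nv c2 b2 + b3 • nv c3 b3) := by
    rw [hs, hMd]
    congr 1
    have h1 : b1 • nv c1 b1 = -c1 := by
      simp only [nv, smul_smul]
      field_simp
      simp
    have h2 : b2 • nv c2 b2 = -c2 := by
      simp only [nv, smul_smul]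
      field_simp
      simp
    have h3 : b3 • nv c3 b3 = -c3 := by
      simp only [nv, smul_smul]
      field_simp
      simp
    rw [h1, h2, h3]
    calc c0 = (c0 + c1 + c2 + c3) + (-c1 + -c2 + -c3) := by abel
      _ = -c1 + -c2 + -c3 := by rw [fr.sc, zero_add]
  have dotM : ∀ x, dot M x = 1 + (mf c0 b0 x - 1) / (1 - b0) := by
    intro x
    rw [hMd, dot_smul_left]
    simp only [mf]
    field_simp
    ring
  have hmem : ∀ {c : F} {b E : ℝ}, 0 < b → 0 ≤ E →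
      (∀ x ∈ L, (1 - w) * (-mf c b x / b) + w * ((mf c0 b0 x - 1) / (1 - b0)) ≤ E) →
      (1 + E)⁻¹ • ((1 - w) • nv c b + w • M) ∈ polarSet L := by
    intro c b E hb hE h
    apply mem_polar_of_le hE
    intro x hx
    rw [dot_add_left, dot_smul_left, dot_smul_left, dot_nv c hb.ne', dotM]
    have := h x hx
    have e : (1 - w) * (1 - mf c b x / b) + w * (1 + (mf c0 b0 x - 1) / (1 - b0)) =
        1 + ((1 - w) * (-mf c b x / b) + w * ((mf c0 b0 x - 1) / (1 - b0))) := by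
      ring
    rw [e]
    linarith
  have hmemG : ∀ {c : F} {b G : ℝ}, 0 < b → 0 ≤ G → (∀ x ∈ L, -mf c b x ≤ b * G) →
      (1 + G)⁻¹ • nv c b ∈ polarSet L := by
    intro c b G hb hG h
    apply mem_polar_of_le hG
    intro x hx
    rw [dot_nv c hb.ne']
    have h1 := h x hx
    have : -mf c b x / b ≤ G := by
      rw [div_le_iff₀ hb]
      linarith
    have e : 1 - mf c b x / b = 1 + -mf c b x / b := by ring
    rw [e]
    linarith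
  have hMmem : M ∈ polarSet L := by
    intro x hx
    rw [dotM]
    have h1 := mM x hx
    have : (mf c0 b0 x - 1) / (1 - b0) ≤ 0 := div_nonpos_of_nonpos_of_nonneg (by linarith) hs0.le
    linarith
  have key := cone_loss (polarSet_convex L) (zero_mem_polar L) p1 p2 p3 hM hw0 hw1 hG1 hG2 hG3
    hE1 hE2 hE3 (hmemG p1 hG1 mG1) (hmemG p2 hG2 mG2) (hmemG p3 hG3 mG3)
    (hmem p1 hE1 mE1) (hmem p2 hE2 mE2) (hmem p3 hE3 mE3) hMmem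
  refine key.trans (le_of_eq ?_)
  congr 1
  have hdet : det3 (nv c1 b1) (nv c2 b2) (nv c3 b3) = -(b1⁻¹ * b2⁻¹ * b3⁻¹) * det3 c1 c2 c3 := by
    simp only [nv]
    rw [det3_scale]
    ring
  have habs : |det3 (nv c1 b1) (nv c2 b2) (nv c3 b3)| = b1⁻¹ * b2⁻¹ * b3⁻¹ * |det3 c1 c2 c3| := by
    rw [hdet, abs_mul, abs_neg, abs_of_pos (by positivity)]
  rw [habs, hs]
  field_simp

/-- The total loss in the polar simplex. -/
noncomputable def lossTotal (b0 b1 b2 b3 w G0 G1 G2 G3 E01 E02 E03 E12 E13 E10 E23 E20 E21 E30 E31 E32 : ℝ) : ℝ :=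
  b0 / (1 - b0) * (b3 * Lf w G1 G2 E01 E02 + b1 * Lf w G2 G3 E02 E03 + b2 * Lf w G3 G1 E03 E01) +
  b1 / (1 - b1) * (b0 * Lf w G2 G3 E12 E13 + b2 * Lf w G3 G0 E13 E10 + b3 * Lf w G0 G2 E10 E12) +
  b2 / (1 - b2) * (b1 * Lf w G3 G0 E23 E20 + b3 * Lf w G0 G1 E20 E21 + b0 * Lf w G1 G3 E21 E23) +
  b3 / (1 - b3) * (b2 * Lf w G0 G1 E30 E31 + b0 * Lf w G1 G2 E31 E32 + b1 * Lf w G2 G0 E32 E30)

/-- The volume of the polar simplex. -/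
theorem Frame4.volume_top (fr : Frame4 v0 v1 v2 v3 c0 c1 c2 c3 b0 b1 b2 b3)
    (p0 : 0 < b0) (p1 : 0 < b1) (p2 : 0 < b2) (p3 : 0 < b3) :
    volume (simplexSet (nv c0 b0) (nv c1 b1 - nv c0 b0) (nv c2 b2 - nv c0 b0)
      (nv c3 b3 - nv c0 b0)) = ENNReal.ofReal (|det3 c1 c2 c3| / 6 / (b0 * b1 * b2 * b3)) := by
  rw [volume_simplexSet]
  congr 1
  have hc : c0 = -(c1 + c2 + c3) := by
    have := fr.sc
    rw [eq_neg_iff_add_eq_zero, ← this]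
    abel
  have hdet : det3 (nv c1 b1 - nv c0 b0) (nv c2 b2 - nv c0 b0) (nv c3 b3 - nv c0 b0) =
      -(b0⁻¹ * b1⁻¹ * b2⁻¹ * b3⁻¹) * det3 c1 c2 c3 := by
    rw [hc]
    simp only [nv, det3, Prod.fst_add, Prod.snd_add, Prod.fst_sub, Prod.snd_sub, Prod.fst_neg,
      Prod.snd_neg, Prod.smul_fst, Prod.smul_snd, smul_eq_mul]
    have hb0 : b0 = 1 - b1 - b2 - b3 := by linarith [fr.sb]
    field_simp
    rw [hb0]
    ring
  rw [hdet, abs_mul, abs_neg, abs_of_pos (by positivity)]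
  field_simp

/-- The near bound: the polar of `L` misses little of the polar simplex. -/
theorem Frame4.polar_near (fr : Frame4 v0 v1 v2 v3 c0 c1 c2 c3 b0 b1 b2 b3)
    (p0 : 0 < b0) (p1 : 0 < b1) (p2 : 0 < b2) (p3 : 0 < b3) (L : Set F)
    {w G0 G1 G2 G3 E01 E02 E03 E12 E13 E10 E23 E20 E21 E30 E31 E32 : ℝ}
    (hw0 : 0 < w) (hw1 : w < 1) (hG0 : 0 ≤ G0) (hG1 : 0 ≤ G1) (hG2 : 0 ≤ G2) (hG3 : 0 ≤ G3)
    (h01 : 0 ≤ E01) (h02 : 0 ≤ E02) (h03 : 0 ≤ E03) (h12 : 0 ≤ E12) (h13 : 0 ≤ E13) (h10 : 0 ≤ E10)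
    (h23 : 0 ≤ E23) (h20 : 0 ≤ E20) (h21 : 0 ≤ E21) (h30 : 0 ≤ E30) (h31 : 0 ≤ E31) (h32 : 0 ≤ E32)
    (mG0 : ∀ x ∈ L, -mf c0 b0 x ≤ b0 * G0) (mG1 : ∀ x ∈ L, -mf c1 b1 x ≤ b1 * G1)
    (mG2 : ∀ x ∈ L, -mf c2 b2 x ≤ b2 * G2) (mG3 : ∀ x ∈ L, -mf c3 b3 x ≤ b3 * G3)
    (m01 : ∀ x ∈ L, (1 - w) * (-mf c1 b1 x / b1) + w * ((mf c0 b0 x - 1) / (1 - b0)) ≤ E01)
    (m02 : ∀ x ∈ L, (1 - w) * (-mf c2 b2 x / b2) + w * ((mf c0 b0 x - 1) / (1 - b0)) ≤ E02)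
    (m03 : ∀ x ∈ L, (1 - w) * (-mf c3 b3 x / b3) + w * ((mf c0 b0 x - 1) / (1 - b0)) ≤ E03)
    (m12 : ∀ x ∈ L, (1 - w) * (-mf c2 b2 x / b2) + w * ((mf c1 b1 x - 1) / (1 - b1)) ≤ E12)
    (m13 : ∀ x ∈ L, (1 - w) * (-mf c3 b3 x / b3) + w * ((mf c1 b1 x - 1) / (1 - b1)) ≤ E13)
    (m10 : ∀ x ∈ L, (1 - w) * (-mf c0 b0 x / b0) + w * ((mf c1 b1 x - 1) / (1 - b1)) ≤ E10)
    (m23 : ∀ x ∈ L, (1 - w) * (-mf c3 b3 x / b3) + w * ((mf c2 b2 x - 1) / (1 - b2)) ≤ E23)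
    (m20 : ∀ x ∈ L, (1 - w) * (-mf c0 b0 x / b0) + w * ((mf c2 b2 x - 1) / (1 - b2)) ≤ E20)
    (m21 : ∀ x ∈ L, (1 - w) * (-mf c1 b1 x / b1) + w * ((mf c2 b2 x - 1) / (1 - b2)) ≤ E21)
    (m30 : ∀ x ∈ L, (1 - w) * (-mf c0 b0 x / b0) + w * ((mf c3 b3 x - 1) / (1 - b3)) ≤ E30)
    (m31 : ∀ x ∈ L, (1 - w) * (-mf c1 b1 x / b1) + w * ((mf c3 b3 x - 1) / (1 - b3)) ≤ E31)
    (m32 : ∀ x ∈ L, (1 - w) * (-mf c2 b2 x / b2) + w * ((mf c3 b3 x - 1) / (1 - b3)) ≤ E32)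
    (mM0 : ∀ x ∈ L, mf c0 b0 x ≤ 1) (mM1 : ∀ x ∈ L, mf c1 b1 x ≤ 1)
    (mM2 : ∀ x ∈ L, mf c2 b2 x ≤ 1) (mM3 : ∀ x ∈ L, mf c3 b3 x ≤ 1) :
    ENNReal.ofReal (|det3 c1 c2 c3| / 6 / (b0 * b1 * b2 * b3)) ≤ volume (polarSet L) +
      ENNReal.ofReal (|det3 c1 c2 c3| / 6 / (b0 * b1 * b2 * b3) *
        lossTotal b0 b1 b2 b3 w G0 G1 G2 G3 E01 E02 E03 E12 E13 E10 E23 E20 E21 E30 E31 E32) := by
  have fr1 := fr.cyc
  have fr2 := fr1.cyc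
  have fr3 := fr2.cyc
  have k0 := fr.cone_polar p0 p1 p2 p3 L hw0 hw1 hG1 hG2 hG3 h01 h02 h03 mG1 mG2 mG3 m01 m02 m03 mM0
  have k1 := fr1.cone_polar p1 p2 p3 p0 L hw0 hw1 hG2 hG3 hG0 h12 h13 h10 mG2 mG3 mG0 m12 m13 m10 mM1
  have k2 := fr2.cone_polar p2 p3 p0 p1 L hw0 hw1 hG3 hG0 hG1 h23 h20 h21 mG3 mG0 mG1 m23 m20 m21 mM2
  have k3 := fr3.cone_polar p3 p0 p1 p2 L hw0 hw1 hG0 hG1 hG2 h30 h31 h32 mG0 mG1 mG2 m30 m31 m32 mM3
  set S := |det3 c1 c2 c3| / 6 / (b0 * b1 * b2 * b3) with hS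
  have e1 : |det3 c2 c3 c0| = |det3 c1 c2 c3| := fr.detc_cyc
  have e2 : |det3 c3 c0 c1| = |det3 c1 c2 c3| := by rw [← e1]; exact fr1.detc_cyc
  have e3 : |det3 c0 c1 c2| = |det3 c1 c2 c3| := by rw [← e2]; exact fr2.detc_cyc
  have s1 : |det3 c2 c3 c0| / 6 / (b1 * b2 * b3 * b0) = S := by
    rw [e1, hS]; congr 1; ring
  have s2 : |det3 c3 c0 c1| / 6 / (b2 * b3 * b0 * b1) = S := by
    rw [e2, hS]; congr 1; ring
  have s3 : |det3 c0 c1 c2| / 6 / (b3 * b0 * b1 * b2) = S := by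
    rw [e3, hS]; congr 1; ring
  rw [s1] at k1
  rw [s2] at k2
  rw [s3] at k3
  have hb : b0 + b1 + b2 + b3 = 1 := fr.sb
  have hn : b0 • nv c0 b0 + b1 • nv c1 b1 + b2 • nv c2 b2 + b3 • nv c3 b3 = 0 := by
    have h0 : b0 • nv c0 b0 = -c0 := by
      simp only [nv, smul_smul]; field_simp; simp
    have h1 : b1 • nv c1 b1 = -c1 := by
      simp only [nv, smul_smul]; field_simp; simp
    have h2 : b2 • nv c2 b2 = -c2 := by
      simp only [nv, smul_smul]; field_simp; simp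
    have h3 : b3 • nv c3 b3 = -c3 := by
      simp only [nv, smul_smul]; field_simp; simp
    rw [h0, h1, h2, h3]
    calc -c0 + -c1 + -c2 + -c3 = -(c0 + c1 + c2 + c3) := by abel
      _ = 0 := by rw [fr.sc, neg_zero]
  have hcov := top_cover p0 p1 p2 p3 hb hn
  set Q := polarSet L with hQ
  set C0 := cone3 (nv c1 b1) (nv c2 b2) (nv c3 b3)
  set C1 := cone3 (nv c2 b2) (nv c3 b3) (nv c0 b0)
  set C2 := cone3 (nv c3 b3) (nv c0 b0) (nv c1 b1)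
  set C3 := cone3 (nv c0 b0) (nv c1 b1) (nv c2 b2)
  have hsub : simplexSet (nv c0 b0) (nv c1 b1 - nv c0 b0) (nv c2 b2 - nv c0 b0)
      (nv c3 b3 - nv c0 b0) ⊆ Q ∪ (C0 \ Q) ∪ (C1 \ Q) ∪ (C2 \ Q) ∪ (C3 \ Q) := by
    intro y hy
    by_cases hyQ : y ∈ Q
    · exact Or.inl (Or.inl (Or.inl (Or.inl hyQ)))
    · rcases hcov hy with ((h | h) | h) | h
      · exact Or.inl (Or.inl (Or.inl (Or.inr ⟨h, hyQ⟩)))
      · exact Or.inl (Or.inl (Or.inr ⟨h, hyQ⟩))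
      · exact Or.inl (Or.inr ⟨h, hyQ⟩)
      · exact Or.inr ⟨h, hyQ⟩
  have hle : volume (simplexSet (nv c0 b0) (nv c1 b1 - nv c0 b0) (nv c2 b2 - nv c0 b0)
      (nv c3 b3 - nv c0 b0)) ≤ volume Q + volume (C0 \ Q) + volume (C1 \ Q) + volume (C2 \ Q)
        + volume (C3 \ Q) := by
    refine (measure_mono hsub).trans ?_
    refine (measure_union_le _ _).trans (add_le_add ?_ le_rfl)
    refine (measure_union_le _ _).trans (add_le_add ?_ le_rfl)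
    refine (measure_union_le _ _).trans (add_le_add ?_ le_rfl)
    exact measure_union_le _ _
  rw [fr.volume_top p0 p1 p2 p3, ← hS] at hle
  refine hle.trans ?_
  have hS0 : 0 ≤ S := by rw [hS]; positivity
  have q0 : 0 < 1 - b0 := by linarith
  have q1 : 0 < 1 - b1 := by linarith
  have q2 : 0 < 1 - b2 := by linarith
  have q3 : 0 < 1 - b3 := by linarith
  have wl := fun {a b c d : ℝ} (ha : 0 ≤ a) (hb : 0 ≤ b) (hc : 0 ≤ c) (hd : 0 ≤ d) =>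
    Lf_nonneg (w := w) hw0.le hw1.le ha hb hc hd
  have P0 : 0 ≤ S * (b0 / (1 - b0) * (b3 * Lf w G1 G2 E01 E02 + b1 * Lf w G2 G3 E02 E03 +
      b2 * Lf w G3 G1 E03 E01)) := by
    have := wl hG1 hG2 h01 h02
    have := wl hG2 hG3 h02 h03
    have := wl hG3 hG1 h03 h01
    positivity
  have P1 : 0 ≤ S * (b1 / (1 - b1) * (b0 * Lf w G2 G3 E12 E13 + b2 * Lf w G3 G0 E13 E10 +
      b3 * Lf w G0 G2 E10 E12)) := by
    have := wl hG2 hG3 h12 h13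
    have := wl hG3 hG0 h13 h10
    have := wl hG0 hG2 h10 h12
    positivity
  have P2 : 0 ≤ S * (b2 / (1 - b2) * (b1 * Lf w G3 G0 E23 E20 + b3 * Lf w G0 G1 E20 E21 +
      b0 * Lf w G1 G3 E21 E23)) := by
    have := wl hG3 hG0 h23 h20
    have := wl hG0 hG1 h20 h21
    have := wl hG1 hG3 h21 h23
    positivity
  have P3 : 0 ≤ S * (b3 / (1 - b3) * (b2 * Lf w G0 G1 E30 E31 + b0 * Lf w G1 G2 E31 E32 +
      b1 * Lf w G2 G0 E32 E30)) := by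
    have := wl hG0 hG1 h30 h31
    have := wl hG1 hG2 h31 h32
    have := wl hG2 hG0 h32 h30
    positivity
  have e : S * lossTotal b0 b1 b2 b3 w G0 G1 G2 G3 E01 E02 E03 E12 E13 E10 E23 E20 E21 E30 E31 E32 =
      S * (b0 / (1 - b0) * (b3 * Lf w G1 G2 E01 E02 + b1 * Lf w G2 G3 E02 E03 +
        b2 * Lf w G3 G1 E03 E01)) +
      S * (b1 / (1 - b1) * (b0 * Lf w G2 G3 E12 E13 + b2 * Lf w G3 G0 E13 E10 +
        b3 * Lf w G0 G2 E10 E12)) +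
      S * (b2 / (1 - b2) * (b1 * Lf w G3 G0 E23 E20 + b3 * Lf w G0 G1 E20 E21 +
        b0 * Lf w G1 G3 E21 E23)) +
      S * (b3 / (1 - b3) * (b2 * Lf w G0 G1 E30 E31 + b0 * Lf w G1 G2 E31 E32 +
        b1 * Lf w G2 G0 E32 E30)) := by
    unfold lossTotal
    ring
  rw [e, ENNReal.ofReal_add (by positivity) P3, ENNReal.ofReal_add (by positivity) P2,
    ENNReal.ofReal_add P0 P1]
  have e2 : volume Q + volume (C0 \ Q) + volume (C1 \ Q) + volume (C2 \ Q) + volume (C3 \ Q) =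
      volume Q + (volume (C0 \ Q) + volume (C1 \ Q) + volume (C2 \ Q) + volume (C3 \ Q)) := by ring
  rw [e2]
  exact add_le_add le_rfl (add_le_add (add_le_add (add_le_add k0 k1) k2) k3)

/-- The enclosing bound: the polar of `L` contains a simplex with vertices on the same rays. -/
theorem Frame4.polar_enclose (fr : Frame4 v0 v1 v2 v3 c0 c1 c2 c3 b0 b1 b2 b3) (L : Set F)
    {g : ℝ} (p0 : 0 < b0 + g) (p1 : 0 < b1 + g) (p2 : 0 < b2 + g) (p3 : 0 < b3 + g)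
    (m0 : ∀ x ∈ L, -mf c0 b0 x ≤ g) (m1 : ∀ x ∈ L, -mf c1 b1 x ≤ g)
    (m2 : ∀ x ∈ L, -mf c2 b2 x ≤ g) (m3 : ∀ x ∈ L, -mf c3 b3 x ≤ g) :
    nv c0 (b0 + g) ∈ polarSet L ∧ nv c1 (b1 + g) ∈ polarSet L ∧ nv c2 (b2 + g) ∈ polarSet L ∧
      nv c3 (b3 + g) ∈ polarSet L ∧
      tv (nv c0 (b0 + g)) (nv c1 (b1 + g)) (nv c2 (b2 + g)) (nv c3 (b3 + g)) =
        |det3 c1 c2 c3| / 6 * (1 + 4 * g) / ((b0 + g) * (b1 + g) * (b2 + g) * (b3 + g)) := by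
  have key : ∀ {c : F} {b : ℝ}, 0 < b + g → (∀ x ∈ L, -mf c b x ≤ g) → nv c (b + g) ∈ polarSet L := by
    intro c b hb h x hx
    have h1 := h x hx
    simp only [mf] at h1
    simp only [nv, dot_smul_left]
    have : -(b + g)⁻¹ * dot c x = (-dot c x) / (b + g) := by
      rw [neg_mul, neg_div]
      rw [inv_mul_eq_div]
    rw [this, div_le_one hb]
    linarith
  refine ⟨key p0 m0, key p1 m1, key p2 m2, key p3 m3, ?_⟩
  have hc : c0 = -(c1 + c2 + c3) := by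
    have := fr.sc
    rw [eq_neg_iff_add_eq_zero, ← this]
    abel
  have hdet : det3 (nv c1 (b1 + g) - nv c0 (b0 + g)) (nv c2 (b2 + g) - nv c0 (b0 + g))
      (nv c3 (b3 + g) - nv c0 (b0 + g)) =
      -((1 + 4 * g) / ((b0 + g) * (b1 + g) * (b2 + g) * (b3 + g))) * det3 c1 c2 c3 := by
    have hb0 : b0 = 1 - b1 - b2 - b3 := by linarith [fr.sb]
    rw [hc]
    simp only [nv, det3, Prod.fst_add, Prod.snd_add, Prod.fst_sub, Prod.snd_sub, Prod.fst_neg,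
      Prod.snd_neg, Prod.smul_fst, Prod.smul_snd, smul_eq_mul]
    field_simp
    rw [hb0]
    ring
  unfold tv
  have hpos : 0 < 1 + 4 * g := by linarith [fr.sb]
  rw [hdet, abs_mul, abs_neg, abs_of_pos (by positivity)]
  field_simp

end Vale.Agent.Lib.P248
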