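import Vale.Agent.Lib.P248.Eq.CapSum
import Vale.Agent.Lib.P248.Eq.PolarNear

/-!
The local lemma when the origin is close to the centroid of the tetrahedron.
-/

open MeasureTheory Set

namespace Vale.Agent.Lib.P248

/-- A maximiser of the excess function. -/
lemma near_point {L : Set F} (hLc : IsCompact L) {cj ck : F} {bj bk : ℝ} (hbj : 0 < bj)
    (hbk : bk < 1) {vk : F} (hvk : vk ∈ L) (h1 : mf cj bj vk = 0) (h2 : mf ck bk vk = 1)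
    (hle : ∀ x ∈ L, mf ck bk x ≤ 1) :
    ∃ B ∈ L, ∃ E h : ℝ, 0 ≤ E ∧ 0 ≤ h ∧ mf cj bj B = -h ∧ E ≤ 199 / 200 * h / bj ∧
      (1 / 200 * ((1 - mf ck bk B) / (1 - bk)) ≤ 199 / 200 * h / bj) ∧
      (∀ x ∈ L, (1 - 1 / 200) * (-mf cj bj x / bj) + 1 / 200 * ((mf ck bk x - 1) / (1 - bk)) ≤ E) := by
  set φ : F → ℝ := fun x =>
    (1 - 1 / 200) * (-mf cj bj x / bj) + 1 / 200 * ((mf ck bk x - 1) / (1 - bk)) with hφ
  have hc : Continuous φ := by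
    have c1 := continuous_mf cj bj
    have c2 := continuous_mf ck bk
    simp only [hφ]
    fun_prop
  obtain ⟨B, hB, hmax⟩ := hLc.exists_isMaxOn ⟨vk, hvk⟩ hc.continuousOn
  have hk : 0 < 1 - bk := by linarith
  have hmax' : ∀ x ∈ L, φ x ≤ φ B := fun x hx => hmax hx
  have h0 : φ vk = 0 := by
    simp only [hφ, h1, h2]
    simp
  have hE : 0 ≤ φ B := by
    rw [← h0]
    exact hmax' vk hvk
  have hB1 := hle B hB
  have hq : (mf ck bk B - 1) / (1 - bk) ≤ 0 := div_nonpos_of_nonpos_of_nonneg (by linarith) hk.le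
  have hq2 : (1 - mf ck bk B) / (1 - bk) = -((mf ck bk B - 1) / (1 - bk)) := by
    rw [← neg_div]
    ring
  have hform : φ B = 199 / 200 * (-mf cj bj B) / bj + 1 / 200 * ((mf ck bk B - 1) / (1 - bk)) := by
    simp only [hφ]
    ring
  have hh : 0 ≤ -mf cj bj B := by
    by_contra hcon
    push Not at hcon
    have : 199 / 200 * (-mf cj bj B) / bj < 0 := by
      apply div_neg_of_neg_of_pos _ hbj
      linarith
    linarith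
  refine ⟨B, hB, φ B, -mf cj bj B, hE, hh, by ring, ?_, ?_, fun x hx => hmax' x hx⟩
  · rw [hform]
    linarith
  · rw [hq2]
    rw [hform] at hE
    linarith

variable {v0 v1 v2 v3 c0 c1 c2 c3 : F} {b0 b1 b2 b3 : ℝ}

/-- Near-vertex points beyond the facet `0`, and the size of the cap. -/
theorem Frame4.facet_cap (fr : Frame4 v0 v1 v2 v3 c0 c1 c2 c3 b0 b1 b2 b3) {L : Set F}
    (hLc : IsCompact L) (hL : Convex ℝ L) (h0 : v0 ∈ L) (h1 : v1 ∈ L) (h2 : v2 ∈ L) (h3 : v3 ∈ L)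
    (hle0 : ∀ x ∈ L, mf c0 b0 x ≤ 1) (hle1 : ∀ x ∈ L, mf c1 b1 x ≤ 1)
    (hle2 : ∀ x ∈ L, mf c2 b2 x ≤ 1) (hle3 : ∀ x ∈ L, mf c3 b3 x ≤ 1)
    {g : ℝ} (hg0 : 0 ≤ g) (hg1 : g ≤ 1 / 2000000)
    (hl0 : ∀ x ∈ L, -g ≤ mf c0 b0 x) (hl1 : ∀ x ∈ L, -g ≤ mf c1 b1 x)
    (hl2 : ∀ x ∈ L, -g ≤ mf c2 b2 x) (hl3 : ∀ x ∈ L, -g ≤ mf c3 b3 x)
    (n0 : 31 / 125 ≤ b0) (n1 : 31 / 125 ≤ b1) (n2 : 31 / 125 ≤ b2) (n3 : 31 / 125 ≤ b3)
    (u0 : b0 ≤ 63 / 250) (u1 : b1 ≤ 63 / 250) (u2 : b2 ≤ 63 / 250) (u3 : b3 ≤ 63 / 250) :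
    ∃ E1 E2 E3 h1 h2 h3 : ℝ, 0 ≤ E1 ∧ 0 ≤ E2 ∧ 0 ≤ E3 ∧ 0 ≤ h1 ∧ 0 ≤ h2 ∧ 0 ≤ h3 ∧
      h1 ≤ g ∧ h2 ≤ g ∧ h3 ≤ g ∧
      E1 ≤ 199 / 200 * h1 / b0 ∧ E2 ≤ 199 / 200 * h2 / b0 ∧ E3 ≤ 199 / 200 * h3 / b0 ∧
      (∀ x ∈ L, (1 - 1 / 200) * (-mf c0 b0 x / b0) + 1 / 200 * ((mf c1 b1 x - 1) / (1 - b1)) ≤ E1) ∧
      (∀ x ∈ L, (1 - 1 / 200) * (-mf c0 b0 x / b0) + 1 / 200 * ((mf c2 b2 x - 1) / (1 - b2)) ≤ E2) ∧
      (∀ x ∈ L, (1 - 1 / 200) * (-mf c0 b0 x / b0) + 1 / 200 * ((mf c3 b3 x - 1) / (1 - b3)) ≤ E3) ∧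
      ENNReal.ofReal (99 / 100 * tv v0 v1 v2 v3 * (h1 + h2 + h3)) ≤
        volume (capSet L c0 c1 c2 c3 b0 b1 b2 b3) := by
  have p0 : 0 < b0 := by linarith
  obtain ⟨B1, mB1, E1, h1', e1, q1, m1, le1, nr1, f1⟩ := near_point hLc p0
    (by linarith : b1 < 1) h1 fr.d10 fr.d11 hle1
  obtain ⟨B2, mB2, E2, h2', e2, q2, m2, le2, nr2, f2⟩ := near_point hLc p0
    (by linarith : b2 < 1) h2 fr.d20 fr.d22 hle2
  obtain ⟨B3, mB3, E3, h3', e3, q3, m3, le3, nr3, f3⟩ := near_point hLc p0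
    (by linarith : b3 < 1) h3 fr.d30 fr.d33 hle3
  have up1 : h1' ≤ g := by linarith [hl0 B1 mB1]
  have up2 : h2' ≤ g := by linarith [hl0 B2 mB2]
  have up3 : h3' ≤ g := by linarith [hl0 B3 mB3]
  -- closeness to the vertices
  have near : ∀ {m h bk : ℝ}, 31 / 125 ≤ bk → bk ≤ 63 / 250 → m ≤ 1 → h ≤ g → 0 ≤ h →
      1 / 200 * ((1 - m) / (1 - bk)) ≤ 199 / 200 * h / b0 → 1 - m ≤ 604 * g := by
    intro m h bk hb1 hb2 hm hhg hh0 hnr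
    have hk : 0 < 1 - bk := by linarith
    have hA : 199 / 200 * h / b0 ≤ 199 / 200 * h / (31 / 125) := by
      apply div_le_div_of_nonneg_left (by positivity) (by norm_num) n0
    have hB : 1 - m ≤ (1 - bk) * 200 * (199 / 200 * h / (31 / 125)) := by
      have h5 : 1 / 200 * ((1 - m) / (1 - bk)) ≤ 199 / 200 * h / (31 / 125) := hnr.trans hA
      have h6 : (1 - m) / (1 - bk) ≤ 200 * (199 / 200 * h / (31 / 125)) := by linarith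
      rw [div_le_iff₀ hk] at h6
      linarith
    have hC : (1 - bk) * 200 * (199 / 200 * h / (31 / 125)) ≤ 604 * h := by
      have : (1 - bk) * 200 * (199 / 200 * h / (31 / 125)) = (1 - bk) * (199 * 125 / 31) * h := by
        ring
      rw [this]
      have h7 : (1 - bk) * (199 * 125 / 31) ≤ 604 := by
        norm_num at hb1 ⊢
        nlinarith
      exact mul_le_mul_of_nonneg_right h7 hh0
    linarith [mul_le_mul_of_nonneg_left hhg (by norm_num : (0 : ℝ) ≤ 604)]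
  have n1' := near n1 u1 (hle1 B1 mB1) up1 q1 nr1
  have n2' := near n2 u2 (hle2 B2 mB2) up2 q2 nr2
  have n3' := near n3 u3 (hle3 B3 mB3) up3 q3 nr3
  have s1 := fr.sum_mf B1
  have s2 := fr.sum_mf B2
  have s3 := fr.sum_mf B3
  set θ := 606 * g with hθ
  have hθ0 : 0 ≤ θ := by positivity
  have hθ1 : θ ≤ 1 / 2000 := by rw [hθ]; linarith
  have a0 := fun x hx => hl0 x hx
  have key := fr.cap_lower hL h0 mB1 mB2 mB3 hθ0 hθ1 (g := g) (by linarith)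
    (by rw [abs_le]; constructor <;> linarith [hle1 B1 mB1])
    (by rw [abs_le]; constructor <;> linarith [hle2 B2 mB2])
    (by rw [abs_le]; constructor <;> linarith [hle3 B3 mB3])
    (by rw [abs_le]; constructor <;> linarith [hl2 B1 mB1, hl3 B1 mB1, hl0 B1 mB1])
    (by rw [abs_le]; constructor <;> linarith [hl2 B1 mB1, hl3 B1 mB1, hl0 B1 mB1])
    (by rw [abs_le]; constructor <;> linarith [hl1 B2 mB2, hl3 B2 mB2, hl0 B2 mB2])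
    (by rw [abs_le]; constructor <;> linarith [hl1 B2 mB2, hl3 B2 mB2, hl0 B2 mB2])
    (by rw [abs_le]; constructor <;> linarith [hl1 B3 mB3, hl2 B3 mB3, hl0 B3 mB3])
    (by rw [abs_le]; constructor <;> linarith [hl1 B3 mB3, hl2 B3 mB3, hl0 B3 mB3])
    (hl2 B1 mB1) (hl3 B1 mB1) (hl1 B2 mB2) (hl3 B2 mB2) (hl1 B3 mB3) (hl2 B3 mB3)
    m1 m2 m3 q1 q2 q3 (by linarith)
  exact ⟨E1, E2, E3, h1', h2', h3', e1, e2, e3, q1, q2, q3, up1, up2, up3, le1, le2, le3, f1, f2, f3,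
    key⟩

/-- One term of the loss. -/
lemma term_bound {bk bl G1 G2 E1 E2 : ℝ} (n1 : 31 / 125 ≤ bk) (n2 : 31 / 125 ≤ bl)
    (u1 : bk ≤ 63 / 250) (u2 : bl ≤ 63 / 250) (hG1 : 0 ≤ G1) (hG2 : 0 ≤ G2) (hE1 : 0 ≤ E1)
    (hE2 : 0 ≤ E2) (hE1G : E1 ≤ G1) (hE2G : E2 ≤ G2) :
    bk / (1 - bk) * (bl * Lf (1 / 200) G1 G2 E1 E2) ≤
      85 / 1000 * (3 / 200 * (G1 + G2) + 39601 / 40000 * (E1 + E2)) := by
  have hL := Lf_le (w := 1 / 200) (by norm_num) (by norm_num) hG1 hG2 hE1 hE2 hE1G hE2G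
  have hL0 := Lf_nonneg (w := 1 / 200) (by norm_num) (by norm_num) hG1 hG2 hE1 hE2
  have hk : 0 < 1 - bk := by linarith
  have hw : bk / (1 - bk) * bl ≤ 85 / 1000 := by
    have h1 : bk / (1 - bk) ≤ (63 / 250) / (187 / 250) := by
      rw [div_le_div_iff₀ hk (by norm_num)]
      nlinarith
    have h2 : 0 ≤ bk / (1 - bk) := div_nonneg (by linarith) hk.le
    calc bk / (1 - bk) * bl ≤ (63 / 250) / (187 / 250) * (63 / 250) :=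
          mul_le_mul h1 u2 (by linarith) (by norm_num)
      _ ≤ 85 / 1000 := by norm_num
  calc bk / (1 - bk) * (bl * Lf (1 / 200) G1 G2 E1 E2)
      = (bk / (1 - bk) * bl) * Lf (1 / 200) G1 G2 E1 E2 := by ring
    _ ≤ 85 / 1000 * Lf (1 / 200) G1 G2 E1 E2 := mul_le_mul_of_nonneg_right hw hL0
    _ ≤ 85 / 1000 * (3 * (1 / 200) * (G1 + G2) + (1 - 1 / 200) ^ 2 * (E1 + E2)) :=
        mul_le_mul_of_nonneg_left hL (by norm_num)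
    _ = 85 / 1000 * (3 / 200 * (G1 + G2) + 39601 / 40000 * (E1 + E2)) := by norm_num

/-- The numerical bound for the total loss. -/
theorem loss_bound {b0 b1 b2 b3 a g G0 G1 G2 G3 E01 E02 E03 E12 E13 E10 E23 E20 E21 E30 E31 E32 : ℝ}
    (n0 : 31 / 125 ≤ b0) (n1 : 31 / 125 ≤ b1) (n2 : 31 / 125 ≤ b2) (n3 : 31 / 125 ≤ b3)
    (u0 : b0 ≤ 63 / 250) (u1 : b1 ≤ 63 / 250) (u2 : b2 ≤ 63 / 250) (u3 : b3 ≤ 63 / 250)
    (hG0 : 0 ≤ G0) (hG1 : 0 ≤ G1) (hG2 : 0 ≤ G2) (hG3 : 0 ≤ G3)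
    (h01 : 0 ≤ E01) (h02 : 0 ≤ E02) (h03 : 0 ≤ E03) (h12 : 0 ≤ E12) (h13 : 0 ≤ E13) (h10 : 0 ≤ E10)
    (h23 : 0 ≤ E23) (h20 : 0 ≤ E20) (h21 : 0 ≤ E21) (h30 : 0 ≤ E30) (h31 : 0 ≤ E31) (h32 : 0 ≤ E32)
    (l01 : E01 ≤ G1) (l02 : E02 ≤ G2) (l03 : E03 ≤ G3) (l12 : E12 ≤ G2) (l13 : E13 ≤ G3)
    (l10 : E10 ≤ G0) (l23 : E23 ≤ G3) (l20 : E20 ≤ G0) (l21 : E21 ≤ G1) (l30 : E30 ≤ G0)
    (l31 : E31 ≤ G1) (l32 : E32 ≤ G2)
    (g0 : G0 ≤ 125 / 31 * g) (g1 : G1 ≤ 125 / 31 * g) (g2 : G2 ≤ 125 / 31 * g) (g3 : G3 ≤ 125 / 31 * g)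
    (hg : 97 / 100 * g ≤ a)
    (hE : 99 / 100 * (E01 + E02 + E03 + E12 + E13 + E10 + E23 + E20 + E21 + E30 + E31 + E32) ≤
      199 / 200 * (125 / 31) * a) :
    lossTotal b0 b1 b2 b3 (1 / 200) G0 G1 G2 G3 E01 E02 E03 E12 E13 E10 E23 E20 E21 E30 E31 E32 ≤
      81 / 100 * a := by
  unfold lossTotal
  have t1 := term_bound (G1 := G1) (G2 := G2) n0 n3 u0 u3 hG1 hG2 h01 h02 l01 l02
  have t2 := term_bound (G1 := G2) (G2 := G3) n0 n1 u0 u1 hG2 hG3 h02 h03 l02 l03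
  have t3 := term_bound (G1 := G3) (G2 := G1) n0 n2 u0 u2 hG3 hG1 h03 h01 l03 l01
  have t4 := term_bound (G1 := G2) (G2 := G3) n1 n0 u1 u0 hG2 hG3 h12 h13 l12 l13
  have t5 := term_bound (G1 := G3) (G2 := G0) n1 n2 u1 u2 hG3 hG0 h13 h10 l13 l10
  have t6 := term_bound (G1 := G0) (G2 := G2) n1 n3 u1 u3 hG0 hG2 h10 h12 l10 l12
  have t7 := term_bound (G1 := G3) (G2 := G0) n2 n1 u2 u1 hG3 hG0 h23 h20 l23 l20
  have t8 := term_bound (G1 := G0) (G2 := G1) n2 n3 u2 u3 hG0 hG1 h20 h21 l20 l21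
  have t9 := term_bound (G1 := G1) (G2 := G3) n2 n0 u2 u0 hG1 hG3 h21 h23 l21 l23
  have t10 := term_bound (G1 := G0) (G2 := G1) n3 n2 u3 u2 hG0 hG1 h30 h31 l30 l31
  have t11 := term_bound (G1 := G1) (G2 := G2) n3 n0 u3 u0 hG1 hG2 h31 h32 l31 l32
  have t12 := term_bound (G1 := G2) (G2 := G0) n3 n1 u3 u1 hG2 hG0 h32 h30 l32 l30
  simp only [mul_add]
  simp only [mul_add] at t1 t2 t3 t4 t5 t6 t7 t8 t9 t10 t11 t12
  linarith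

end Vale.Agent.Lib.P248
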