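import Vale.Agent.Lib.P248.Simplex

/-!
Tetrahedra inscribed in a set and the predicate `Far`.
-/

open MeasureTheory Set

namespace Vale.Agent.Lib.P248

/-- The volume of the tetrahedron with vertices `a b c d`. -/
noncomputable def tv (a b c d : F) : ℝ := |det3 (b - a) (c - a) (d - a)| / 6

/-- Every tetrahedron inscribed in `K` has volume at most `(1 - e) |K|`. -/
def Far (K : Set F) (e : ℝ) : Prop :=
  ∀ a ∈ K, ∀ b ∈ K, ∀ c ∈ K, ∀ d ∈ K, tv a b c d ≤ (1 - e) * (volume K).toReal

/-- The simplex with vertex `a` and edge vectors `A B C`. -/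
def simplexSet (a A B C : F) : Set F := (fun t => a + colMap A B C t) '' Delta

lemma mem_simplexSet {a A B C y : F} :
    y ∈ simplexSet a A B C ↔ ∃ α β γ : ℝ, 0 ≤ α ∧ 0 ≤ β ∧ 0 ≤ γ ∧ α + β + γ ≤ 1 ∧
      y = a + α • A + β • B + γ • C := by
  constructor
  · rintro ⟨t, ⟨h1, h2, h3, h4⟩, rfl⟩
    refine ⟨t.1.1, t.1.2, t.2, h1, h2, h3, h4, ?_⟩
    change a + (t.1.1 • A + t.1.2 • B + t.2 • C) = _
    simp only [add_assoc]
  · rintro ⟨α, β, γ, h1, h2, h3, h4, rfl⟩
    refine ⟨((α, β), γ), ⟨h1, h2, h3, h4⟩, ?_⟩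
    change a + (α • A + β • B + γ • C) = _
    simp only [add_assoc]

lemma volume_simplexSet (a A B C : F) :
    volume (simplexSet a A B C) = ENNReal.ofReal (|det3 A B C| / 6) := by
  unfold simplexSet
  rw [volume_image, ← ENNReal.ofReal_mul (abs_nonneg _)]
  congr 1
  ring

lemma isCompact_simplexSet (a A B C : F) : IsCompact (simplexSet a A B C) := by
  have hD : IsCompact Delta := by
    apply Metric.isCompact_of_isClosed_isBounded
    · have h1 : IsClosed {t : F | 0 ≤ t.1.1} := isClosed_le continuous_const (by fun_prop)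
      have h2 : IsClosed {t : F | 0 ≤ t.1.2} := isClosed_le continuous_const (by fun_prop)
      have h3 : IsClosed {t : F | 0 ≤ t.2} := isClosed_le continuous_const (by fun_prop)
      have h4 : IsClosed {t : F | t.1.1 + t.1.2 + t.2 ≤ 1} :=
        isClosed_le (by fun_prop) continuous_const
      have : Delta = {t : F | 0 ≤ t.1.1} ∩ ({t : F | 0 ≤ t.1.2} ∩ ({t : F | 0 ≤ t.2} ∩
          {t : F | t.1.1 + t.1.2 + t.2 ≤ 1})) := by
        ext t
        simp [Delta]
      rw [this]
      exact h1.inter (h2.inter (h3.inter h4))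
    · rw [Metric.isBounded_iff_subset_closedBall (0 : F)]
      refine ⟨1, ?_⟩
      rintro t ⟨h1, h2, h3, h4⟩
      simp only [mem_closedBall_zero_iff, Prod.norm_def, sup_le_iff, Real.norm_eq_abs]
      refine ⟨⟨?_, ?_⟩, ?_⟩
      · rw [abs_of_nonneg h1]; linarith
      · rw [abs_of_nonneg h2]; linarith
      · rw [abs_of_nonneg h3]; linarith
  apply hD.image
  have : Continuous (fun t : F => t.1.1 • A + t.1.2 • B + t.2 • C) := by fun_prop
  change Continuous fun t : F => a + (t.1.1 • A + t.1.2 • B + t.2 • C)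
  fun_prop

lemma measurableSet_simplexSet (a A B C : F) : MeasurableSet (simplexSet a A B C) :=
  (isCompact_simplexSet a A B C).isClosed.measurableSet

lemma convexHull_four (a b c d : F) :
    convexHull ℝ ({a, b, c, d} : Set F) = simplexSet a (b - a) (c - a) (d - a) := by
  apply Subset.antisymm
  · apply convexHull_min
    · intro x hx
      rw [mem_simplexSet]
      simp only [mem_insert_iff, mem_singleton_iff] at hx
      rcases hx with rfl | rfl | rfl | rfl
      · exact ⟨0, 0, 0, le_rfl, le_rfl, le_rfl, by norm_num, by simp⟩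
      · exact ⟨1, 0, 0, by norm_num, le_rfl, le_rfl, by norm_num, by simp⟩
      · exact ⟨0, 1, 0, le_rfl, by norm_num, le_rfl, by norm_num, by simp⟩
      · exact ⟨0, 0, 1, le_rfl, le_rfl, by norm_num, by norm_num, by simp⟩
    · intro x hx y hy s t hs ht hst
      obtain ⟨α, β, γ, h1, h2, h3, h4, rfl⟩ := mem_simplexSet.1 hx
      obtain ⟨α', β', γ', h1', h2', h3', h4', rfl⟩ := mem_simplexSet.1 hy
      rw [mem_simplexSet]
      refine ⟨s * α + t * α', s * β + t * β', s * γ + t * γ', by positivity, by positivity,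
        by positivity, ?_, ?_⟩
      · nlinarith
      · have hs' : s = 1 - t := by linarith
        subst hs'
        ext <;> simp <;> ring
  · intro y hy
    obtain ⟨α, β, γ, h1, h2, h3, h4, rfl⟩ := mem_simplexSet.1 hy
    have := convex_four (convex_convexHull ℝ ({a, b, c, d} : Set F))
      (subset_convexHull ℝ _ (by simp : a ∈ ({a, b, c, d} : Set F)))
      (subset_convexHull ℝ _ (by simp : b ∈ ({a, b, c, d} : Set F)))
      (subset_convexHull ℝ _ (by simp : c ∈ ({a, b, c, d} : Set F)))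
      (subset_convexHull ℝ _ (by simp : d ∈ ({a, b, c, d} : Set F)))
      (a := 1 - α - β - γ) (b := α) (c := β) (d := γ) (by linarith) h1 h2 h3 (by ring)
    convert this using 1
    ext <;> simp <;> ring

lemma volume_hull_four (a b c d : F) :
    volume (convexHull ℝ ({a, b, c, d} : Set F)) = ENNReal.ofReal (tv a b c d) := by
  rw [convexHull_four, volume_simplexSet]
  rfl

lemma tv_nonneg (a b c d : F) : 0 ≤ tv a b c d := by
  unfold tv
  positivity

lemma simplexSet_subset {C : Set F} (hC : Convex ℝ C) {a b c d : F} (ha : a ∈ C) (hb : b ∈ C)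
    (hc : c ∈ C) (hd : d ∈ C) : simplexSet a (b - a) (c - a) (d - a) ⊆ C := by
  rw [← convexHull_four]
  apply convexHull_min _ hC
  intro x hx
  simp only [mem_insert_iff, mem_singleton_iff] at hx
  rcases hx with rfl | rfl | rfl | rfl <;> assumption

/-! ### Affine dependence of the tetrahedron volume on each vertex -/

lemma tv_mix_1 (x y b c d : F) {s t : ℝ} (hs : 0 ≤ s) (ht : 0 ≤ t) (hst : s + t = 1) :
    tv (s • x + t • y) b c d ≤ s * tv x b c d + t * tv y b c d := by
  have hs' : s = 1 - t := by linarith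
  subst hs'
  have e : det3 (b - ((1 - t) • x + t • y)) (c - ((1 - t) • x + t • y)) (d - ((1 - t) • x + t • y))
      = (1 - t) * det3 (b - x) (c - x) (d - x) + t * det3 (b - y) (c - y) (d - y) := by
    simp only [det3, Prod.fst_sub, Prod.snd_sub, Prod.fst_add, Prod.snd_add, Prod.smul_fst,
      Prod.smul_snd, smul_eq_mul]
    ring
  unfold tv
  rw [e]
  have := abs_add_le ((1 - t) * det3 (b - x) (c - x) (d - x)) (t * det3 (b - y) (c - y) (d - y))
  rw [abs_mul, abs_mul, abs_of_nonneg hs, abs_of_nonneg ht] at this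
  nlinarith

lemma tv_mix_2 (a x y c d : F) {s t : ℝ} (hs : 0 ≤ s) (ht : 0 ≤ t) (hst : s + t = 1) :
    tv a (s • x + t • y) c d ≤ s * tv a x c d + t * tv a y c d := by
  have hs' : s = 1 - t := by linarith
  subst hs'
  have e : det3 ((1 - t) • x + t • y - a) (c - a) (d - a)
      = (1 - t) * det3 (x - a) (c - a) (d - a) + t * det3 (y - a) (c - a) (d - a) := by
    simp only [det3, Prod.fst_sub, Prod.snd_sub, Prod.fst_add, Prod.snd_add, Prod.smul_fst,
      Prod.smul_snd, smul_eq_mul]
    ring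
  unfold tv
  rw [e]
  have := abs_add_le ((1 - t) * det3 (x - a) (c - a) (d - a)) (t * det3 (y - a) (c - a) (d - a))
  rw [abs_mul, abs_mul, abs_of_nonneg hs, abs_of_nonneg ht] at this
  nlinarith

lemma tv_mix_3 (a b x y d : F) {s t : ℝ} (hs : 0 ≤ s) (ht : 0 ≤ t) (hst : s + t = 1) :
    tv a b (s • x + t • y) d ≤ s * tv a b x d + t * tv a b y d := by
  have hs' : s = 1 - t := by linarith
  subst hs'
  have e : det3 (b - a) ((1 - t) • x + t • y - a) (d - a)
      = (1 - t) * det3 (b - a) (x - a) (d - a) + t * det3 (b - a) (y - a) (d - a) := by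
    simp only [det3, Prod.fst_sub, Prod.snd_sub, Prod.fst_add, Prod.snd_add, Prod.smul_fst,
      Prod.smul_snd, smul_eq_mul]
    ring
  unfold tv
  rw [e]
  have := abs_add_le ((1 - t) * det3 (b - a) (x - a) (d - a)) (t * det3 (b - a) (y - a) (d - a))
  rw [abs_mul, abs_mul, abs_of_nonneg hs, abs_of_nonneg ht] at this
  nlinarith

lemma tv_mix_4 (a b c x y : F) {s t : ℝ} (hs : 0 ≤ s) (ht : 0 ≤ t) (hst : s + t = 1) :
    tv a b c (s • x + t • y) ≤ s * tv a b c x + t * tv a b c y := by
  have hs' : s = 1 - t := by linarith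
  subst hs'
  have e : det3 (b - a) (c - a) ((1 - t) • x + t • y - a)
      = (1 - t) * det3 (b - a) (c - a) (x - a) + t * det3 (b - a) (c - a) (y - a) := by
    simp only [det3, Prod.fst_sub, Prod.snd_sub, Prod.fst_add, Prod.snd_add, Prod.smul_fst,
      Prod.smul_snd, smul_eq_mul]
    ring
  unfold tv
  rw [e]
  have := abs_add_le ((1 - t) * det3 (b - a) (c - a) (x - a)) (t * det3 (b - a) (c - a) (y - a))
  rw [abs_mul, abs_mul, abs_of_nonneg hs, abs_of_nonneg ht] at this
  nlinarith

lemma mix_le {A B M s t : ℝ} (hs : 0 ≤ s) (ht : 0 ≤ t) (hst : s + t = 1) (hA : A ≤ M) (hB : B ≤ M) :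
    s * A + t * B ≤ M := by
  have h1 := mul_le_mul_of_nonneg_left hA hs
  have h2 := mul_le_mul_of_nonneg_left hB ht
  have h3 : s * M + t * M = M := by rw [← add_mul, hst, one_mul]
  linarith

/-- The largest tetrahedron in a convex hull can be bounded on the generators. -/
theorem tv_le_of_generators {Y : Set F} {M : ℝ}
    (h : ∀ a ∈ Y, ∀ b ∈ Y, ∀ c ∈ Y, ∀ d ∈ Y, tv a b c d ≤ M) :
    ∀ a ∈ convexHull ℝ Y, ∀ b ∈ convexHull ℝ Y, ∀ c ∈ convexHull ℝ Y, ∀ d ∈ convexHull ℝ Y,
      tv a b c d ≤ M := by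
  -- the fourth vertex
  have h4 : ∀ a ∈ Y, ∀ b ∈ Y, ∀ c ∈ Y, ∀ d ∈ convexHull ℝ Y, tv a b c d ≤ M := by
    intro a ha b hb c hc d hd
    have hconv : Convex ℝ {d : F | tv a b c d ≤ M} := by
      intro x hx y hy s t hs ht hst
      have := tv_mix_4 a b c x y hs ht hst
      have h1 : tv a b c x ≤ M := hx
      have h2 : tv a b c y ≤ M := hy
      change tv a b c (s • x + t • y) ≤ M
      exact this.trans (mix_le hs ht hst h1 h2)
    exact convexHull_min (fun d hd => h a ha b hb c hc d hd) hconv hd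
  have h3 : ∀ a ∈ Y, ∀ b ∈ Y, ∀ c ∈ convexHull ℝ Y, ∀ d ∈ convexHull ℝ Y, tv a b c d ≤ M := by
    intro a ha b hb c hc d hd
    have hconv : Convex ℝ {c : F | tv a b c d ≤ M} := by
      intro x hx y hy s t hs ht hst
      have := tv_mix_3 a b x y d hs ht hst
      have h1 : tv a b x d ≤ M := hx
      have h2 : tv a b y d ≤ M := hy
      change tv a b (s • x + t • y) d ≤ M
      exact this.trans (mix_le hs ht hst h1 h2)
    exact convexHull_min (fun c hc => h4 a ha b hb c hc d hd) hconv hc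
  have h2 : ∀ a ∈ Y, ∀ b ∈ convexHull ℝ Y, ∀ c ∈ convexHull ℝ Y, ∀ d ∈ convexHull ℝ Y,
      tv a b c d ≤ M := by
    intro a ha b hb c hc d hd
    have hconv : Convex ℝ {b : F | tv a b c d ≤ M} := by
      intro x hx y hy s t hs ht hst
      have := tv_mix_2 a x y c d hs ht hst
      have h1 : tv a x c d ≤ M := hx
      have h2 : tv a y c d ≤ M := hy
      change tv a (s • x + t • y) c d ≤ M
      exact this.trans (mix_le hs ht hst h1 h2)
    exact convexHull_min (fun b hb => h3 a ha b hb c hc d hd) hconv hb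
  intro a ha b hb c hc d hd
  have hconv : Convex ℝ {a : F | tv a b c d ≤ M} := by
    intro x hx y hy s t hs ht hst
    have := tv_mix_1 x y b c d hs ht hst
    have h1 : tv x b c d ≤ M := hx
    have h2 : tv y b c d ≤ M := hy
    change tv (s • x + t • y) b c d ≤ M
    exact this.trans (mix_le hs ht hst h1 h2)
  exact convexHull_min (fun a ha => h2 a ha b hb c hc d hd) hconv ha

/-- A tetrahedron of a finite hull of largest volume exists. -/
theorem exists_max_tetra (Y : Finset F) (hY : Y.Nonempty) :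
    ∃ a ∈ Y, ∃ b ∈ Y, ∃ c ∈ Y, ∃ d ∈ Y,
      ∀ a' ∈ convexHull ℝ (Y : Set F), ∀ b' ∈ convexHull ℝ (Y : Set F),
      ∀ c' ∈ convexHull ℝ (Y : Set F), ∀ d' ∈ convexHull ℝ (Y : Set F),
        tv a' b' c' d' ≤ tv a b c d := by
  classical
  have hne : (Y ×ˢ Y ×ˢ Y ×ˢ Y).Nonempty := by
    obtain ⟨y, hy⟩ := hY
    exact ⟨(y, y, y, y), by simp [hy]⟩
  obtain ⟨⟨a, b, c, d⟩, hm, hmax⟩ := Finset.exists_max_image (Y ×ˢ Y ×ˢ Y ×ˢ Y)
    (fun p => tv p.1 p.2.1 p.2.2.1 p.2.2.2) hne
  simp only [Finset.mem_product] at hm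
  refine ⟨a, hm.1, b, hm.2.1, c, hm.2.2.1, d, hm.2.2.2, ?_⟩
  apply tv_le_of_generators
  intro a' ha' b' hb' c' hc' d' hd'
  exact hmax (a', b', c', d') (by simp_all)

/-- Translation invariance of the tetrahedron volume. -/
lemma tv_add (u a b c d : F) : tv (a + u) (b + u) (c + u) (d + u) = tv a b c d := by
  unfold tv
  simp only [add_sub_add_right_eq_sub]

lemma Far.mono {K : Set F} {e e' : ℝ} (h : Far K e) (he : e' ≤ e) : Far K e' := by
  intro a ha b hb c hc d hd
  have h1 := h a ha b hb c hc d hd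
  have h2 : (0 : ℝ) ≤ (volume K).toReal := ENNReal.toReal_nonneg
  nlinarith

end Vale.Agent.Lib.P248
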